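import Vale.Agent.P231.S3B3.Nv

/-!
# P231, stage 3, block S3-B3, part 6: the 8-gons of four unit vectors
-/

set_option maxSynthPendingDepth 3
set_option linter.unusedSectionVars false
set_option linter.unusedVariables false

open Bundle Manifold Set Filter Module
open scoped ContDiff Manifold Topology

namespace Vale.Agent.P231.S3B3

noncomputable section

open Vale.Agent.P234 Vale.Agent.P231 Vale.Agent.P231.H775 Vale.Agent.P231.Fm Vale.Agent.P231.W
open Vale.Agent.P231.H766 Vale.Agent.P231.WD3 Vale.Agent.P231.WF Vale.Agent.P231.S3A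
open Vale.Agent.P231.WR Vale.Agent.P231.S2N

variable {E : Type*} [NormedAddCommGroup E] [NormedSpace ℝ E] [FiniteDimensional ℝ E]
  {M : Type*} [MetricSpace M] [ChartedSpace E M] [IsManifold 𝓘(ℝ, E) ∞ M]
  [RiemannianBundle (fun x : M => TangentSpace 𝓘(ℝ, E) x)]
  [IsContMDiffRiemannianBundle 𝓘(ℝ, E) ∞ E (fun x : M => TangentSpace 𝓘(ℝ, E) x)]
  {e : ∀ x : M, TangentSpace 𝓘(ℝ, E) x → M}
  [CompactSpace M] [ConnectedSpace M] [IsRiemannianManifold 𝓘(ℝ, E) M] {D : ℝ}

/-- the 8-gon of four unit vectors -/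
def y8 (e : ∀ x : M, TangentSpace 𝓘(ℝ, E) x → M) (D : ℝ) (u : Fin 4 → UT E M) : ZMod 8 → M :=
  ![gm e (u 0, D / 4), gm e (u 0, 3 * D / 4), gm e (u 1, D / 4), gm e (u 1, 3 * D / 4),
    gm e (u 2, D / 4), gm e (u 2, 3 * D / 4), gm e (u 3, D / 4), gm e (u 3, 3 * D / 4)]

/-- the corners of the closed geodesic, as unit vectors -/
def vj (F : Facts e) (D : ℝ) (v : UT E M) (j : Fin 4) : UT E M := phi F (v, (j.val : ℝ) * D)

theorem vj_zero (F : Facts e) (v : UT E M) : vj F D v 0 = v := by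
  unfold vj
  simp [phi_zero]

theorem vj_succ (F : Facts e) (hD : 0 < D) (hB : InjGE e D) (hdiam : ∀ p q : M, dist p q ≤ D)
    (v : UT E M) (j : Fin 4) : vj F D v (j + 1) = phi F (vj F D v j, D) := by
  unfold vj
  rw [phi_add]
  fin_cases j
  · change phi F (v, ((1 : ℕ) : ℝ) * D) = phi F (v, ((0 : ℕ) : ℝ) * D + D)
    congr 2
    push_cast
    ring
  · change phi F (v, ((2 : ℕ) : ℝ) * D) = phi F (v, ((1 : ℕ) : ℝ) * D + D)
    congr 2
    push_cast
    ring
  · change phi F (v, ((3 : ℕ) : ℝ) * D) = phi F (v, ((2 : ℕ) : ℝ) * D + D)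
    congr 2
    push_cast
    ring
  · have h1 : ((3 : ℕ) : ℝ) * D + D = 2 * D + 2 * D := by norm_num; ring
    change phi F (v, ((0 : ℕ) : ℝ) * D) = phi F (v, ((3 : ℕ) : ℝ) * D + D)
    rw [h1, ← phi_add, W.phi_per F hD hB hdiam, W.phi_per F hD hB hdiam]
    simp [phi_zero]

theorem y8_vj (F : Facts e) (hD : 0 < D) (v : UT E M) : y8 e D (vj F D v) = x8 e D v := by
  have key : ∀ i : Fin 8, y8 e D (vj F D v) i = x8 e D v i := by
    intro i
    fin_cases i
    all_goals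
      simp only [y8, x8, vj]
      first
        | (change gm e (phi F (v, _), _) = gm e (v, _)
           rw [gm_phi F]
           congr 2
           simp [ZMod.val]
           try ring)
  exact funext key

/-- the energy of the 8-gon -/
theorem En_y8 (u : Fin 4 → UT E M) : En (y8 e D u) =
    ∑ j, (dist (gm e (u j, D / 4)) (gm e (u j, 3 * D / 4)) ^ 2 +
      dist (gm e (u j, 3 * D / 4)) (gm e (u (j + 1), D / 4)) ^ 2) := by
  unfold En sd
  change ∑ i : Fin 8, dist (y8 e D u i) (y8 e D u ((i + 1 : Fin 8) : Fin 8)) ^ 2 = _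
  rw [Fin.sum_univ_eight, Fin.sum_univ_four]
  change dist (gm e (u 0, D / 4)) (gm e (u 0, 3 * D / 4)) ^ 2 +
    dist (gm e (u 0, 3 * D / 4)) (gm e (u 1, D / 4)) ^ 2 +
    dist (gm e (u 1, D / 4)) (gm e (u 1, 3 * D / 4)) ^ 2 +
    dist (gm e (u 1, 3 * D / 4)) (gm e (u 2, D / 4)) ^ 2 +
    dist (gm e (u 2, D / 4)) (gm e (u 2, 3 * D / 4)) ^ 2 +
    dist (gm e (u 2, 3 * D / 4)) (gm e (u 3, D / 4)) ^ 2 +
    dist (gm e (u 3, D / 4)) (gm e (u 3, 3 * D / 4)) ^ 2 +
    dist (gm e (u 3, 3 * D / 4)) (gm e (u 0, D / 4)) ^ 2 =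
    dist (gm e (u 0, D / 4)) (gm e (u 0, 3 * D / 4)) ^ 2 +
    dist (gm e (u 0, 3 * D / 4)) (gm e (u 1, D / 4)) ^ 2 +
    (dist (gm e (u 1, D / 4)) (gm e (u 1, 3 * D / 4)) ^ 2 +
    dist (gm e (u 1, 3 * D / 4)) (gm e (u 2, D / 4)) ^ 2) +
    (dist (gm e (u 2, D / 4)) (gm e (u 2, 3 * D / 4)) ^ 2 +
    dist (gm e (u 2, 3 * D / 4)) (gm e (u 3, D / 4)) ^ 2) +
    (dist (gm e (u 3, D / 4)) (gm e (u 3, 3 * D / 4)) ^ 2 +
    dist (gm e (u 3, 3 * D / 4)) (gm e (u 0, D / 4)) ^ 2)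
  ring

theorem dist_gm_gm (F : Facts e) (hB : InjGE e D) (v : UT E M) {s t : ℝ} (h0 : s ≤ t)
    (h1 : t ≤ s + D) : dist (gm e (v, s)) (gm e (v, t)) = t - s := by
  have h2 := dist_foot_gm' hB (phi F (v, s)) (r := t - s) (by linarith) (by linarith)
  rw [foot_phi, gm_phi] at h2
  rwa [show s + (t - s) = t by ring] at h2

/-- a corner edge is at most `D / 2` -/
theorem corner_le (F : Facts e) (hD : 0 < D) (hB : InjGE e D) {u u' : UT E M}
    (h : foot u' = bar e D u) : dist (gm e (u, 3 * D / 4)) (gm e (u', D / 4)) ≤ D / 2 := by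
  have h1 : dist (gm e (u, 3 * D / 4)) (bar e D u) = D - 3 * D / 4 :=
    dist_gm_gm F hB u (by linarith) (by linarith)
  have h2 : dist (foot u') (gm e (u', D / 4)) = D / 4 :=
    dist_foot_gm' hB u' (by linarith) (by linarith)
  rw [h] at h2
  have h3 := dist_triangle (gm e (u, 3 * D / 4)) (bar e D u) (gm e (u', D / 4))
  linarith

/-- **the energy of the 8-gons of four unit vectors is strictly concave**, if one of the corners
opens at first order -/
theorem neg_y8 (F : Facts e) (hD : 0 < D) (hB : InjGE e D) (hdiam : ∀ p q : M, dist p q ≤ D)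
    {u : ℝ → Fin 4 → UT E M} (hu : ∀ j, (dUT E M).At (fun r => u r j) 0)
    (h0 : ∀ j, u 0 (j + 1) = phi F (u 0 j, D))
    (hf : ∀ᶠ r in 𝓝 (0 : ℝ), ∀ j, foot (u r (j + 1)) = bar e D (u r j))
    (hc : ∀ᶠ r in 𝓝 (0 : ℝ), ∀ j, foot (u r j) = foot (u 0 j)) (j : Fin 4) {a b : E}
    (ha : HasDerivAt (fun r => (vec' (u r (j + 1)) : E)) a 0)
    (hb : HasDerivAt (fun r => (vec' (phi F (u r j, D)) : E)) b 0) (hab : a ≠ b) :
    Neg D (fun r => y8 e D (u r)) := by
  set p := foot (u 0 (j + 1)) with hp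
  set η : E := a - b with hη
  have hη0 : η ≠ 0 := sub_ne_zero.2 hab
  have hη1 : 0 < ip p η η := by
    rw [ip_self_eq]
    exact pow_pos (nm_pos' hη0) 2
  have hy : (dUT E M).At (fun r => ng (phi F (u r j, D))) 0 :=
    map_ng (map_phi F (u := fun r => (u r j, D)) ⟨hu j, Sm.of_contDiff contDiff_const _⟩)
  have hd : HasDerivAt (fun r => ip p η (vec' (ng (phi F (u r j, D))) + vec' (u r (j + 1))))
      (ip p η η) 0 := by
    have k1 : HasDerivAt (fun r => (vec' (ng (phi F (u r j, D))) + vec' (u r (j + 1)) : E))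
        (-b + a) 0 := hb.neg.add ha
    have k2 := (H583.ipL p η).hasFDerivAt.comp_hasDerivAt (0 : ℝ) k1
    have k3 : (-b + a : E) = η := by rw [hη]; abel
    rw [k3] at k2
    exact k2
  obtain ⟨c, hc0, hcor⟩ := corner_dist F hD hB (p := p) hy (hu (j + 1)) (by
    filter_upwards [hf, hc] with r h1 h2
    change bar e D (u r j) = p
    rw [← h1 j, h2 (j + 1)]) (by
    filter_upwards [hc] with r h2
    exact h2 (j + 1)) (by
    rw [vec'_ng, h0 j]) hd hη1 (ρ := D / 4) (by positivity) (by linarith)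
  have hsq := corner_sq (fun r => dist_nonneg) (by positivity) hc0 hcor
  refine ⟨D / 2 * c, by positivity, ?_⟩
  filter_upwards [hsq, hf] with r h1 h2
  rw [En_y8]
  have h3 : ∀ k, dist (gm e (u r k, D / 4)) (gm e (u r k, 3 * D / 4)) ^ 2 = D ^ 2 / 4 := by
    intro k
    rw [dist_gm_gm F hB _ (by linarith) (by linarith)]
    ring
  have h4 : ∀ k, dist (gm e (u r k, 3 * D / 4)) (gm e (u r (k + 1), D / 4)) ^ 2 ≤ D ^ 2 / 4 := by
    intro k
    have k1 := corner_le F hD hB (h2 k)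
    have k2 := pow_le_pow_left₀ dist_nonneg k1 2
    linarith
  have h5 : dist (gm e (u r j, 3 * D / 4)) (gm e (u r (j + 1), D / 4)) ^ 2 ≤
      D ^ 2 / 4 - D / 2 * c * r ^ 2 := by
    have k1 : gm e (ng (phi F (u r j, D)), D / 4) = gm e (u r j, 3 * D / 4) := by
      rw [gm_ng, gm_phi F]
      congr 2
      ring
    rw [k1] at h1
    linarith
  have h6 : ∑ k : Fin 4, (dist (gm e (u r k, D / 4)) (gm e (u r k, 3 * D / 4)) ^ 2 +
      dist (gm e (u r k, 3 * D / 4)) (gm e (u r (k + 1), D / 4)) ^ 2) ≤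
      ∑ k : Fin 4, (D ^ 2 / 2 - if k = j then D / 2 * c * r ^ 2 else 0) := by
    refine Finset.sum_le_sum fun k _ => ?_
    rw [h3 k]
    split_ifs with hk
    · subst hk
      linarith
    · linarith [h4 k]
  refine h6.trans ?_
  rw [Finset.sum_sub_distrib, Finset.sum_ite_eq' Finset.univ j, Finset.sum_const,
    Finset.card_univ, Fintype.card_fin, nsmul_eq_mul]
  simp only [Finset.mem_univ, if_true]
  push_cast
  linarith

end

end Vale.Agent.P231.S3B3
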