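import Vale.Agent.P231.S3B3.Tube

/-!
# P231, stage 3, block S3-B3, part 11: interpolation between two sources of kernel vectors
-/

set_option maxSynthPendingDepth 3
set_option linter.unusedSectionVars false
set_option linter.unusedVariables false

open Bundle Manifold Set Filter Module
open scoped ContDiff Manifold Topology

namespace Vale.Agent.P231.S3B3

noncomputable section

open Vale.Agent.P234 Vale.Agent.P231 Vale.Agent.P231.H775 Vale.Agent.P231.Fm Vale.Agent.P231.W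
open Vale.Agent.P231.H766 Vale.Agent.P231.WD3 Vale.Agent.P231.WF Vale.Agent.P231.S3A
open Vale.Agent.P231.WR Vale.Agent.P231.S2N

variable {E : Type*} [NormedAddCommGroup E] [NormedSpace ℝ E] [FiniteDimensional ℝ E]
  {M : Type*} [MetricSpace M] [ChartedSpace E M] [IsManifold 𝓘(ℝ, E) ∞ M]
  [RiemannianBundle (fun x : M => TangentSpace 𝓘(ℝ, E) x)]
  [IsContMDiffRiemannianBundle 𝓘(ℝ, E) ∞ E (fun x : M => TangentSpace 𝓘(ℝ, E) x)]
  {e : ∀ x : M, TangentSpace 𝓘(ℝ, E) x → M}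
  [CompactSpace M] [ConnectedSpace M] [IsRiemannianManifold 𝓘(ℝ, E) M] {D : ℝ}

variable {V : Type} [NormedAddCommGroup V] [NormedSpace ℝ V] [FiniteDimensional ℝ V]
  {W : Type} [NormedAddCommGroup W] [NormedSpace ℝ W] [FiniteDimensional ℝ W]

/-- coefficient families: the coefficient vectors of the corner fields, linear in `w`, such that for
`w ≠ 0` at least one corner opens -/
structure CC (P : UT E M → V →L[ℝ] V) (P' : UT E M → W →L[ℝ] W)
    (C : (UT E M × W) × ℝ → Fin 4 → V) : Prop where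
  smul : ∀ v w θ (r : ℝ) j, C ((v, r • w), θ) j = r • C ((v, w), θ) j
  smooth : ∀ j, ∀ {E' : Type} [NormedAddCommGroup E'] [NormedSpace ℝ E'] [FiniteDimensional ℝ E']
    {u : E' → (UT E M × W) × ℝ} {x : E'}, (((dUT E M).prod (Dif.lin W)).prod (Dif.lin ℝ)).At u x →
      Sm (fun s => C (u s) j) x
  fix : ∀ v θ w j, P' v w = w → P v (C ((v, w), θ) j) = C ((v, w), θ) j
  opn : ∀ v, ∀ θ ∈ Icc (0 : ℝ) 1, ∀ w, P' v w = w → w ≠ 0 →
    ∃ j, C ((v, w), θ) (j + 1) + C ((v, w), θ) j ≠ 0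

variable {F : Facts e} {hD : 0 < D} {hB : InjGE e D} {hdiam : ∀ p q : M, dist p q ≤ D}
  {P : UT E M → V →L[ℝ] V} {P' : UT E M → W →L[ℝ] W} {wm₀ wm₁ : UT E M → V → E}
  {C : (UT E M × W) × ℝ → Fin 4 → V}

/-- the half turn at the corners -/
theorem Src.tr (h : Src F hD hB hdiam P wm₀) (v : UT E M) (j : Fin 4) {c : V}
    (hc : P v c = c) : Tr F hD hB hdiam (vj F D v j) (wm₀ (vj F D v j) c) =
      -wm₀ (vj F D v (j + 1)) c := by
  have hP : P (vj F D v j) c = c := by rw [vj, h.P_phi, hc]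
  rw [vj_succ F hD hB hdiam, h.half _ _ hP, neg_neg]

/-- the interpolation of two sources -/
def mx (wm₀ wm₁ : UT E M → V → E) (θ : ℝ) (u : UT E M) (c : V) : E :=
  (1 - θ) • wm₀ u c + θ • wm₁ u c

theorem mx_zero (wm₀ wm₁ : UT E M → V → E) : mx wm₀ wm₁ 0 = wm₀ := by
  funext u c
  simp [mx]

theorem mx_one (wm₀ wm₁ : UT E M → V → E) : mx wm₀ wm₁ 1 = wm₁ := by
  funext u c
  simp [mx]

theorem mx_add (h₀ : Src F hD hB hdiam P wm₀) (h₁ : Src F hD hB hdiam P wm₁) (θ : ℝ) (u : UT E M)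
    (c c' : V) : mx wm₀ wm₁ θ u (c + c') = mx wm₀ wm₁ θ u c + mx wm₀ wm₁ θ u c' := by
  unfold mx
  rw [h₀.add, h₁.add, smul_add, smul_add]
  abel

theorem mx_smul (h₀ : Src F hD hB hdiam P wm₀) (h₁ : Src F hD hB hdiam P wm₁) (θ : ℝ) (u : UT E M)
    (r : ℝ) (c : V) : mx wm₀ wm₁ θ u (r • c) = r • mx wm₀ wm₁ θ u c := by
  unfold mx
  rw [h₀.smul, h₁.smul, smul_add, smul_comm, smul_comm θ]

theorem mx_mem (h₀ : Src F hD hB hdiam P wm₀) (h₁ : Src F hD hB hdiam P wm₁) (θ : ℝ) (u : UT E M)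
    (c : V) : ((mx wm₀ wm₁ θ u c : E) : TangentSpace 𝓘(ℝ, E) (foot u)) ∈ Lf e D u :=
  (Lf e D u).add_mem ((Lf e D u).smul_mem _ (h₀.mem u c)) ((Lf e D u).smul_mem _ (h₁.mem u c))

theorem mx_tr (h₀ : Src F hD hB hdiam P wm₀) (h₁ : Src F hD hB hdiam P wm₁) (θ : ℝ) (v : UT E M)
    (j : Fin 4) {c : V} (hc : P v c = c) :
    Tr F hD hB hdiam (vj F D v j) (mx wm₀ wm₁ θ (vj F D v j) c) =
      -mx wm₀ wm₁ θ (vj F D v (j + 1)) c := by
  unfold mx
  rw [Tr_add, Tr_smul, Tr_smul, h₀.tr v j hc, h₁.tr v j hc, smul_neg, smul_neg, neg_add]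

/-- **corner fields of a coefficient family** -/
theorem cf_mix (h₀ : Src F hD hB hdiam P wm₀) (h₁ : Src F hD hB hdiam P wm₁)
    (hpos : ∀ θ ∈ Icc (0 : ℝ) 1, ∀ u c, P u c = c → mx wm₀ wm₁ θ u c = 0 → c = 0)
    (hC : CC P P' C) {g : ℝ → ℝ} (hg : ContDiff ℝ ∞ g)
    (hg1 : ∀ θ ∈ Icc (0 : ℝ) 1, g θ ∈ Icc (0 : ℝ) 1) :
    CF F hD hB hdiam P' (fun p j => mx wm₀ wm₁ (g p.2) (vj F D p.1.1 j) (C p j)) where
  mem p j := mx_mem h₀ h₁ _ _ _
  smul v w θ r j := by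
    change mx wm₀ wm₁ (g θ) (vj F D v j) (C ((v, r • w), θ) j) = _
    rw [hC.smul, mx_smul h₀ h₁]
  smooth j E' _ _ _ u x hu := by
    have h1 := hC.smooth j hu
    have h2 := at_vj F (D := D) hu.1.1 j
    have h3 := h₀.smooth h2 h1
    have h4 := h₁.smooth h2 h1
    have h5 : Sm (fun s => (u s).2) x := hu.2
    have h6 : Sm (fun s => g (u s).2) x := Sm.comp (f := g) (Sm.of_contDiff hg _) h5
    have h7 : Sm (fun s => 1 - g (u s).2) x := by
      filter_upwards [h6] with s hs using contDiffAt_const.sub hs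
    exact at_add (at_smul h7 h3) (at_smul h6 h4)
  opn v θ hθ w hw hw0 := by
    obtain ⟨j, hj⟩ := hC.opn v θ hθ w hw hw0
    refine ⟨j, fun hc => hj ?_⟩
    have k1 := mx_tr h₀ h₁ (g θ) v j (hC.fix v θ w j hw)
    have k2 : mx wm₀ wm₁ (g θ) (vj F D v (j + 1)) (C ((v, w), θ) (j + 1)) =
        Tr F hD hB hdiam (vj F D v j) (mx wm₀ wm₁ (g θ) (vj F D v j) (C ((v, w), θ) j)) := hc
    rw [k1, ← sub_eq_zero, sub_neg_eq_add, ← mx_add h₀ h₁] at k2
    refine hpos (g θ) (hg1 θ hθ) _ _ ?_ k2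
    rw [vj, h₀.P_phi, map_add, hC.fix v θ w _ hw, hC.fix v θ w _ hw]

/-- one source -/
theorem cf_src (h₀ : Src F hD hB hdiam P wm₀) (hC : CC P P' C) :
    CF F hD hB hdiam P' (fun p j => wm₀ (vj F D p.1.1 j) (C p j)) := by
  have h := cf_mix h₀ h₀ (fun θ _ u c hc h0 => h₀.inj u c hc (by
    have : mx wm₀ wm₀ θ u c = wm₀ u c := by
      unfold mx
      rw [← add_smul, sub_add_cancel, one_smul]
    rwa [this] at h0)) hC (g := fun _ => 0) contDiff_const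
    (fun θ _ => ⟨le_rfl, zero_le_one⟩)
  simpa only [mx_zero] using h

end

end Vale.Agent.P231.S3B3
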