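import Vale.Agent.P231.S3B3.P3
import Vale.Agent.P231.S3B3.Mix

/-!
# P231, stage 3, block S3-B3, part 12: the families of 8-gons of the chain
-/

set_option maxSynthPendingDepth 3
set_option linter.unusedSectionVars false
set_option linter.unusedVariables false

open Bundle Manifold Set Filter Module
open scoped ContDiff Manifold Topology

namespace Vale.Agent.P231.S3B3

noncomputable section

open Vale.Agent.P234 Vale.Agent.P231 Vale.Agent.P231.H775 Vale.Agent.P231.Fm Vale.Agent.P231.W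
open Vale.Agent.P231.H766 Vale.Agent.P231.WD3 Vale.Agent.P231.WF Vale.Agent.P231.S3A
open Vale.Agent.P231.WR Vale.Agent.P231.S2N Vale.Agent.P231.S3Y

variable {E : Type*} [NormedAddCommGroup E] [NormedSpace ℝ E] [FiniteDimensional ℝ E]
  {M : Type*} [MetricSpace M] [ChartedSpace E M] [IsManifold 𝓘(ℝ, E) ∞ M]
  [RiemannianBundle (fun x : M => TangentSpace 𝓘(ℝ, E) x)]
  [IsContMDiffRiemannianBundle 𝓘(ℝ, E) ∞ E (fun x : M => TangentSpace 𝓘(ℝ, E) x)]
  {e : ∀ x : M, TangentSpace 𝓘(ℝ, E) x → M}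
  [CompactSpace M] [ConnectedSpace M] [IsRiemannianManifold 𝓘(ℝ, E) M] {D : ℝ}

/-! ### linear families -/

section Lin

variable {W : Type} [NormedAddCommGroup W] [NormedSpace ℝ W] [FiniteDimensional ℝ W]

/-- linear families of 8-gons -/
def YL (e : ∀ x : M, TangentSpace 𝓘(ℝ, E) x → M) (D : ℝ) (Z : (UT E M × W) × ℝ → ZMod 8 → E)
    (p : (UT E M × W) × ℝ) (i : ZMod 8) : M := e (x8 e D p.1.1 i) (Z p i : E)

theorem sfm_YL (F : Facts e) {Z : (UT E M × W) × ℝ → ZMod 8 → E}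
    (hsm : ∀ i, ∀ {E' : Type} [NormedAddCommGroup E'] [NormedSpace ℝ E'] [FiniteDimensional ℝ E']
      {u : E' → (UT E M × W) × ℝ} {x : E'},
        (((dUT E M).prod (Dif.lin W)).prod (Dif.lin ℝ)).At u x →
          (dTM E M).At (fun s => tb (x8 e D (u s).1.1 i) (Z (u s) i)) x)
    (h0 : ∀ v θ i, Z ((v, 0), θ) i = 0) : SFm e D (YL e D Z) where
  smooth i E' _ _ _ u x hu := at_exp F (hsm i hu)
  zero v θ := by
    funext i
    unfold YL
    rw [h0]
    exact F.isExp.map_zero _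

end Lin

variable {ι : Type} [Fintype ι] [DecidableEq ι] {F : Facts e} {hD : 0 < D} {hB : InjGE e D}
  {hdiam : ∀ p q : M, dist p q ≤ D} {P : UT E M → EuclideanSpace ℝ ι →L[ℝ] EuclideanSpace ℝ ι}
  {wm : UT E M → EuclideanSpace ℝ ι → E} {ψ : ℝ → ℝ}

/-! ### the fields concentrated near the corners -/

theorem Xh_zero' (hS : Src F hD hB hdiam P wm) (v : UT E M) (h : ℝ) (i : ZMod 8) :
    Xh F D ψ wm ((v, 0), h) i = 0 := by
  have k := Xh_smul (ψ := ψ) hS v 0 h 0 i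
  rwa [zero_smul, zero_smul] at k

theorem sfm_YH (hψ : Bmp ψ) (hS : Src F hD hB hdiam P wm) :
    SFm e D (YL e D (Xh F D ψ wm)) :=
  sfm_YL F (fun i {_} _ _ _ {_ _} hu => at_Xh hψ hS hu i) fun v θ i => Xh_zero' hS v θ i

/-- the corner fields of the slices -/
theorem cf_sl (hS : Src F hD hB hdiam P wm) :
    CF F hD hB hdiam (P3 P) (fun p j => wm (vj F D p.1.1 j) (Csl D p j)) :=
  (cof_Csl hD).cf hS

/-- at `h = 0` the family is the broken one -/
theorem YH_zero (hψ : Bmp ψ) (hS : Src F hD hB hdiam P wm) (q : UT E M × Wp ι) :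
    YL e D (Xh F D ψ wm) (q, 0) = YB F D (fun p j => wm (vj F D p.1.1 j) (Csl D p j)) (q, 0) := by
  funext i
  obtain ⟨v, w⟩ := q
  unfold YL YB
  rw [Xh_zero hψ hS]
  simp only [Csl_zero]

/-- **(tube)** the fields concentrated near the corners are negative for small `h` -/
theorem exists_h0 (hP : PrjF (P3 P)) (hψ : Bmp ψ) (hS : Src F hD hB hdiam P wm) :
    ∃ h₀ : ℝ, 0 < h₀ ∧ h₀ < D / 4 ∧ ∀ h, |h| ≤ h₀ → ∀ v w, P3 P v w = w → w ≠ 0 →
      Neg D (fun r => YL e D (Xh F D ψ wm) ((v, r • w), h)) := by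
  obtain ⟨θ₀, h1, h2⟩ := (sfm_YH hψ hS).tube F hD hB hdiam hP fun v w hw hw0 => by
    have k := (cf_sl hS).lfm_YB.neg v 0 ⟨le_rfl, zero_le_one⟩ w hw hw0
    simpa only [YH_zero hψ hS] using k
  refine ⟨min θ₀ (D / 8), lt_min h1 (by linarith), (min_le_right _ _).trans_lt (by linarith),
    fun h hh => h2 h (hh.trans (min_le_left _ _))⟩

/-- the family `h₀ → 0` -/
theorem lfm_YH (hψ : Bmp ψ) (hS : Src F hD hB hdiam P wm) {h₀ : ℝ} (hh : 0 < h₀)
    (hn : ∀ h, |h| ≤ h₀ → ∀ v w, P3 P v w = w → w ≠ 0 →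
      Neg D (fun r => YL e D (Xh F D ψ wm) ((v, r • w), h))) :
    LFm e D (P3 P) (fun p => YL e D (Xh F D ψ wm) (p.1, h₀ * (1 - p.2))) := by
  have h1 : SFm e D (fun p : (UT E M × Wp ι) × ℝ =>
      YL e D (Xh F D ψ wm) (p.1, h₀ * (1 - p.2))) :=
    SFm.comp (sfm_YH hψ hS) (g := fun θ => h₀ * (1 - θ)) (by fun_prop)
  refine h1.lfm fun v θ hθ w hw hw0 => ?_
  have h2 : |h₀ * (1 - θ)| ≤ h₀ := by
    rw [abs_of_nonneg (mul_nonneg hh.le (by linarith [hθ.2]))]
    nlinarith [hθ.1]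
  exact hn _ h2 v w hw hw0

/-! ### the corner fields of the end -/

/-- the last slice, constant in `θ` -/
theorem cc_lam (hD : 0 < D) :
    CC P (P3 P) (fun (p : (UT E M × Wp ι) × ℝ) j => Csl D (p.1, 1) j) where
  smul v w θ r j := (cof_Csl (P := P) hD).smul v w 1 r j
  smooth j E' _ _ _ u x hu :=
    (cof_Csl (P := P) hD).smooth j (u := fun s => ((u s).1, 1))
      ⟨hu.1, Sm.of_contDiff contDiff_const _⟩
  fix v θ w j hw := (cof_Csl (P := P) hD).fix v w 1 j hw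
  opn v θ hθ w hw hw0 := (cof_Csl (P := P) hD).opn v 1 ⟨zero_le_one, le_rfl⟩ w hw hw0

variable {wm₁ : UT E M → EuclideanSpace ℝ ι → E}

/-- the corner fields of the interpolation between the two sources, at the last slice -/
theorem cf_mx (h₀ : Src F hD hB hdiam P wm) (h₁ : Src F hD hB hdiam P wm₁)
    (hpos : ∀ θ ∈ Icc (0 : ℝ) 1, ∀ u c, P u c = c → mx wm wm₁ θ u c = 0 → c = 0) :
    CF F hD hB hdiam (P3 P) (fun p j => mx wm wm₁ p.2 (vj F D p.1.1 j) (Csl D (p.1, 1) j)) :=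
  cf_mix h₀ h₁ hpos (cc_lam hD) (g := fun θ => θ) contDiff_id fun θ hθ => hθ

end

end Vale.Agent.P231.S3B3
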