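import Vale.Agent.P231.S3B3.Hf3
import Vale.Agent.P231.S3V.Neg3

/-!
# P231, stage 3, block S3-B3, (H3) in terms of `S3V.ZC`
-/

set_option maxSynthPendingDepth 3
set_option linter.unusedSectionVars false
set_option linter.unusedVariables false

open Bundle Manifold Set Filter Module MeasureTheory
open scoped ContDiff Manifold Topology ENNReal

namespace Vale.Agent.P231.S3B3

noncomputable section

open Vale.Agent.P234 Vale.Agent.P231 Vale.Agent.P231.H775 Vale.Agent.P231.Fm Vale.Agent.P231.W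
open Vale.Agent.P231.H766 Vale.Agent.P231.WD3 Vale.Agent.P231.WF Vale.Agent.P231.S3A
open Vale.Agent.P231.WR Vale.Agent.P231.S2N Vale.Agent.P231.S3Y

variable {E : Type*} [NormedAddCommGroup E] [NormedSpace ℝ E] [FiniteDimensional ℝ E]
  {M : Type*} [MetricSpace M] [ChartedSpace E M] [IsManifold 𝓘(ℝ, E) ∞ M]
  [RiemannianBundle (fun x : M => TangentSpace 𝓘(ℝ, E) x)]
  [IsContMDiffRiemannianBundle 𝓘(ℝ, E) ∞ E (fun x : M => TangentSpace 𝓘(ℝ, E) x)]
  {e : ∀ x : M, TangentSpace 𝓘(ℝ, E) x → M}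
  [CompactSpace M] [ConnectedSpace M] [IsRiemannianManifold 𝓘(ℝ, E) M] {D : ℝ}
  {ι : Type} [Fintype ι] [DecidableEq ι] {ψ : ℝ → ℝ}

theorem ZC_eq_Xh (F : Facts e) (hψ : Bmp ψ) (hD : 0 < D) {h : ℝ} (hh : 0 < h) (hh4 : h < D / 4)
    (W : ι → UT E M → E) (v : UT E M) (w : Wp ι) (i : ZMod 8) :
    S3V.ZC F D W v (S3V.Cd D (Bh ψ D h) w.1 w.2.1 w.2.2) (ti D i) =
      Xh F D ψ (S3V.wv W) ((v, w), h) i :=
  Xh_eq_Bh F hψ hD hh hh4 (S3V.wv_smul W) v w i

end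

end Vale.Agent.P231.S3B3
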