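import Vale.Agent.P231.S3B3.Src
import Vale.Agent.P231.S3Y.Y
import Vale.Agent.P231.S3Y.Cur

/-!
# P231, stage 3, block S3-B3: the fields concentrated near the corners (definitions)
-/

set_option maxSynthPendingDepth 3
set_option linter.unusedSectionVars false
set_option linter.unusedVariables false

open Bundle Manifold Set Filter Module MeasureTheory
open scoped ContDiff Manifold Topology ENNReal

namespace Vale.Agent.P231.S3B3

noncomputable section

open Vale.Agent.P234 Vale.Agent.P231 Vale.Agent.P231.H775 Vale.Agent.P231.Fm Vale.Agent.P231.W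
open Vale.Agent.P231.H766 Vale.Agent.P231.WD3 Vale.Agent.P231.WF Vale.Agent.P231.S3A
open Vale.Agent.P231.WR Vale.Agent.P231.S2N Vale.Agent.P231.S3Y

/-- an even bump of integral one -/
structure Bmp (ψ : ℝ → ℝ) : Prop where
  smooth : ContDiff ℝ ∞ ψ
  nonneg : ∀ t, 0 ≤ ψ t
  supp : ∀ t, 1 ≤ |t| → ψ t = 0
  even : ∀ t, ψ (-t) = ψ t
  int : ∫ t in (-1 : ℝ)..1, ψ t = 1

theorem exists_bmp : ∃ ψ : ℝ → ℝ, Bmp ψ := by
  let f : ContDiffBump (0 : ℝ) := ⟨1 / 2, 1, by norm_num, by norm_num⟩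
  have hf : Continuous (f : ℝ → ℝ) := f.continuous
  have hI : 0 < ∫ t in (-1 : ℝ)..1, f t := by
    refine intervalIntegral.intervalIntegral_pos_of_pos_on (hf.intervalIntegrable _ _) ?_
      (by norm_num)
    intro x hx
    refine f.pos_of_mem_ball ?_
    rw [Metric.mem_ball, Real.dist_eq, sub_zero]
    exact abs_lt.2 hx
  refine ⟨fun t => (∫ t in (-1 : ℝ)..1, f t)⁻¹ * f t, ?_, ?_, ?_, ?_, ?_⟩
  · exact contDiff_const.mul f.contDiff
  · exact fun t => mul_nonneg (inv_nonneg.2 hI.le) f.nonneg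
  · intro t ht
    have h1 : f t = 0 := f.zero_of_le_dist (by rw [Real.dist_eq, sub_zero]; exact ht)
    simp only [h1, mul_zero]
  · intro t
    have h1 : f (-t) = f t := f.neg t
    simp only [h1]
  · rw [intervalIntegral.integral_const_mul]
    exact inv_mul_cancel₀ hI.ne'

/-- the primitive of the bump -/
def Psi (ψ : ℝ → ℝ) (t : ℝ) : ℝ := ∫ s in (-1 : ℝ)..t, ψ s

variable {ψ : ℝ → ℝ}

theorem hasDerivAt_Psi (h : Bmp ψ) (t : ℝ) : HasDerivAt (Psi ψ) (ψ t) t :=
  intervalIntegral.integral_hasDerivAt_right (h.smooth.continuous.intervalIntegrable _ _)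
    (h.smooth.continuous.stronglyMeasurableAtFilter _ _) h.smooth.continuous.continuousAt

theorem contDiff_Psi (h : Bmp ψ) : ContDiff ℝ ∞ (Psi ψ) := by
  have h1 : deriv (Psi ψ) = ψ := funext fun t => (hasDerivAt_Psi h t).deriv
  rw [contDiff_infty_iff_deriv, h1]
  exact ⟨fun t => (hasDerivAt_Psi h t).differentiableAt, h.smooth⟩

theorem Psi_of_le (h : Bmp ψ) {t : ℝ} (ht : t ≤ -1) : Psi ψ t = 0 := by
  unfold Psi
  rw [intervalIntegral.integral_symm]
  have h1 : ∫ s in t..(-1 : ℝ), ψ s = ∫ s in t..(-1 : ℝ), (0 : ℝ) :=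
    intervalIntegral.integral_congr fun s hs => by
      rw [uIcc_of_le ht] at hs
      exact h.supp s (by rw [abs_of_nonpos (by linarith [hs.2])]; linarith [hs.2])
  rw [h1, intervalIntegral.integral_zero, neg_zero]

theorem Psi_of_ge (h : Bmp ψ) {t : ℝ} (ht : 1 ≤ t) : Psi ψ t = 1 := by
  unfold Psi
  rw [← intervalIntegral.integral_add_adjacent_intervals
    (h.smooth.continuous.intervalIntegrable (-1) 1) (h.smooth.continuous.intervalIntegrable 1 t),
    h.int]
  have h1 : ∫ s in (1 : ℝ)..t, ψ s = ∫ s in (1 : ℝ)..t, (0 : ℝ) :=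
    intervalIntegral.integral_congr fun s hs => by
      rw [uIcc_of_le ht] at hs
      exact h.supp s (by rw [abs_of_nonneg (by linarith [hs.1])]; linarith [hs.1])
  rw [h1, intervalIntegral.integral_zero, add_zero]

variable {E : Type*} [NormedAddCommGroup E] [NormedSpace ℝ E] [FiniteDimensional ℝ E]
  {M : Type*} [MetricSpace M] [ChartedSpace E M] [IsManifold 𝓘(ℝ, E) ∞ M]
  [RiemannianBundle (fun x : M => TangentSpace 𝓘(ℝ, E) x)]
  [IsContMDiffRiemannianBundle 𝓘(ℝ, E) ∞ E (fun x : M => TangentSpace 𝓘(ℝ, E) x)]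
  {e : ∀ x : M, TangentSpace 𝓘(ℝ, E) x → M}
  [CompactSpace M] [ConnectedSpace M] [IsRiemannianManifold 𝓘(ℝ, E) M] {D : ℝ}
  {ι : Type} [Fintype ι] [DecidableEq ι]

/-- the density near the corner `j`, in the stretched time `t` -/
def Cd (D : ℝ) (ψ : ℝ → ℝ) (j : Fin 4) (t : ℝ) (w : Wp ι) : EuclideanSpace ℝ ι :=
  D • (w.1 + (Real.cos (om D * (j.val * D + D * (Psi ψ t - 1 / 2))) • w.2.1 -
    Real.sin (om D * (j.val * D + D * (Psi ψ t - 1 / 2))) • w.2.2))

/-- the field concentrated within distance `h` of the corners, at the vertex `i` -/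
def Xh (F : Facts e) (D : ℝ) (ψ : ℝ → ℝ) (wm : UT E M → EuclideanSpace ℝ ι → E)
    (q : (UT E M × Wp ι) × ℝ) (i : ZMod 8) : E :=
  ∫ t in (-1 : ℝ)..1, ψ t • Jc e (phi F (q.1.1, (cj i).val * D + q.2 * t))
    (wm (phi F (q.1.1, (cj i).val * D + q.2 * t)) (Cd D ψ (cj i) t q.1.2)) (tj D i - q.2 * t)

/-- the constant of the corner coefficients -/
def kap' (D : ℝ) : ℝ := ∫ s in (-(D / 2))..(D / 2), Real.cos (om D * s)

/-- the corner coefficients -/
def cc (D : ℝ) (j : Fin 4) (w : Wp ι) : EuclideanSpace ℝ ι :=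
  D • w.1 + kap' D • (Real.cos (j.val * (Real.pi / 2)) • w.2.1 -
    Real.sin (j.val * (Real.pi / 2)) • w.2.2)

end

end Vale.Agent.P231.S3B3
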