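import Vale.Agent.P231.S3V.Core
import Vale.Agent.P231.S3B3.HfDef

/-!
# P231, stage 3, block S3-B3: the changes of the time `M_{λ,h}`

`Bh ψ D h` is the staircase with smooth steps of width `2h` at the points `j D`; `MM ψ D λ h` is
`(1 - λ) s + λ Bh s`.
-/

set_option linter.unusedSectionVars false
set_option linter.unusedVariables false

open Set Filter MeasureTheory
open scoped ContDiff Topology

namespace Vale.Agent.P231.S3B3

noncomputable section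

open Vale.Agent.P231.Fm Vale.Agent.P231.S3V

variable {ψ : ℝ → ℝ}

theorem Psi_zero (hψ : Bmp ψ) : Psi ψ 0 = 1 / 2 := by
  have hc := hψ.smooth.continuous
  have h2 := intervalIntegral.integral_add_adjacent_intervals (hc.intervalIntegrable (-1) 0)
    (hc.intervalIntegrable (μ := volume) 0 1)
  rw [hψ.int] at h2
  have h3 := intervalIntegral.integral_comp_neg (a := 0) (b := 1) ψ
  simp only [hψ.even, neg_zero] at h3
  unfold Psi
  linarith

/-- the smooth staircase -/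
def Bh (ψ : ℝ → ℝ) (D h s : ℝ) : ℝ :=
  D * (round (s / D) : ℤ) + D * (Psi ψ ((s - (round (s / D) : ℤ) * D) / h) - 1 / 2)

variable {D h : ℝ}

theorem abs_sub_round_mul (hD : 0 < D) (s : ℝ) : |s - (round (s / D) : ℤ) * D| ≤ D / 2 := by
  have h1 := abs_sub_round (s / D)
  have h2 : s - (round (s / D) : ℤ) * D = (s / D - (round (s / D) : ℤ)) * D := by
    field_simp
  rw [h2, abs_mul, abs_of_pos hD]
  nlinarith

/-- the formula for the staircase near `n D` -/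
theorem Bh_eq (hψ : Bmp ψ) (hD : 0 < D) (hh : 0 < h) (hhD : h < D / 2) {s : ℝ} {n : ℤ}
    (hs : |s - n * D| < D - h) : Bh ψ D h s = D * n + D * (Psi ψ ((s - n * D) / h) - 1 / 2) := by
  set m : ℤ := round (s / D) with hm
  have h1 : |s - (m : ℝ) * D| ≤ D / 2 := abs_sub_round_mul hD s
  obtain ⟨h1a, h1b⟩ := abs_le.1 h1
  obtain ⟨h2a, h2b⟩ := abs_lt.1 hs
  have h3 : ((m - n : ℤ) : ℝ) * D < 2 * D := by
    push_cast
    nlinarith
  have h4 : -(2 * D) < ((m - n : ℤ) : ℝ) * D := by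
    push_cast
    nlinarith
  have h5 : ((m - n : ℤ) : ℝ) < ((2 : ℤ) : ℝ) := by
    push_cast at h3 ⊢
    nlinarith
  have h6 : ((-2 : ℤ) : ℝ) < ((m - n : ℤ) : ℝ) := by
    push_cast at h4 ⊢
    nlinarith
  have h7 : m - n < 2 := by exact_mod_cast h5
  have h8 : -2 < m - n := by exact_mod_cast h6
  have h9 : Bh ψ D h s = D * m + D * (Psi ψ ((s - m * D) / h) - 1 / 2) := rfl
  rw [h9]
  rcases (by omega : m = n ∨ m = n + 1 ∨ m = n - 1) with h10 | h10 | h10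
  · rw [h10]
  · have k1 : (m : ℝ) = n + 1 := by rw [h10]; push_cast; ring
    rw [k1] at h1a h1b ⊢
    have k2 : (s - ((n : ℝ) + 1) * D) / h ≤ -1 := by
      rw [div_le_iff₀ hh]
      linarith
    have k3 : 1 ≤ (s - (n : ℝ) * D) / h := by
      rw [le_div_iff₀ hh]
      linarith
    rw [Psi_of_le hψ k2, Psi_of_ge hψ k3]
    ring
  · have k1 : (m : ℝ) = n - 1 := by rw [h10]; push_cast; ring
    rw [k1] at h1a h1b ⊢
    have k2 : 1 ≤ (s - ((n : ℝ) - 1) * D) / h := by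
      rw [le_div_iff₀ hh]
      linarith
    have k3 : (s - (n : ℝ) * D) / h ≤ -1 := by
      rw [div_le_iff₀ hh]
      linarith
    rw [Psi_of_le hψ k3, Psi_of_ge hψ k2]
    ring

theorem Bh_per (hD : 0 < D) (s : ℝ) : Bh ψ D h (s + D) = Bh ψ D h s + D := by
  have h1 : (s + D) / D = s / D + 1 := by field_simp
  have h2 : round ((s + D) / D) = round (s / D) + 1 := by
    rw [h1]
    exact round_add_one _
  unfold Bh
  rw [h2]
  push_cast
  have h3 : s + D - ((round (s / D) : ℝ) + 1) * D = s - (round (s / D) : ℝ) * D := by ring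
  rw [h3]
  ring

theorem Bh_int (hψ : Bmp ψ) (hD : 0 < D) (n : ℤ) : Bh ψ D h (n * D) = n * D := by
  have h1 : (n : ℝ) * D / D = n := by field_simp
  have h2 : round ((n : ℝ) * D / D) = n := by rw [h1, round_intCast]
  unfold Bh
  rw [h2, sub_self, zero_div, Psi_zero hψ]
  ring

theorem hasDerivAt_loc (hψ : Bmp ψ) (D h : ℝ) (n : ℤ) (s : ℝ) :
    HasDerivAt (fun s => D * n + D * (Psi ψ ((s - n * D) / h) - 1 / 2))
      (D / h * ψ ((s - n * D) / h)) s := by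
  have h1 : HasDerivAt (fun s : ℝ => (s - n * D) / h) (1 / h) s :=
    ((hasDerivAt_id s).sub_const (n * D)).div_const h
  have h2 := (hasDerivAt_Psi hψ ((s - n * D) / h)).comp s h1
  have h3 := ((h2.sub_const (1 / 2)).const_mul D).const_add (D * (n : ℝ))
  have e : D / h * ψ ((s - n * D) / h) = D * (ψ ((s - n * D) / h) * (1 / h)) := by ring
  rw [e]
  exact h3

theorem eventually_loc (hD : 0 < D) (hh : 0 < h) (hhD : h < D / 2) {s : ℝ} {n : ℤ}
    (hs : |s - n * D| < D - h) : ∀ᶠ p : ℝ × ℝ in 𝓝 (h, s), 0 < p.1 ∧ p.1 < D / 2 ∧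
      |p.2 - n * D| < D - p.1 := by
  have h1 : ∀ᶠ p : ℝ × ℝ in 𝓝 (h, s), 0 < p.1 :=
    continuous_fst.continuousAt.eventually (lt_mem_nhds hh)
  have h2 : ∀ᶠ p : ℝ × ℝ in 𝓝 (h, s), p.1 < D / 2 :=
    continuous_fst.continuousAt.eventually (gt_mem_nhds hhD)
  have h3 : ContinuousAt (fun p : ℝ × ℝ => D - p.1 - |p.2 - n * D|) (h, s) := by fun_prop
  have h4 : ∀ᶠ p : ℝ × ℝ in 𝓝 (h, s), 0 < D - p.1 - |p.2 - n * D| :=
    h3.eventually (lt_mem_nhds (by simpa using hs))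
  filter_upwards [h1, h2, h4] with p k1 k2 k3
  exact ⟨k1, k2, by linarith⟩

theorem hasDerivAt_Bh (hψ : Bmp ψ) (hD : 0 < D) (hh : 0 < h) (hhD : h < D / 2) {s : ℝ} {n : ℤ}
    (hs : |s - n * D| < D - h) : HasDerivAt (Bh ψ D h) (D / h * ψ ((s - n * D) / h)) s := by
  refine (hasDerivAt_loc hψ D h n s).congr_of_eventuallyEq ?_
  have h1 : ContinuousAt (fun s : ℝ => D - h - |s - n * D|) s := by fun_prop
  have h2 : ∀ᶠ s : ℝ in 𝓝 s, 0 < D - h - |s - n * D| :=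
    h1.eventually (lt_mem_nhds (by linarith))
  filter_upwards [h2] with s' hs'
  exact Bh_eq hψ hD hh hhD (by linarith)

theorem deriv_Bh (hψ : Bmp ψ) (hD : 0 < D) (hh : 0 < h) (hhD : h < D / 2) {s : ℝ} {n : ℤ}
    (hs : |s - n * D| < D - h) : deriv (Bh ψ D h) s = D / h * ψ ((s - n * D) / h) :=
  (hasDerivAt_Bh hψ hD hh hhD hs).deriv

theorem exists_loc (hD : 0 < D) (hhD : h < D / 2) (s : ℝ) : ∃ n : ℤ, |s - n * D| < D - h :=
  ⟨round (s / D), lt_of_le_of_lt (abs_sub_round_mul hD s) (by linarith)⟩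

/-- the staircase is smooth, jointly in the width and the time -/
theorem contDiffAt_Bh (hψ : Bmp ψ) (hD : 0 < D) (hh : 0 < h) (hhD : h < D / 2) (s : ℝ) :
    ContDiffAt ℝ ∞ (fun p : ℝ × ℝ => Bh ψ D p.1 p.2) (h, s) := by
  obtain ⟨n, hn⟩ := exists_loc hD hhD s
  have h1 : ContDiffAt ℝ ∞ (fun p : ℝ × ℝ => D * n + D * (Psi ψ ((p.2 - n * D) / p.1) - 1 / 2))
      (h, s) := by
    have h2 : ContDiffAt ℝ ∞ (fun p : ℝ × ℝ => (p.2 - n * D) / p.1) (h, s) :=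
      (contDiffAt_snd.sub contDiffAt_const).div contDiffAt_fst hh.ne'
    have h3 := ((contDiff_Psi hψ).contDiffAt (x := (s - n * D) / h)).comp (h, s) h2
    exact contDiffAt_const.add (contDiffAt_const.mul (h3.sub contDiffAt_const))
  refine h1.congr_of_eventuallyEq ?_
  filter_upwards [eventually_loc hD hh hhD hn] with p hp
  exact Bh_eq hψ hD hp.1 hp.2.1 hp.2.2

/-- its derivative is smooth, jointly in the width and the time -/
theorem contDiffAt_deriv_Bh (hψ : Bmp ψ) (hD : 0 < D) (hh : 0 < h) (hhD : h < D / 2) (s : ℝ) :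
    ContDiffAt ℝ ∞ (fun p : ℝ × ℝ => deriv (Bh ψ D p.1) p.2) (h, s) := by
  obtain ⟨n, hn⟩ := exists_loc hD hhD s
  have h1 : ContDiffAt ℝ ∞ (fun p : ℝ × ℝ => D / p.1 * ψ ((p.2 - n * D) / p.1)) (h, s) := by
    have h2 : ContDiffAt ℝ ∞ (fun p : ℝ × ℝ => (p.2 - n * D) / p.1) (h, s) :=
      (contDiffAt_snd.sub contDiffAt_const).div contDiffAt_fst hh.ne'
    have h3 := (hψ.smooth.contDiffAt (x := (s - n * D) / h)).comp (h, s) h2
    exact (contDiffAt_const.div contDiffAt_fst hh.ne').mul h3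
  refine h1.congr_of_eventuallyEq ?_
  filter_upwards [eventually_loc hD hh hhD hn] with p hp
  exact deriv_Bh hψ hD hp.1 hp.2.1 hp.2.2

theorem contDiff_Bh (hψ : Bmp ψ) (hD : 0 < D) (hh : 0 < h) (hhD : h < D / 2) :
    ContDiff ℝ ∞ (Bh ψ D h) :=
  contDiff_iff_contDiffAt.2 fun s =>
    (contDiffAt_Bh hψ hD hh hhD s).comp (g := fun p : ℝ × ℝ => Bh ψ D p.1 p.2)
      (f := fun s : ℝ => (h, s)) s (contDiffAt_const.prodMk contDiffAt_id)

theorem deriv_Bh_nonneg (hψ : Bmp ψ) (hD : 0 < D) (hh : 0 < h) (hhD : h < D / 2) (s : ℝ) :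
    0 ≤ deriv (Bh ψ D h) s := by
  obtain ⟨n, hn⟩ := exists_loc hD hhD s
  rw [deriv_Bh hψ hD hh hhD hn]
  exact mul_nonneg (by positivity) (hψ.nonneg _)

/-- the changes of the time -/
def MM (ψ : ℝ → ℝ) (D l h s : ℝ) : ℝ := (1 - l) * s + l * Bh ψ D h s

theorem MM_zero (ψ : ℝ → ℝ) (D h : ℝ) : MM ψ D 0 h = fun s => s := by
  funext s
  simp [MM]

theorem MM_one (ψ : ℝ → ℝ) (D h : ℝ) : MM ψ D 1 h = Bh ψ D h := by
  funext s
  simp [MM]

theorem MM_per (hD : 0 < D) (l s : ℝ) : MM ψ D l h (s + D) = MM ψ D l h s + D := by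
  unfold MM
  rw [Bh_per hD]
  ring

theorem MM_int (hψ : Bmp ψ) (hD : 0 < D) (l : ℝ) (n : ℤ) : MM ψ D l h (n * D) = n * D := by
  unfold MM
  rw [Bh_int hψ hD]
  ring

theorem hasDerivAt_MM (hψ : Bmp ψ) (hD : 0 < D) (hh : 0 < h) (hhD : h < D / 2) (l s : ℝ) :
    HasDerivAt (MM ψ D l h) (1 - l + l * deriv (Bh ψ D h) s) s := by
  have h1 : HasDerivAt (Bh ψ D h) (deriv (Bh ψ D h) s) s :=
    ((contDiff_Bh hψ hD hh hhD).differentiable (by simp) s).hasDerivAt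
  have h2 := ((hasDerivAt_id s).const_mul (1 - l)).add (h1.const_mul l)
  have e : 1 - l + l * deriv (Bh ψ D h) s = (1 - l) * 1 + l * deriv (Bh ψ D h) s := by ring
  rw [e]
  exact h2

theorem deriv_MM (hψ : Bmp ψ) (hD : 0 < D) (hh : 0 < h) (hhD : h < D / 2) (l s : ℝ) :
    deriv (MM ψ D l h) s = 1 - l + l * deriv (Bh ψ D h) s :=
  (hasDerivAt_MM hψ hD hh hhD l s).deriv

theorem contDiff_MM (hψ : Bmp ψ) (hD : 0 < D) (hh : 0 < h) (hhD : h < D / 2) (l : ℝ) :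
    ContDiff ℝ ∞ (MM ψ D l h) :=
  (contDiff_const.mul contDiff_id).add (contDiff_const.mul (contDiff_Bh hψ hD hh hhD))

theorem TM_MM (hψ : Bmp ψ) (hD : 0 < D) (hh : 0 < h) (hhD : h < D / 2) {l : ℝ} (h0 : 0 ≤ l)
    (h1 : l < 1) : TM D (MM ψ D l h) where
  sm := contDiff_MM hψ hD hh hhD l
  pos s := by
    rw [deriv_MM hψ hD hh hhD]
    have := mul_nonneg h0 (deriv_Bh_nonneg hψ hD hh hhD s)
    linarith
  per s := MM_per hD l s

/-- joint smoothness in `(λ, h, s)` -/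
theorem contDiffAt_MM (hψ : Bmp ψ) (hD : 0 < D) (hh : 0 < h) (hhD : h < D / 2) (l s : ℝ) :
    ContDiffAt ℝ ∞ (fun p : ℝ × ℝ × ℝ => MM ψ D p.1 p.2.1 p.2.2) (l, h, s) := by
  have h1 : ContDiffAt ℝ ∞ (fun p : ℝ × ℝ × ℝ => Bh ψ D p.2.1 p.2.2) (l, h, s) :=
    (contDiffAt_Bh hψ hD hh hhD s).comp (g := fun p : ℝ × ℝ => Bh ψ D p.1 p.2)
      (f := fun p : ℝ × ℝ × ℝ => p.2) (l, h, s) contDiffAt_snd
  have h2 : ContDiffAt ℝ ∞ (fun p : ℝ × ℝ × ℝ => p.2.2) (l, h, s) := contDiffAt_snd.snd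
  exact ((contDiffAt_const.sub contDiffAt_fst).mul h2).add (contDiffAt_fst.mul h1)

theorem contDiffAt_deriv_MM (hψ : Bmp ψ) (hD : 0 < D) (hh : 0 < h) (hhD : h < D / 2) (l s : ℝ) :
    ContDiffAt ℝ ∞ (fun p : ℝ × ℝ × ℝ => deriv (MM ψ D p.1 p.2.1) p.2.2) (l, h, s) := by
  have h1 : ContDiffAt ℝ ∞ (fun p : ℝ × ℝ × ℝ => deriv (Bh ψ D p.2.1) p.2.2) (l, h, s) :=
    (contDiffAt_deriv_Bh hψ hD hh hhD s).comp (g := fun p : ℝ × ℝ => deriv (Bh ψ D p.1) p.2)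
      (f := fun p : ℝ × ℝ × ℝ => p.2) (l, h, s) contDiffAt_snd
  have h3 : ContDiffAt ℝ ∞ (fun p : ℝ × ℝ × ℝ => 1 - p.1 + p.1 * deriv (Bh ψ D p.2.1) p.2.2)
      (l, h, s) := (contDiffAt_const.sub contDiffAt_fst).add (contDiffAt_fst.mul h1)
  refine h3.congr_of_eventuallyEq ?_
  have h4 : ∀ᶠ p : ℝ × ℝ × ℝ in 𝓝 (l, h, s), 0 < p.2.1 ∧ p.2.1 < D / 2 := by
    have k1 : ContinuousAt (fun p : ℝ × ℝ × ℝ => p.2.1) (l, h, s) := by fun_prop
    exact (k1.eventually (lt_mem_nhds hh)).and (k1.eventually (gt_mem_nhds hhD))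
  filter_upwards [h4] with p hp
  exact deriv_MM hψ hD hp.1 hp.2 _ _

end

end Vale.Agent.P231.S3B3
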