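import Vale.Agent.P231.S3B3.En8
import Vale.Agent.P231.H583.YPos

/-!
# P231, stage 3, block S3-B3, part 4: pointwise negativity implies uniform negativity
-/

set_option maxSynthPendingDepth 3
set_option linter.unusedSectionVars false
set_option linter.unusedVariables false

open Bundle Manifold Set Filter Module
open scoped ContDiff Manifold Topology

namespace Vale.Agent.P231.S3B3

noncomputable section

open Vale.Agent.P234 Vale.Agent.P231 Vale.Agent.P231.H775 Vale.Agent.P231.Fm Vale.Agent.P231.W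
open Vale.Agent.P231.H766 Vale.Agent.P231.WD3 Vale.Agent.P231.WF Vale.Agent.P231.S3A

variable {E : Type*} [NormedAddCommGroup E] [NormedSpace ℝ E] [FiniteDimensional ℝ E]
  {M : Type*} [MetricSpace M] [ChartedSpace E M] [IsManifold 𝓘(ℝ, E) ∞ M]
  [RiemannianBundle (fun x : M => TangentSpace 𝓘(ℝ, E) x)]
  [IsContMDiffRiemannianBundle 𝓘(ℝ, E) ∞ E (fun x : M => TangentSpace 𝓘(ℝ, E) x)]
  {e : ∀ x : M, TangentSpace 𝓘(ℝ, E) x → M}
  [CompactSpace M] [ConnectedSpace M] [IsRiemannianManifold 𝓘(ℝ, E) M] {D : ℝ}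

/-- the unit tangent bundle is covered by finitely many compact pieces -/
theorem pc_UT : PC (dUT E M) := by
  classical
  let t := topUT E M
  have hcomp : CompactSpace (UT E M) := compactSpace_UT
  have h1 : ∀ v₀ : UT E M, ∃ N ∈ 𝓝 v₀, Piece (dUT E M) N := by
    intro v₀
    obtain ⟨F', _, _, _, c, s, h2, h3, h4⟩ := locSec_dUT (E := E) (M := M) v₀
    obtain ⟨r, hr, h5⟩ := Metric.eventually_nhds_iff.1 ((dUT E M).open' h2)
    have hfd : ProperSpace F' := FiniteDimensional.proper ℝ F'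
    refine ⟨{v | s v ∈ Metric.closedBall (s v₀) (r / 2) ∧ c (s v) = v}, ?_, ?_⟩
    · exact Filter.inter_mem (h3 (Metric.closedBall_mem_nhds _ (by positivity))) h4
    · refine ⟨F', inferInstance, inferInstance, inferInstance, c,
        Metric.closedBall (s v₀) (r / 2), isCompact_closedBall _ _, fun z hz => ?_, fun v hv => ?_⟩
      · exact h5 ((Metric.mem_closedBall.1 hz).trans_lt (by linarith))
      · exact ⟨s v, hv.1, hv.2⟩
  choose N hN hp using h1
  obtain ⟨T, hT⟩ := CompactSpace.elim_nhds_subcover N hN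
  refine ⟨N '' (T : Set (UT E M)), (T.finite_toSet).image _, ?_, ?_⟩
  · rintro P ⟨v₀, -, rfl⟩
    exact hp v₀
  · refine eq_univ_of_forall fun b => ?_
    have h6 : b ∈ ⋃ x ∈ T, N x := by rw [hT]; exact mem_univ _
    obtain ⟨v₀, h7, h8⟩ := mem_iUnion₂.1 h6
    exact ⟨_, ⟨v₀, h7, rfl⟩, h8⟩

variable {W : Type} [NormedAddCommGroup W] [NormedSpace ℝ W] [FiniteDimensional ℝ W]

/-- smooth families of 8-gons near the straight ones, parametrised by a vector bundle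
`{w | P v w = w}`, on which the energy is strictly concave -/
structure LFm (e : ∀ x : M, TangentSpace 𝓘(ℝ, E) x → M) (D : ℝ) (P : UT E M → W →L[ℝ] W)
    (Y : (UT E M × W) × ℝ → ZMod 8 → M) : Prop where
  smooth : ∀ i, (((dUT E M).prod (Dif.lin W)).prod (Dif.lin ℝ)).Map (dM E M) (fun p => Y p i)
  zero : ∀ v θ, Y ((v, 0), θ) = x8 e D v
  neg : ∀ v, ∀ θ ∈ Icc (0 : ℝ) 1, ∀ w, P v w = w → w ≠ 0 →
    Neg D (fun r => Y ((v, r • w), θ))

/-- a smooth field of projections -/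
structure PrjF (P : UT E M → W →L[ℝ] W) : Prop where
  map : ∀ {V : Type} [NormedAddCommGroup V] [NormedSpace ℝ V] [FiniteDimensional ℝ V]
    {u : V → UT E M} {w : V → W} {x : V}, (dUT E M).At u x → Sm w x →
      Sm (fun s => P (u s) (w s)) x
  idem : ∀ v w, P v (P v w) = P v w

variable {P : UT E M → W →L[ℝ] W} {Y : (UT E M × W) × ℝ → ZMod 8 → M}

theorem LFm.at_curve (h : LFm e D P Y) (v : UT E M) (w : W) (θ : ℝ) (r : ℝ) (i : ZMod 8) :
    ContMDiffAt 𝓘(ℝ, ℝ) 𝓘(ℝ, E) ∞ (fun r : ℝ => Y ((v, r • w), θ) i) r := by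
  have h1 : (dM E M).At (fun r : ℝ => Y ((v, r • w), θ) i) r :=
    h.smooth i (u := fun r : ℝ => ((v, r • w), θ)) ⟨⟨H583.at_const v _,
      Sm.of_contDiff (contDiff_id.smul contDiff_const) _⟩, Sm.of_contDiff contDiff_const _⟩
  exact Filter.Eventually.self_of_nhds h1

theorem LFm.zero' (h : LFm e D P Y) (v : UT E M) (w : W) (θ : ℝ) :
    Y ((v, (0 : ℝ) • w), θ) = x8 e D v := by
  rw [zero_smul, h.zero]

/-- **uniformity** -/
theorem LFm.unif (F : Facts e) (hD : 0 < D) (hB : InjGE e D) (hdiam : ∀ p q : M, dist p q ≤ D)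
    (hP : PrjF P) (h : LFm e D P Y) : ∃ r₀ : ℝ, 0 < r₀ ∧ ∃ c : ℝ, 0 < c ∧
      ∀ v, ∀ θ ∈ Icc (0 : ℝ) 1, ∀ w, P v w = w → ‖w‖ ≤ r₀ →
        En (Y ((v, w), θ)) ≤ 2 * D ^ 2 - c * ‖w‖ ^ 2 ∧ ∀ i, sd (Y ((v, w), θ)) i ≤ 3 * D / 4 := by
  classical
  obtain ⟨φ⟩ : Nonempty (W ≃L[ℝ] EuclideanSpace ℝ (Fin (finrank ℝ W))) :=
    ⟨ContinuousLinearEquiv.ofFinrankEq (by rw [finrank_euclideanSpace, Fintype.card_fin])⟩
  -- the square of an auxiliary euclidean norm
  let q : W → ℝ := fun w => ‖φ w‖ ^ 2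
  have hq : ContDiff ℝ ∞ q := (contDiff_norm_sq ℝ).comp φ.contDiff
  have hq0 : ∀ w, 0 ≤ q w := fun w => sq_nonneg _
  have hqs : ∀ w, q w = 0 → w = 0 := fun w hw => by
    have h1 : ‖φ w‖ = 0 := pow_eq_zero_iff (two_ne_zero) |>.1 hw
    exact (map_eq_zero_iff φ φ.injective).1 (norm_eq_zero.1 h1)
  let f : UT E M → W × ℝ → ℝ → ℝ := fun v z r =>
    En (Y ((v, r • P v z.1), z.2)) - r ^ 2 * q (z.1 - P v z.1)
  have hprop : ProperSpace W := FiniteDimensional.proper ℝ W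
  set K : Set (W × ℝ) := Metric.sphere (0 : W) 1 ×ˢ Icc (0 : ℝ) 1 with hK
  have hKc : IsCompact K := (isCompact_sphere _ _).prod isCompact_Icc
  have hplot : ∀ (E' : Type) [NormedAddCommGroup E'] [NormedSpace ℝ E'] [FiniteDimensional ℝ E']
      (c : E' → UT E M) (e₀ : E'), (dUT E M).At c e₀ → ∀ (z : W × ℝ) (r₀ : ℝ) (i : ZMod 8),
      (dM E M).At (fun q : (E' × (W × ℝ)) × ℝ =>
        Y ((c q.1.1, q.2 • P (c q.1.1) q.1.2.1), q.1.2.2) i) ((e₀, z), r₀) := by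
    intro E' _ _ _ c e₀ hc z r₀ i
    have k1 : (dUT E M).At (fun q : (E' × (W × ℝ)) × ℝ => c q.1.1) ((e₀, z), r₀) :=
      (dUT E M).comp (u := c) (g := fun q : (E' × (W × ℝ)) × ℝ => q.1.1) (x := ((e₀, z), r₀)) hc
        (Sm.of_contDiff (contDiff_fst.comp contDiff_fst) _)
    have k2 : Sm (fun q : (E' × (W × ℝ)) × ℝ => P (c q.1.1) q.1.2.1) ((e₀, z), r₀) :=
      hP.map k1 (Sm.of_contDiff (by fun_prop) _)
    have k3 : Sm (fun q : (E' × (W × ℝ)) × ℝ => q.2 • P (c q.1.1) q.1.2.1) ((e₀, z), r₀) := by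
      filter_upwards [k2] with y hy
      exact contDiff_snd.contDiffAt.smul hy
    exact h.smooth i (u := fun q : (E' × (W × ℝ)) × ℝ =>
      ((c q.1.1, q.2 • P (c q.1.1) q.1.2.1), q.1.2.2)) ⟨⟨k1, k3⟩, Sm.of_contDiff (by fun_prop) _⟩
  have hY0 : ∀ v (z : W × ℝ), Y ((v, (0 : ℝ) • P v z.1), z.2) = x8 e D v := fun v z =>
    h.zero' v _ _
  have hf : ∀ (E' : Type) [NormedAddCommGroup E'] [NormedSpace ℝ E'] [FiniteDimensional ℝ E']
      (c : E' → UT E M) (e₀ : E'), (dUT E M).At c e₀ → ∀ z ∈ K,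
        Sm (fun q : (E' × (W × ℝ)) × ℝ => f (c q.1.1) q.1.2 q.2) ((e₀, z), 0) := by
    intro E' _ _ _ c e₀ hc z hz
    have k1 := hplot E' c e₀ hc z 0
    have k2 : ∀ᶠ q : (E' × (W × ℝ)) × ℝ in 𝓝 ((e₀, z), 0), ∀ i,
        ContMDiffAt 𝓘(ℝ, (E' × (W × ℝ)) × ℝ) 𝓘(ℝ, E) ∞ (fun q : (E' × (W × ℝ)) × ℝ =>
          Y ((c q.1.1, q.2 • P (c q.1.1) q.1.2.1), q.1.2.2) i) q :=
      eventually_all.2 fun i => k1 i
    have k3 : ∀ᶠ q : (E' × (W × ℝ)) × ℝ in 𝓝 ((e₀, z), 0), ∀ i,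
        sd (Y ((c q.1.1, q.2 • P (c q.1.1) q.1.2.1), q.1.2.2)) i < D := by
      refine eventually_all.2 fun i => ?_
      have a1 := (k2.self_of_nhds i).continuousAt.dist (k2.self_of_nhds (i + 1)).continuousAt
      refine a1.eventually_lt_const ?_
      change dist (Y ((c e₀, (0 : ℝ) • P (c e₀) z.1), z.2) i)
        (Y ((c e₀, (0 : ℝ) • P (c e₀) z.1), z.2) (i + 1)) < D
      rw [hY0, dist_x8 F hD hB hdiam]
      linarith
    have k4 : Sm (fun q : (E' × (W × ℝ)) × ℝ =>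
        En (Y ((c q.1.1, q.2 • P (c q.1.1) q.1.2.1), q.1.2.2))) ((e₀, z), 0) := by
      filter_upwards [k2, k3] with y a1 a2
      exact contDiffAt_En F hB a1 a2
    have k5 : (dUT E M).At (fun q : (E' × (W × ℝ)) × ℝ => c q.1.1) ((e₀, z), 0) :=
      (dUT E M).comp (u := c) (g := fun q : (E' × (W × ℝ)) × ℝ => q.1.1) (x := ((e₀, z), 0)) hc
        (Sm.of_contDiff (contDiff_fst.comp contDiff_fst) _)
    have k6 : Sm (fun q : (E' × (W × ℝ)) × ℝ => P (c q.1.1) q.1.2.1) ((e₀, z), 0) :=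
      hP.map k5 (Sm.of_contDiff (by fun_prop) _)
    filter_upwards [k4, k6] with y a1 a2
    refine a1.sub ((contDiff_snd.pow 2).contDiffAt.mul ?_)
    refine ContDiffAt.comp y (g := q) hq.contDiffAt ?_
    exact (contDiff_fst.comp (contDiff_snd.comp contDiff_fst)).contDiffAt.sub a2
  have hcur : ∀ v (z : W × ℝ), ContDiffAt ℝ ∞ (fun r : ℝ => En (Y ((v, r • P v z.1), z.2))) 0 :=
    fun v z => contDiffAt_En_curve F hD hB hdiam (h.at_curve v _ _ 0) (h.zero' v _ _)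
  have hcd : ∀ v (z : W × ℝ), deriv (fun r : ℝ => En (Y ((v, r • P v z.1), z.2))) 0 = 0 :=
    fun v z => deriv_En F hD hB hdiam (h.at_curve v _ _ 0) (h.zero' v _ _)
  -- the first derivative
  have hev : ∀ v (z : W × ℝ), (deriv fun r => f v z r) =ᶠ[𝓝 0]
      fun r => deriv (fun r : ℝ => En (Y ((v, r • P v z.1), z.2))) r -
        2 * r * q (z.1 - P v z.1) := by
    intro v z
    have k1 : ∀ᶠ r in 𝓝 (0 : ℝ), DifferentiableAt ℝ
        (fun r : ℝ => En (Y ((v, r • P v z.1), z.2))) r := by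
      filter_upwards [((hcur v z).of_le (m := 1) (by exact_mod_cast le_top)).eventually
        (by simp)] with y hy
      exact hy.differentiableAt (by simp)
    filter_upwards [k1] with r hr
    have k2 := hr.hasDerivAt.sub (((hasDerivAt_id r).pow 2).mul_const (q (z.1 - P v z.1)))
    refine (HasDerivAt.deriv k2).trans ?_
    simp
  have h1 : ∀ v, ∀ z ∈ K, deriv (f v z) 0 = 0 := by
    intro v z hz
    have k := (hev v z).self_of_nhds
    have k2 : deriv (f v z) 0 = deriv (fun r : ℝ => En (Y ((v, r • P v z.1), z.2))) 0 -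
        2 * 0 * q (z.1 - P v z.1) := k
    rw [k2, hcd]
    ring
  have h2 : ∀ v, ∀ z ∈ K, deriv (deriv (f v z)) 0 < 0 := by
    intro v z hz
    have k1 : deriv (deriv (f v z)) 0 = deriv (deriv fun r : ℝ =>
        En (Y ((v, r • P v z.1), z.2))) 0 - 2 * q (z.1 - P v z.1) := by
      have a1 : HasDerivAt (deriv fun r : ℝ => En (Y ((v, r • P v z.1), z.2)))
          (deriv (deriv fun r : ℝ => En (Y ((v, r • P v z.1), z.2))) 0) 0 := by
        have k1 : ContDiffAt ℝ ∞ (deriv fun r : ℝ => En (Y ((v, r • P v z.1), z.2))) 0 :=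
          ((hcur v z).fderiv_right (m := ∞) (by simp)).clm_apply contDiffAt_const
        exact (k1.differentiableAt (by simp)).hasDerivAt
      have a2 := a1.sub (((hasDerivAt_id (0 : ℝ)).const_mul 2).mul_const (q (z.1 - P v z.1)))
      rw [mul_one] at a2
      exact (hev v z).deriv_eq.trans a2.deriv
    rw [k1]
    rcases eq_or_ne (P v z.1) 0 with h0 | h0
    · have k2 : (fun r : ℝ => En (Y ((v, r • P v z.1), z.2))) = fun _ => En (x8 e D v) := by
        funext r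
        rw [h0, smul_zero, h.zero]
      have k3 : deriv (deriv fun r : ℝ => En (Y ((v, r • P v z.1), z.2))) 0 = 0 := by
        rw [k2]
        simp
      rw [k3, h0, sub_zero]
      have hz1 : z.1 ≠ 0 := by
        intro hz0
        have := mem_sphere_zero_iff_norm.1 hz.1
        rw [hz0, norm_zero] at this
        exact zero_ne_one this
      have k4 : 0 < q z.1 := lt_of_le_of_ne (hq0 _) fun hc => hz1 (hqs _ hc.symm)
      linarith
    · have k2 := (neg_iff F hD hB hdiam (h.at_curve v (P v z.1) z.2 0) (h.zero' v _ _)).1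
        (h.neg v z.2 hz.2 (P v z.1) (hP.idem v z.1) h0)
      have := hq0 (z.1 - P v z.1)
      linarith
  obtain ⟨r₁, hr₁, c, hc, key⟩ := unif_le (pc_UT (E := E) (M := M)) hKc hf h1 h2
  -- the sides
  have hside : ∀ᶠ r in 𝓝 (0 : ℝ), ∀ v : UT E M, ∀ z ∈ K, ∀ i,
      sd (Y ((v, r • P v z.1), z.2)) i < 3 * D / 4 := by
    refine (pc_UT (E := E) (M := M)).eventually (P := fun (r : ℝ) v (z : W × ℝ) => ∀ i,
      sd (Y ((v, r • P v z.1), z.2)) i < 3 * D / 4) hKc fun E' _ _ _ c e₀ hc z hz => ?_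
    refine eventually_all.2 fun i => ?_
    have k1 := hplot E' c e₀ hc z 0
    have k2 : ∀ i, ContinuousAt (fun q : (E' × (W × ℝ)) × ℝ =>
        Y ((c q.1.1, q.2 • P (c q.1.1) q.1.2.1), q.1.2.2) i) ((e₀, z), 0) := fun i =>
      (Filter.Eventually.self_of_nhds (k1 i)).continuousAt
    have k3 : Continuous fun p : ℝ × (E' × (W × ℝ)) =>
      ((p.2, p.1) : (E' × (W × ℝ)) × ℝ) := by fun_prop
    have k4 : ContinuousAt (fun q : (E' × (W × ℝ)) × ℝ =>
        sd (Y ((c q.1.1, q.2 • P (c q.1.1) q.1.2.1), q.1.2.2)) i) ((e₀, z), 0) :=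
      (k2 i).dist (k2 (i + 1))
    have k5 : ContinuousAt (fun p : ℝ × (E' × (W × ℝ)) =>
        sd (Y ((c p.2.1, p.1 • P (c p.2.1) p.2.2.1), p.2.2.2)) i) (0, (e₀, z)) :=
      ContinuousAt.comp (f := fun p : ℝ × (E' × (W × ℝ)) => ((p.2, p.1) : (E' × (W × ℝ)) × ℝ))
        (g := fun q : (E' × (W × ℝ)) × ℝ =>
          sd (Y ((c q.1.1, q.2 • P (c q.1.1) q.1.2.1), q.1.2.2)) i) k4 k3.continuousAt
    refine k5.eventually_lt_const ?_
    change sd (Y ((c e₀, (0 : ℝ) • P (c e₀) z.1), z.2)) i < 3 * D / 4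
    rw [hY0, sd_x8 F hD hB hdiam]
    linarith
  obtain ⟨r₂, hr₂, hr₂'⟩ := Metric.eventually_nhds_iff.1 hside
  refine ⟨min r₁ (r₂ / 2), lt_min hr₁ (by positivity), c, hc, fun v θ hθ w hw hwn => ?_⟩
  have hw1 : ‖w‖ ≤ r₁ := hwn.trans (min_le_left _ _)
  have hw2 : ‖w‖ ≤ r₂ / 2 := hwn.trans (min_le_right _ _)
  rcases eq_or_ne w 0 with h0 | h0
  · rw [h0, h.zero, norm_zero, En_x8 F hD hB hdiam]
    refine ⟨by norm_num, fun i => ?_⟩
    rw [sd_x8 F hD hB hdiam]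
    linarith
  · have hn : 0 < ‖w‖ := norm_pos_iff.2 h0
    set z : W := ‖w‖⁻¹ • w with hz
    have hz1 : ‖z‖ = 1 := by
      rw [hz, norm_smul, norm_inv, norm_norm, inv_mul_cancel₀ hn.ne']
    have hzK : ((z, θ) : W × ℝ) ∈ K := ⟨mem_sphere_zero_iff_norm.2 hz1, hθ⟩
    have hPz : P v z = z := by rw [hz, map_smul, hw]
    have hwz : ‖w‖ • P v z = w := by
      rw [hPz, hz, smul_smul, mul_inv_cancel₀ hn.ne', one_smul]
    constructor
    · have k := key v (z, θ) hzK ‖w‖ (by rwa [abs_of_pos hn])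
      have k1 : f v (z, θ) ‖w‖ = En (Y ((v, w), θ)) := by
        change En (Y ((v, ‖w‖ • P v z), θ)) - ‖w‖ ^ 2 * q (z - P v z) = _
        rw [hwz, hPz, sub_self]
        have : q 0 = 0 := by simp [q]
        rw [this]
        ring
      have k2 : f v (z, θ) 0 = 2 * D ^ 2 := by
        change En (Y ((v, (0 : ℝ) • P v z), θ)) - 0 ^ 2 * q (z - P v z) = _
        rw [h.zero', En_x8 F hD hB hdiam]
        ring
      rw [k1, k2] at k
      exact k
    · intro i
      have k := hr₂' (y := ‖w‖) (by rw [Real.dist_eq, sub_zero, abs_of_pos hn]; linarith) v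
        (z, θ) hzK i
      have k' : sd (Y ((v, ‖w‖ • P v z), θ)) i < 3 * D / 4 := k
      rw [hwz] at k'
      exact k'.le

end

end Vale.Agent.P231.S3B3
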