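import Vale.Agent.P231.S3B3.Y8
import Vale.Agent.P231.S3B3.Unif

/-!
# P231, stage 3, block S3-B3, part 7: broken fields and their 8-gons
-/

set_option maxSynthPendingDepth 3
set_option linter.unusedSectionVars false
set_option linter.unusedVariables false

open Bundle Manifold Set Filter Module
open scoped ContDiff Manifold Topology

namespace Vale.Agent.P231.S3B3

noncomputable section

open Vale.Agent.P234 Vale.Agent.P231 Vale.Agent.P231.H775 Vale.Agent.P231.Fm Vale.Agent.P231.W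
open Vale.Agent.P231.H766 Vale.Agent.P231.WD3 Vale.Agent.P231.WF Vale.Agent.P231.S3A
open Vale.Agent.P231.WR Vale.Agent.P231.S2N

variable {E : Type*} [NormedAddCommGroup E] [NormedSpace ℝ E] [FiniteDimensional ℝ E]
  {M : Type*} [MetricSpace M] [ChartedSpace E M] [IsManifold 𝓘(ℝ, E) ∞ M]
  [RiemannianBundle (fun x : M => TangentSpace 𝓘(ℝ, E) x)]
  [IsContMDiffRiemannianBundle 𝓘(ℝ, E) ∞ E (fun x : M => TangentSpace 𝓘(ℝ, E) x)]
  {e : ∀ x : M, TangentSpace 𝓘(ℝ, E) x → M}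
  [CompactSpace M] [ConnectedSpace M] [IsRiemannianManifold 𝓘(ℝ, E) M] {D : ℝ}

/-- linear fields of kernel vectors (703's `wm`, and `Th0 (XX X c)`) -/
structure Src {V : Type} [NormedAddCommGroup V] [NormedSpace ℝ V] [FiniteDimensional ℝ V]
    (F : Facts e) (hD : 0 < D) (hB : InjGE e D) (hdiam : ∀ p q : M, dist p q ≤ D)
    (P : UT E M → V →L[ℝ] V) (wm : UT E M → V → E) : Prop where
  add : ∀ u c c', wm u (c + c') = wm u c + wm u c'
  smul : ∀ u (k : ℝ) c, wm u (k • c) = k • wm u c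
  mem : ∀ u c, (wm u c : TangentSpace 𝓘(ℝ, E) (foot u)) ∈ Lf e D u
  smooth : ∀ {E' : Type} [NormedAddCommGroup E'] [NormedSpace ℝ E'] [FiniteDimensional ℝ E']
    {u : E' → UT E M} {c : E' → V} {x : E'}, (dUT E M).At u x → Sm c x →
      (dTM E M).At (fun s => tb (foot (u s)) (wm (u s) (c s))) x
  half : ∀ u c, P u c = c → wm (phi F (u, D)) c = -Tr F hD hB hdiam u (wm u c)
  inj : ∀ u c, P u c = c → wm u c = 0 → c = 0
  P_phi : ∀ u t, P (phi F (u, t)) = P u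

/-- the values at the eight times of the broken Jacobi field with the initial derivatives `κ j` at
the corners `j D` -/
def bZ (e : ∀ x : M, TangentSpace 𝓘(ℝ, E) x → M) (D : ℝ) (u : Fin 4 → UT E M) (κ : Fin 4 → E) :
    ZMod 8 → E :=
  ![Jc e (u 0) (κ 0) (D / 4), Jc e (u 0) (κ 0) (3 * D / 4), Jc e (u 1) (κ 1) (D / 4),
    Jc e (u 1) (κ 1) (3 * D / 4), Jc e (u 2) (κ 2) (D / 4), Jc e (u 2) (κ 2) (3 * D / 4),
    Jc e (u 3) (κ 3) (D / 4), Jc e (u 3) (κ 3) (3 * D / 4)]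

/-- the corner of a vertex -/
def cj (i : ZMod 8) : Fin 4 := (![0, 0, 1, 1, 2, 2, 3, 3] : Fin 8 → Fin 4) i

/-- the time of a vertex after its corner -/
def tj (D : ℝ) (i : ZMod 8) : ℝ :=
  (![D / 4, 3 * D / 4, D / 4, 3 * D / 4, D / 4, 3 * D / 4, D / 4, 3 * D / 4] : Fin 8 → ℝ) i

theorem bZ_apply (u : Fin 4 → UT E M) (κ : Fin 4 → E) (i : ZMod 8) :
    bZ e D u κ i = Jc e (u (cj i)) (κ (cj i)) (tj D i) := by
  have key : ∀ i : Fin 8, bZ e D u κ i = Jc e (u (cj i)) (κ (cj i)) (tj D i) := by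
    intro i
    fin_cases i <;> rfl
  exact key i

theorem y8_apply (u : Fin 4 → UT E M) (i : ZMod 8) : y8 e D u i = gm e (u (cj i), tj D i) := by
  have key : ∀ i : Fin 8, y8 e D u i = gm e (u (cj i), tj D i) := by
    intro i
    fin_cases i <;> rfl
  exact key i

theorem x8_eq (F : Facts e) (hD : 0 < D) (v : UT E M) (i : ZMod 8) :
    x8 e D v i = gm e (vj F D v (cj i), tj D i) := by
  rw [← y8_vj F hD, y8_apply]

theorem bZ_smul (u : Fin 4 → UT E M) (κ : Fin 4 → E) (r : ℝ) (i : ZMod 8) :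
    bZ e D u (fun j => r • κ j) i = r • bZ e D u κ i := by
  rw [bZ_apply, bZ_apply, Jc_smul]

theorem tj_mem (hD : 0 < D) (i : ZMod 8) : D / 4 ≤ tj D i ∧ tj D i ≤ 3 * D / 4 := by
  have key : ∀ i : Fin 8, D / 4 ≤ tj D i ∧ tj D i ≤ 3 * D / 4 := by
    intro i
    have h : D / 4 ≤ 3 * D / 4 := by linarith
    fin_cases i
    · exact ⟨le_rfl, h⟩
    · exact ⟨h, le_rfl⟩
    · exact ⟨le_rfl, h⟩
    · exact ⟨h, le_rfl⟩
    · exact ⟨le_rfl, h⟩
    · exact ⟨h, le_rfl⟩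
    · exact ⟨le_rfl, h⟩
    · exact ⟨h, le_rfl⟩
  exact key i

end

end Vale.Agent.P231.S3B3
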