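import Vale.Agent.P231.S3B3.Insc
import Vale.Agent.P231.S3B3.Mlh
import Vale.Agent.P231.S3V.MapZ
import Vale.Agent.P231.S3E2.Fin

/-!
# P231, stage 3, block S3-B3, [INSC]: the families `S0` and `S1` of inscribed 8-gons

`S0`: the fields `(1 - θ) XX X a + θ Z_a + Z_z` in the natural time (at `θ = 0` they are the pushed
doubled loops); `S1`: the fields `ZC` in the time `MM ψ D θ h₀`.
-/

set_option maxSynthPendingDepth 3
set_option linter.unusedSectionVars false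
set_option linter.unusedVariables false

open Bundle Manifold Set Filter Module MeasureTheory
open scoped ContDiff Manifold Topology

namespace Vale.Agent.P231.S3B3

noncomputable section

open Vale.Agent.P234 Vale.Agent.P231 Vale.Agent.P231.H775 Vale.Agent.P231.Fm Vale.Agent.P231.W
open Vale.Agent.P231.H766 Vale.Agent.P231.WD3 Vale.Agent.P231.WF Vale.Agent.P231.S3A
open Vale.Agent.P231.WR Vale.Agent.P231.S2N Vale.Agent.P231.WC
open Vale.Agent.P231.S3V (TM ZC Zth US Bz wv)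
open Vale.Agent.P231.S3Y (Wp)

variable {E : Type*} [NormedAddCommGroup E] [NormedSpace ℝ E] [FiniteDimensional ℝ E]
  {M : Type*} [MetricSpace M] [ChartedSpace E M] [IsManifold 𝓘(ℝ, E) ∞ M]
  [RiemannianBundle (fun x : M => TangentSpace 𝓘(ℝ, E) x)]
  [IsContMDiffRiemannianBundle 𝓘(ℝ, E) ∞ E (fun x : M => TangentSpace 𝓘(ℝ, E) x)]
  {e : ∀ x : M, TangentSpace 𝓘(ℝ, E) x → M}
  [CompactSpace M] [ConnectedSpace M] [IsRiemannianManifold 𝓘(ℝ, E) M] {D : ℝ}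
  {ι : Type} [Fintype ι] [DecidableEq ι] {F : Facts e}

/-! ### the family `S0` -/

/-- the fields of the family `S0` -/
def ZS0 (F : Facts e) (D : ℝ) (X W : ι → UT E M → E) (p : (UT E M × Wp ι) × ℝ) (t : ℝ) : E :=
  Zth F D X W (fun s => s) p.2 p.1.1 p.1.2.1 p.1.2.2.1 p.1.2.2.2 t

/-- the fields of the family `S1` -/
def ZS1 (F : Facts e) (D : ℝ) (W : ι → UT E M → E) (ψ : ℝ → ℝ) (h₀ : ℝ)
    (p : (UT E M × Wp ι) × ℝ) (t : ℝ) : E :=
  ZC F D W p.1.1 (S3V.Cd D (MM ψ D p.2 h₀) p.1.2.1 p.1.2.2.1 p.1.2.2.2) t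

/-- **the family `S0`** -/
def YS0 (F : Facts e) (D : ℝ) (X W : ι → UT E M → E) : (UT E M × Wp ι) × ℝ → ZMod 8 → M :=
  Yin e D (ZS0 F D X W)

/-- **the family `S1`** -/
def YS1 (F : Facts e) (D : ℝ) (W : ι → UT E M → E) (ψ : ℝ → ℝ) (h₀ : ℝ) :
    (UT E M × Wp ι) × ℝ → ZMod 8 → M :=
  Yin e D (ZS1 F D W ψ h₀)

theorem XX_smul' (X : ι → UT E M → E) (k : ℝ) (a : EuclideanSpace ℝ ι) (v : UT E M) :
    XX X (k • a) v = k • XX X a v := by
  unfold XX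
  rw [Finset.smul_sum]
  refine Finset.sum_congr rfl fun i _ => ?_
  rw [PiLp.smul_apply, smul_eq_mul, mul_smul]

theorem Zth_smul (X W : ι → UT E M → E) (μ : ℝ → ℝ) (θ : ℝ) (v : UT E M) (k : ℝ)
    (a x y : EuclideanSpace ℝ ι) (t : ℝ) :
    Zth F D X W μ θ v (k • a) (k • x) (k • y) t = k • Zth F D X W μ θ v a x y t := by
  have h1 : (fun s => deriv μ s • (k • a)) = fun s => k • (deriv μ s • a) := by
    funext s
    rw [smul_comm]
  have h2 : (fun s => deriv μ s • Bz D (k • x) (k • y) (μ s)) =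
      fun s => k • (deriv μ s • Bz D x y (μ s)) := by
    funext s
    unfold Bz
    module
  unfold Zth
  rw [h1, h2, S3V.ZC_smul, S3V.ZC_smul, XX_smul', smul_add, smul_add, smul_comm k (1 - θ),
    smul_comm k θ]

theorem ZS0_smul (X W : ι → UT E M → E) (v : UT E M) (w : Wp ι) (θ r t : ℝ) :
    ZS0 F D X W ((v, r • w), θ) t = r • ZS0 F D X W ((v, w), θ) t :=
  Zth_smul X W _ θ v r _ _ _ t

theorem ZS1_smul (W : ι → UT E M → E) (ψ : ℝ → ℝ) (h₀ : ℝ) (v : UT E M) (w : Wp ι)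
    (θ r t : ℝ) : ZS1 F D W ψ h₀ ((v, r • w), θ) t = r • ZS1 F D W ψ h₀ ((v, w), θ) t := by
  unfold ZS1
  rw [← S3V.ZC_smul]
  congr 1
  funext s
  exact S3V.Cd_smul r w.1 w.2.1 w.2.2 s

/-- the families agree at `θ = 1`, `θ = 0` -/
theorem ZS0_one {W : ι → UT E M → E} (hW : ∀ i, LS e D (W i)) (X : ι → UT E M → E) (ψ : ℝ → ℝ)
    (h₀ : ℝ) (q : UT E M × Wp ι) : ZS0 F D X W (q, 1) = ZS1 F D W ψ h₀ (q, 0) := by
  funext t
  unfold ZS0 ZS1
  simp only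
  rw [MM_zero, S3V.ZC_Cd (X := X) hW (TM.id D)]

theorem YS0_one {W : ι → UT E M → E} (hW : ∀ i, LS e D (W i)) (X : ι → UT E M → E) (ψ : ℝ → ℝ)
    (h₀ : ℝ) (q : UT E M × Wp ι) : YS0 F D X W (q, 1) = YS1 F D W ψ h₀ (q, 0) := by
  funext i
  unfold YS0 YS1 Yin
  rw [ZS0_one hW X ψ h₀]

/-- at `θ = 0` the vertices of the family `S0` are the points of the pushed doubled loops -/
theorem YS0_zero {W : ι → UT E M → E} (hW : ∀ i, LS e D (W i)) (X : ι → UT E M → E)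
    (q : UT E M × Wp ι) (i : ZMod 8) : YS0 F D X W (q, 0) i =
      S3Y.kY F D X (S3E2.Pc F D W (Real.pi / (2 * D))) (S3E2.Ps F D W (Real.pi / (2 * D)))
        (q, (2 * i.val + 1) * (D / 4)) := by
  obtain ⟨v, w⟩ := q
  set t : ℝ := (2 * i.val + 1) * (D / 4) with ht
  have h1 : ZS0 F D X W ((v, w), 0) t = XX X w.1 (phi F (v, t)) +
      S3E2.zF F D v (S3E2.Uz F D W v w.2.1 w.2.2) t := by
    unfold ZS0 Zth
    simp only [sub_zero, one_smul, zero_smul, add_zero]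
    congr 1
    unfold ZC
    congr 1
    funext s
    unfold US wv S3E2.Uz Bz
    have h2 : deriv (fun s : ℝ => s) s = 1 := deriv_id s
    refine Finset.sum_congr rfl fun i _ => ?_
    simp only [h2, one_smul, PiLp.sub_apply, PiLp.smul_apply, smul_eq_mul]
  have h3 := S3E2.XX_flow (F := F) (D := D) hW v w.2.1 w.2.2 t
  unfold YS0 Yin
  rw [h1, ← h3]
  rfl

/-! ### smoothness -/

section Plots

variable {E' : Type} [NormedAddCommGroup E'] [NormedSpace ℝ E'] [FiniteDimensional ℝ E']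

/-- the weighted fields are smooth, all data variable -/
theorem at_ZCd (F : Facts e) {W : ι → UT E M → E} (hW : ∀ i, LS e D (W i)) {u : E' → UT E M}
    {τ : E' → ℝ} {μ : E' → ℝ → ℝ} {a x y : E' → EuclideanSpace ℝ ι} {z : E'}
    (hu : (dUT E M).At u z) (hτ : Sm τ z)
    (hμ : ∀ᶠ s in 𝓝 z, ∀ t : ℝ, Sm (fun p : E' × ℝ => μ p.1 p.2) (s, t))
    (hμ' : ∀ᶠ s in 𝓝 z, ∀ t : ℝ, Sm (fun p : E' × ℝ => deriv (μ p.1) p.2) (s, t))
    (ha : Sm a z) (hx : Sm x z) (hy : Sm y z) :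
    (dTM E M).At (fun s => tb (gm e (u s, τ s))
      (ZC F D W (u s) (S3V.Cd D (μ s) (a s) (x s) (y s)) (τ s))) z := by
  refine S3V.at_ZC F hW hu hτ ?_
  filter_upwards [hμ, hμ', eventually_eventually_nhds.2 ha, eventually_eventually_nhds.2 hx,
    eventually_eventually_nhds.2 hy] with s h1 h2 h3 h4 h5 t
  have hf : ∀ {f : E' → EuclideanSpace ℝ ι}, Sm f s → Sm (fun p : E' × ℝ => f p.1) (s, t) :=
    fun {f} hf => Sm.comp (f := f) (g := Prod.fst) hf (Sm.of_contDiff contDiff_fst _)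
  exact S3V.sm_Cd (μ := fun p : E' × ℝ => μ p.1) (τ := Prod.snd) (h1 t) (h2 t) (hf h3) (hf h4)
    (hf h5)

theorem sm_id_time {z : E'} {τ : E' → ℝ} (hτ : Sm τ z) :
    Sm (fun p => (fun s : ℝ => s) (τ p)) z ∧ Sm (fun p => deriv (fun s : ℝ => s) (τ p)) z := by
  refine ⟨hτ, ?_⟩
  have h : (fun p => deriv (fun s : ℝ => s) (τ p)) = fun _ : E' => (1 : ℝ) := by
    funext p
    exact deriv_id _
  rw [h]
  exact Sm.of_contDiff contDiff_const _

theorem sm_MM_time {ψ : ℝ → ℝ} (hψ : Bmp ψ) (hD : 0 < D) {h₀ : ℝ} (hh : 0 < h₀)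
    (hhD : h₀ < D / 2) {z : E'} {θ τ : E' → ℝ} (hθ : Sm θ z) (hτ : Sm τ z) :
    Sm (fun p => MM ψ D (θ p) h₀ (τ p)) z ∧ Sm (fun p => deriv (MM ψ D (θ p) h₀) (τ p)) z := by
  constructor
  · filter_upwards [hθ, hτ] with p h1 h2
    exact ContDiffAt.comp (g := fun q : ℝ × ℝ × ℝ => MM ψ D q.1 q.2.1 q.2.2)
      (f := fun p => (θ p, h₀, τ p)) p (contDiffAt_MM hψ hD hh hhD _ _)
      (h1.prodMk (contDiffAt_const.prodMk h2))
  · filter_upwards [hθ, hτ] with p h1 h2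
    exact ContDiffAt.comp (g := fun q : ℝ × ℝ × ℝ => deriv (MM ψ D q.1 q.2.1) q.2.2)
      (f := fun p => (θ p, h₀, τ p)) p (contDiffAt_deriv_MM hψ hD hh hhD _ _)
      (h1.prodMk (contDiffAt_const.prodMk h2))

theorem at_ZS1 (F : Facts e) {W : ι → UT E M → E} (hW : ∀ i, LS e D (W i)) {ψ : ℝ → ℝ}
    (hψ : Bmp ψ) (hD : 0 < D) {h₀ : ℝ} (hh : 0 < h₀) (hhD : h₀ < D / 2)
    {u : E' → (UT E M × Wp ι) × ℝ} {z : E'}
    (hu : (((dUT E M).prod (Dif.lin (Wp ι))).prod (Dif.lin ℝ)).At u z) (t : ℝ) :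
    (dTM E M).At (fun s => tb (gm e ((u s).1.1, t)) (ZS1 F D W ψ h₀ (u s) t)) z := by
  have h1 : (dUT E M).At (fun s => (u s).1.1) z := hu.1.1
  have h2 : Sm (fun s => (u s).1.2) z := hu.1.2
  have h3 : Sm (fun s => (u s).2) z := hu.2
  have hp : Sm (fun s => (u s).1.2.2) z :=
    Sm.comp (f := fun w : Wp ι => w.2) (Sm.of_contDiff contDiff_snd _) h2
  have ha : Sm (fun s => (u s).1.2.1) z :=
    Sm.comp (f := fun w : Wp ι => w.1) (Sm.of_contDiff contDiff_fst _) h2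
  have hx : Sm (fun s => (u s).1.2.2.1) z :=
    Sm.comp (f := fun w : EuclideanSpace ℝ ι × EuclideanSpace ℝ ι => w.1)
      (Sm.of_contDiff contDiff_fst _) hp
  have hy : Sm (fun s => (u s).1.2.2.2) z :=
    Sm.comp (f := fun w : EuclideanSpace ℝ ι × EuclideanSpace ℝ ι => w.2)
      (Sm.of_contDiff contDiff_snd _) hp
  have hθ : ∀ᶠ s in 𝓝 z, ∀ t : ℝ, Sm (fun p : E' × ℝ => (u p.1).2) (s, t) := by
    filter_upwards [eventually_eventually_nhds.2 h3] with s k t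
    exact Sm.comp (f := fun s => (u s).2) (g := Prod.fst) k (Sm.of_contDiff contDiff_fst _)
  refine at_ZCd F hW (μ := fun s => MM ψ D (u s).2 h₀) h1 (Sm.of_contDiff contDiff_const _)
    ?_ ?_ ha hx hy
  · filter_upwards [hθ] with s k t
    exact (sm_MM_time hψ hD hh hhD (k t) (Sm.of_contDiff contDiff_snd _)).1
  · filter_upwards [hθ] with s k t
    exact (sm_MM_time hψ hD hh hhD (k t) (Sm.of_contDiff contDiff_snd _)).2

theorem Cd_a (D : ℝ) (μ : ℝ → ℝ) (a : EuclideanSpace ℝ ι) :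
    (fun s => deriv μ s • a) = S3V.Cd D μ a 0 0 := by
  funext s
  unfold S3V.Cd Bz
  rw [smul_zero, smul_zero, sub_zero, add_zero]

theorem Cd_z (D : ℝ) (μ : ℝ → ℝ) (x y : EuclideanSpace ℝ ι) :
    (fun s => deriv μ s • Bz D x y (μ s)) = S3V.Cd D μ 0 x y := by
  funext s
  unfold S3V.Cd
  rw [zero_add]

theorem at_ZS0 (F : Facts e) {X W : ι → UT E M → E} (hX : ∀ i, Fld (X i))
    (hW : ∀ i, LS e D (W i)) {u : E' → (UT E M × Wp ι) × ℝ} {z : E'}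
    (hu : (((dUT E M).prod (Dif.lin (Wp ι))).prod (Dif.lin ℝ)).At u z) (t : ℝ) :
    (dTM E M).At (fun s => tb (gm e ((u s).1.1, t)) (ZS0 F D X W (u s) t)) z := by
  have h1 : (dUT E M).At (fun s => (u s).1.1) z := hu.1.1
  have h2 : Sm (fun s => (u s).1.2) z := hu.1.2
  have h3 : Sm (fun s => (u s).2) z := hu.2
  have hp : Sm (fun s => (u s).1.2.2) z :=
    Sm.comp (f := fun w : Wp ι => w.2) (Sm.of_contDiff contDiff_snd _) h2
  have ha : Sm (fun s => (u s).1.2.1) z :=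
    Sm.comp (f := fun w : Wp ι => w.1) (Sm.of_contDiff contDiff_fst _) h2
  have hx : Sm (fun s => (u s).1.2.2.1) z :=
    Sm.comp (f := fun w : EuclideanSpace ℝ ι × EuclideanSpace ℝ ι => w.1)
      (Sm.of_contDiff contDiff_fst _) hp
  have hy : Sm (fun s => (u s).1.2.2.2) z :=
    Sm.comp (f := fun w : EuclideanSpace ℝ ι × EuclideanSpace ℝ ι => w.2)
      (Sm.of_contDiff contDiff_snd _) hp
  have h0 : Sm (fun _ : E' => (0 : EuclideanSpace ℝ ι)) z := Sm.of_contDiff contDiff_const _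
  have h3' : Sm (fun s => 1 - (u s).2) z := by
    filter_upwards [h3] with s hs using contDiffAt_const.sub hs
  have hc : Sm (fun _ : E' => t) z := Sm.of_contDiff contDiff_const _
  have hm : ∀ᶠ s in 𝓝 z, ∀ t : ℝ, Sm (fun p : E' × ℝ => (fun s : ℝ => s) p.2) (s, t) :=
    Eventually.of_forall fun s t => (sm_id_time (Sm.of_contDiff contDiff_snd _)).1
  have hm' : ∀ᶠ s in 𝓝 z, ∀ t : ℝ, Sm (fun p : E' × ℝ => deriv (fun s : ℝ => s) p.2) (s, t) :=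
    Eventually.of_forall fun s t => (sm_id_time (Sm.of_contDiff contDiff_snd _)).2
  have k1 : (dUT E M).At (fun s => phi F ((u s).1.1, t)) z :=
    map_phi F (u := fun s => ((u s).1.1, t)) ⟨h1, hc⟩
  have k2 : (dTM E M).At (fun s => tb (gm e ((u s).1.1, t))
      (XX X (u s).1.2.1 (phi F ((u s).1.1, t)))) z := at_XX hX k1 ha
  have k3 := at_ZCd F hW (μ := fun _ s => s) h1 hc hm hm' ha h0 h0
  have k4 := at_ZCd F hW (μ := fun _ s => s) h1 hc hm hm' h0 hx hy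
  have k5 := at_add (f := fun s => gm e ((u s).1.1, t)) (at_add
    (f := fun s => gm e ((u s).1.1, t)) (at_smul h3' k2) (at_smul h3 k3)) k4
  have k6 : (fun s => tb (gm e ((u s).1.1, t)) (ZS0 F D X W (u s) t)) = fun s =>
      tb (gm e ((u s).1.1, t)) (((1 - (u s).2) • XX X (u s).1.2.1 (phi F ((u s).1.1, t)) +
        (u s).2 • ZC F D W (u s).1.1 (S3V.Cd D (fun s => s) (u s).1.2.1 0 0) t) +
        ZC F D W (u s).1.1 (S3V.Cd D (fun s => s) 0 (u s).1.2.2.1 (u s).1.2.2.2) t) := by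
    funext s
    refine tb_congr rfl ?_
    unfold ZS0 Zth
    rw [Cd_a D (fun s => s), Cd_z D (fun s => s)]
  rw [k6]
  exact k5

end Plots

/-- **the family `S0` is smooth** -/
theorem sfm_YS0 (F : Facts e) {X W : ι → UT E M → E} (hX : ∀ i, Fld (X i))
    (hW : ∀ i, LS e D (W i)) : SFm e D (YS0 F D X W) :=
  sfm_Yin F (ZS0_smul X W) fun i {E'} _ _ _ {u x} hu => at_ZS0 F hX hW hu _

/-- **the family `S1` is smooth** -/
theorem sfm_YS1 (F : Facts e) {W : ι → UT E M → E} (hW : ∀ i, LS e D (W i)) {ψ : ℝ → ℝ}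
    (hψ : Bmp ψ) (hD : 0 < D) {h₀ : ℝ} (hh : 0 < h₀) (hhD : h₀ < D / 2) :
    SFm e D (YS1 F D W ψ h₀) :=
  sfm_Yin F (ZS1_smul W ψ h₀) fun i {E'} _ _ _ {u x} hu => at_ZS1 F hW hψ hD hh hhD hu _

/-! ### negativity -/

variable {hD : 0 < D} {hB : InjGE e D} {hdiam : ∀ p q : M, dist p q ≤ D} {l : ℕ}
  {X δ : ι → UT E M → E} {ε : ℝ} {W : ι → UT E M → E}

theorem Zth_per (F : Facts e) (hD : 0 < D) (hB : InjGE e D) (hdiam : ∀ p q : M, dist p q ≤ D)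
    (X W : ι → UT E M → E) {μ : ℝ → ℝ} (hμ : TM D μ) (θ : ℝ) (v : UT E M)
    (a x y : EuclideanSpace ℝ ι) (t : ℝ) :
    Zth F D X W μ θ v a x y (t + 4 * D) = Zth F D X W μ θ v a x y t := by
  have h1 : phi F (v, t + 4 * D) = phi F (v, t) := by
    rw [← phi_add]
    exact S3E2.phi_per4 F hD hB hdiam _
  unfold Zth
  rw [Cd_a D μ, Cd_z D μ, h1, S3V.ZC_per hD hB hdiam W v (S3V.Cd_per hD hμ a 0 0),
    S3V.ZC_per hD hB hdiam W v (S3V.Cd_per hD hμ 0 x y)]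

theorem ne_of_Wp {w : Wp ι} (h : w ≠ 0) : w.1 ≠ 0 ∨ w.2.1 ≠ 0 ∨ w.2.2 ≠ 0 := by
  by_contra hcon
  push Not at hcon
  exact h (Prod.ext hcon.1 (Prod.ext hcon.2.1 hcon.2.2))

/-- **negativity of the family `S0`** -/
theorem neg_YS0 (hP : ∀ x y : M, dist x y = D → finrank ℝ (H775.Pl e D x y) = l + 1)
    (hf : Fam F hD hB hdiam l X δ ε) (hW : S3E2.IsW F hD hB hdiam X δ ε W) {θ : ℝ}
    (hθ : θ ∈ Icc (0 : ℝ) 1) (v : UT E M) {w : Wp ι} (ha : Pm F D X δ ε v w.1 = w.1)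
    (hx : Pm F D X δ ε v w.2.1 = w.2.1) (hy : Pm F D X δ ε v w.2.2 = w.2.2) (hw : w ≠ 0) :
    Neg D (fun r => YS0 F D X W ((v, r • w), θ)) :=
  neg_Yin F hD hB hdiam (ZS0_smul X W)
    (fun t => S3V.fa_Zth (fun i => (hf.df i).fld) hW.ls (TM.id D) θ v _ _ _ t)
    (fun t => Zth_per F hD hB hdiam X W (TM.id D) θ v _ _ _ t)
    (S3V.en_th hP hf hW (TM.id D) hθ.1 hθ.2 v ha hx hy (ne_of_Wp hw))

/-- **negativity of the family `S1`**, `θ < 1` -/
theorem neg_YS1 (hP : ∀ x y : M, dist x y = D → finrank ℝ (H775.Pl e D x y) = l + 1)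
    (hf : Fam F hD hB hdiam l X δ ε) (hW : S3E2.IsW F hD hB hdiam X δ ε W) {ψ : ℝ → ℝ}
    (hψ : Bmp ψ) {h₀ : ℝ} (hh : 0 < h₀) (hhD : h₀ < D / 2) {θ : ℝ} (hθ0 : 0 ≤ θ) (hθ1 : θ < 1)
    (v : UT E M) {w : Wp ι} (ha : Pm F D X δ ε v w.1 = w.1)
    (hx : Pm F D X δ ε v w.2.1 = w.2.1) (hy : Pm F D X δ ε v w.2.2 = w.2.2) (hw : w ≠ 0) :
    Neg D (fun r => YS1 F D W ψ h₀ ((v, r • w), θ)) := by
  have hμ : TM D (MM ψ D θ h₀) := TM_MM hψ hD hh hhD hθ0 hθ1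
  exact neg_Yin F hD hB hdiam (ZS1_smul W ψ h₀)
    (S3E2.fa_zF (S3V.sc_US (F := F) hW.ls v (S3V.contDiff_Cd hμ w.1 w.2.1 w.2.2)).fa)
    (fun t => S3V.ZC_per hD hB hdiam W v (S3V.Cd_per hD hμ _ _ _) t)
    (S3V.neg_ZC hP hf hW hμ v ha hx hy (ne_of_Wp hw)).2.2

end

end Vale.Agent.P231.S3B3
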