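import Vale.Agent.P231.S3B3.Asm
import Vale.Agent.P231.S3B3.InscF
import Vale.Agent.P231.S3B3.Hf3b

/-!
# P231, stage 3, block S3-B3, part 13: the families `S0` and `S1` up to the end `θ = 1`
-/

set_option maxSynthPendingDepth 3
set_option linter.unusedSectionVars false
set_option linter.unusedVariables false

open Bundle Manifold Set Filter Module
open scoped ContDiff Manifold Topology

namespace Vale.Agent.P231.S3B3

noncomputable section

open Vale.Agent.P234 Vale.Agent.P231 Vale.Agent.P231.H775 Vale.Agent.P231.Fm Vale.Agent.P231.W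
open Vale.Agent.P231.H766 Vale.Agent.P231.WD3 Vale.Agent.P231.WF Vale.Agent.P231.S3A
open Vale.Agent.P231.WR Vale.Agent.P231.S2N Vale.Agent.P231.WC
open Vale.Agent.P231.S3V (TM ZC Zth US Bz wv)
open Vale.Agent.P231.S3Y (Wp)

variable {E : Type*} [NormedAddCommGroup E] [NormedSpace ℝ E] [FiniteDimensional ℝ E]
  {M : Type*} [MetricSpace M] [ChartedSpace E M] [IsManifold 𝓘(ℝ, E) ∞ M]
  [RiemannianBundle (fun x : M => TangentSpace 𝓘(ℝ, E) x)]
  [IsContMDiffRiemannianBundle 𝓘(ℝ, E) ∞ E (fun x : M => TangentSpace 𝓘(ℝ, E) x)]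
  {e : ∀ x : M, TangentSpace 𝓘(ℝ, E) x → M}
  [CompactSpace M] [ConnectedSpace M] [IsRiemannianManifold 𝓘(ℝ, E) M] {D : ℝ}
  {ι : Type} [Fintype ι] [DecidableEq ι] {F : Facts e} {hD : 0 < D} {hB : InjGE e D}
  {hdiam : ∀ p q : M, dist p q ≤ D} {l : ℕ} {X δ : ι → UT E M → E} {ε : ℝ}
  {W : ι → UT E M → E} {ψ : ℝ → ℝ}

/-- at `λ = 1` the family `S1` is the family concentrated near the corners -/
theorem YS1_one (F : Facts e) (hD : 0 < D) (W : ι → UT E M → E) (hψ : Bmp ψ) {h₀ : ℝ}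
    (hh : 0 < h₀) (hh4 : h₀ < D / 4) (q : UT E M × Wp ι) :
    YS1 F D W ψ h₀ (q, 1) = YL e D (Xh F D ψ (wv W)) (q, h₀) := by
  obtain ⟨v, w⟩ := q
  funext i
  have k := Xh_eq_Bh F hψ hD hh hh4 (S3V.wv_smul W) v w i
  have k1 : ZS1 F D W ψ h₀ ((v, w), 1) ((2 * i.val + 1) * (D / 4)) =
      Xh F D ψ (wv W) ((v, w), h₀) i := by
    rw [← k]
    unfold ZS1
    simp only
    rw [MM_one]
    rfl
  unfold YS1 Yin YL
  rw [k1]

/-- **the family `S1`**, `0 ≤ λ ≤ 1` -/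
theorem lfm_YS1 (hP : ∀ x y : M, dist x y = D → finrank ℝ (H775.Pl e D x y) = l + 1)
    (hf : Fam F hD hB hdiam l X δ ε) (hW : S3E2.IsW F hD hB hdiam X δ ε W) (hψ : Bmp ψ)
    {h₀ : ℝ} (hh : 0 < h₀) (hh4 : h₀ < D / 4)
    (hn : ∀ h, |h| ≤ h₀ → ∀ v w, P3 (Pm F D X δ ε) v w = w → w ≠ 0 →
      Neg D (fun r => YL e D (Xh F D ψ (wv W)) ((v, r • w), h))) :
    LFm e D (P3 (Pm F D X δ ε)) (YS1 F D W ψ h₀) := by
  have hh2 : h₀ < D / 2 := by linarith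
  refine (sfm_YS1 F hW.ls hψ hD hh hh2).lfm fun v θ hθ w hw hw0 => ?_
  obtain ⟨ha, hx, hy⟩ := (P3_iff v w).1 hw
  rcases lt_or_eq_of_le hθ.2 with h1 | h1
  · exact neg_YS1 hP hf hW hψ hh hh2 hθ.1 h1 v ha hx hy hw0
  · rw [h1]
    simp only [YS1_one F hD W hψ hh hh4]
    exact hn h₀ (by rw [abs_of_pos hh]) v w hw hw0

/-- **the family `S0`** -/
theorem lfm_YS0 (hP : ∀ x y : M, dist x y = D → finrank ℝ (H775.Pl e D x y) = l + 1)
    (hf : Fam F hD hB hdiam l X δ ε) (hW : S3E2.IsW F hD hB hdiam X δ ε W) :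
    LFm e D (P3 (Pm F D X δ ε)) (YS0 F D X W) := by
  refine (sfm_YS0 F (fun i => (hf.df i).fld) hW.ls).lfm fun v θ hθ w hw hw0 => ?_
  obtain ⟨ha, hx, hy⟩ := (P3_iff v w).1 hw
  exact neg_YS0 hP hf hW hθ v ha hx hy hw0

end

end Vale.Agent.P231.S3B3
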