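import Vale.Agent.P231.H766.SL3

/-!
# P231, stage 3, block S3-B3, part 1: calculus at a critical point
-/

set_option linter.unusedVariables false

open Set Filter Topology
open scoped ContDiff

namespace Vale.Agent.P231.S3B3

open Vale.Agent.P231.Fm Vale.Agent.P231.H766

/-! ### second derivatives at critical points -/

/-- composition with a critical point -/
theorem deriv_comp_crit {W : Type*} [NormedAddCommGroup W] [NormedSpace ℝ W] {G : W → ℝ} {x₀ : W}
    (hG : ContDiffAt ℝ ∞ G x₀) (h0 : fderiv ℝ G x₀ = 0) {L : ℝ → W} (hL : ContDiffAt ℝ ∞ L 0)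
    (hL0 : L 0 = x₀) : deriv (fun r => G (L r)) 0 = 0 ∧
      deriv (deriv fun r => G (L r)) 0 = fderiv ℝ (fderiv ℝ G) x₀ (deriv L 0) (deriv L 0) := by
  have hLt : Tendsto L (𝓝 0) (𝓝 x₀) := by
    have := hL.continuousAt.tendsto
    rwa [hL0] at this
  have hGd : ∀ᶠ y in 𝓝 x₀, DifferentiableAt ℝ G y := by
    filter_upwards [(hG.of_le (m := 1) (by exact_mod_cast le_top)).eventually (by simp)] with y hy
    exact hy.differentiableAt (by simp)
  have hLd : ∀ᶠ r in 𝓝 (0 : ℝ), DifferentiableAt ℝ L r := by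
    filter_upwards [(hL.of_le (m := 1) (by exact_mod_cast le_top)).eventually (by simp)] with y hy
    exact hy.differentiableAt (by simp)
  have h1 : (deriv fun r => G (L r)) =ᶠ[𝓝 0] fun r => fderiv ℝ G (L r) (deriv L r) := by
    filter_upwards [hLt.eventually hGd, hLd] with r k1 k2
    exact (k1.hasFDerivAt.comp_hasDerivAt r k2.hasDerivAt).deriv
  have h2 : HasDerivAt (fun r => fderiv ℝ G (L r)) (fderiv ℝ (fderiv ℝ G) x₀ (deriv L 0)) 0 := by
    have k1 : DifferentiableAt ℝ (fderiv ℝ G) (L 0) := by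
      rw [hL0]
      exact (hG.fderiv_right (m := ∞) (by simp)).differentiableAt (by simp)
    have k2 := k1.hasFDerivAt.comp_hasDerivAt 0 (hL.differentiableAt (by simp)).hasDerivAt
    rw [hL0] at k2
    exact k2
  have h3 : HasDerivAt (deriv L) (deriv (deriv L) 0) 0 := by
    have k1 : ContDiffAt ℝ ∞ (deriv L) 0 := by
      have := hL.fderiv_right (m := ∞) (by simp)
      exact this.clm_apply contDiffAt_const
    exact (k1.differentiableAt (by simp)).hasDerivAt
  refine ⟨?_, ?_⟩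
  · rw [h1.self_of_nhds]
    simp only [hL0, h0]
    rfl
  · rw [h1.deriv_eq, (h2.clm_apply h3).deriv, hL0, h0]
    simp

/-- the second derivative at a critical point depends on the velocity only -/
theorem deriv2_comp_congr {W : Type*} [NormedAddCommGroup W] [NormedSpace ℝ W] {G : W → ℝ} {x₀ : W}
    (hG : ContDiffAt ℝ ∞ G x₀) (h0 : fderiv ℝ G x₀ = 0) {L L' : ℝ → W} (hL : ContDiffAt ℝ ∞ L 0)
    (hL0 : L 0 = x₀) (hL' : ContDiffAt ℝ ∞ L' 0) (hL0' : L' 0 = x₀)
    (hd : deriv L 0 = deriv L' 0) :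
    deriv (deriv fun r => G (L r)) 0 = deriv (deriv fun r => G (L' r)) 0 := by
  rw [(deriv_comp_crit hG h0 hL hL0).2, (deriv_comp_crit hG h0 hL' hL0').2, hd]

/-- from an upper bound to the second derivative -/
theorem deriv2_le {f : ℝ → ℝ} (hf : ContDiffAt ℝ ∞ f 0) {c : ℝ}
    (h : ∀ᶠ r in 𝓝 (0 : ℝ), f r ≤ f 0 - c * r ^ 2) (h0 : deriv f 0 = 0) :
    deriv (deriv f) 0 ≤ -2 * c := by
  by_contra hlt
  push Not at hlt
  set g : ℝ → ℝ := fun r => f r + c * r ^ 2 with hg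
  have hfd : ∀ᶠ r in 𝓝 (0 : ℝ), DifferentiableAt ℝ f r := by
    filter_upwards [(hf.of_le (m := 1) (by exact_mod_cast le_top)).eventually (by simp)] with y hy
    exact hy.differentiableAt (by simp)
  have h1 : deriv g =ᶠ[𝓝 0] fun r => deriv f r + c * (2 * r) := by
    filter_upwards [hfd] with r hr
    have k := hr.hasDerivAt.add (((hasDerivAt_id r).pow 2).const_mul c)
    rw [hg]
    refine (HasDerivAt.deriv k).trans ?_
    simp
  have h2 : HasDerivAt (deriv f) (deriv (deriv f) 0) 0 := by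
    have k1 : ContDiffAt ℝ ∞ (deriv f) 0 :=
      (hf.fderiv_right (m := ∞) (by simp)).clm_apply contDiffAt_const
    exact (k1.differentiableAt (by simp)).hasDerivAt
  have h3 : deriv (deriv g) 0 = deriv (deriv f) 0 + 2 * c := by
    rw [h1.deriv_eq]
    have k := h2.add (((hasDerivAt_id (0 : ℝ)).const_mul 2).const_mul c)
    refine (HasDerivAt.deriv k).trans ?_
    ring
  have h4 : deriv g 0 = 0 := by
    rw [h1.self_of_nhds]
    simp only [h0]
    ring
  have h5 : ContinuousAt g 0 := by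
    have := hf.continuousAt
    exact this.add (by fun_prop)
  have h6 : IsLocalMin g 0 := isLocalMin_of_deriv_deriv_pos (by rw [h3]; linarith) h4 h5
  have h7 : g =ᶠ[𝓝 0] fun _ => g 0 := by
    filter_upwards [h6, h] with r k1 k2
    refine le_antisymm ?_ k1
    simp only [hg]
    linarith
  have h8 : deriv (deriv g) 0 = 0 := by
    have k1 : deriv g =ᶠ[𝓝 0] fun _ => (0 : ℝ) := by
      filter_upwards [h7.eventuallyEq_nhds] with r hr
      rw [hr.deriv_eq, deriv_const]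
    rw [k1.deriv_eq, deriv_const]
  rw [h3] at h8
  linarith

/-- from the second derivative to an upper bound -/
theorem le_of_deriv2 {f : ℝ → ℝ} (hf : ContDiffAt ℝ ∞ f 0) {c : ℝ} (h0 : deriv f 0 = 0)
    (h : deriv (deriv f) 0 < -2 * c) : ∀ᶠ r in 𝓝 (0 : ℝ), f r ≤ f 0 - c * r ^ 2 := by
  set g : ℝ → ℝ := fun r => f r + c * r ^ 2 with hg
  have hfd : ∀ᶠ r in 𝓝 (0 : ℝ), DifferentiableAt ℝ f r := by
    filter_upwards [(hf.of_le (m := 1) (by exact_mod_cast le_top)).eventually (by simp)] with y hy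
    exact hy.differentiableAt (by simp)
  have h1 : deriv g =ᶠ[𝓝 0] fun r => deriv f r + c * (2 * r) := by
    filter_upwards [hfd] with r hr
    have k := hr.hasDerivAt.add (((hasDerivAt_id r).pow 2).const_mul c)
    rw [hg]
    refine (HasDerivAt.deriv k).trans ?_
    simp
  have h2 : HasDerivAt (deriv f) (deriv (deriv f) 0) 0 := by
    have k1 : ContDiffAt ℝ ∞ (deriv f) 0 :=
      (hf.fderiv_right (m := ∞) (by simp)).clm_apply contDiffAt_const
    exact (k1.differentiableAt (by simp)).hasDerivAt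
  have h3 : deriv (deriv g) 0 = deriv (deriv f) 0 + 2 * c := by
    rw [h1.deriv_eq]
    have k := h2.add (((hasDerivAt_id (0 : ℝ)).const_mul 2).const_mul c)
    refine (HasDerivAt.deriv k).trans ?_
    ring
  have h4 : deriv g 0 = 0 := by
    rw [h1.self_of_nhds]
    simp only [h0]
    ring
  have h5 : ContinuousAt g 0 := by
    have := hf.continuousAt
    exact this.add (by fun_prop)
  have h6 : IsLocalMax g 0 := isLocalMax_of_deriv_deriv_neg (by rw [h3]; linarith) h4 h5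
  filter_upwards [h6] with r hr
  simp only [hg] at hr
  linarith

/-- the second derivative is negative iff there is a quadratic bound -/
theorem deriv2_neg_iff {f : ℝ → ℝ} (hf : ContDiffAt ℝ ∞ f 0) (h0 : deriv f 0 = 0) :
    deriv (deriv f) 0 < 0 ↔ ∃ c : ℝ, 0 < c ∧ ∀ᶠ r in 𝓝 (0 : ℝ), f r ≤ f 0 - c * r ^ 2 := by
  constructor
  · intro h
    exact ⟨-(deriv (deriv f) 0) / 4, by linarith, le_of_deriv2 hf h0 (by linarith)⟩
  · rintro ⟨c, hc, h⟩
    have := deriv2_le hf h h0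
    linarith

/-! ### the corner -/

/-- two parameter families which are constant along the first axis, with negative mixed
derivative -/
theorem corner_calc {L : ℝ × ℝ → ℝ} (hL : ContDiffAt ℝ ∞ L 0) {c₀ μ : ℝ} {m : ℝ → ℝ}
    (h0 : ∀ᶠ r in 𝓝 (0 : ℝ), L (r, 0) = c₀)
    (h1 : ∀ᶠ r in 𝓝 (0 : ℝ), HasDerivAt (fun k => L (r, k)) (m r) 0) (hm0 : m 0 = 0)
    (hm : HasDerivAt m (-μ) 0) (hμ : 0 < μ) :
    ∃ θ : ℝ, 0 < θ ∧ ∃ c : ℝ, 0 < c ∧ ∀ᶠ r in 𝓝 (0 : ℝ), L (r, θ * r) ≤ c₀ - c * r ^ 2 := by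
  have h00 : L (0, 0) = c₀ := h0.self_of_nhds
  have hLd : ∀ᶠ y in 𝓝 (0 : ℝ × ℝ), DifferentiableAt ℝ L y := by
    filter_upwards [(hL.of_le (m := 1) (by exact_mod_cast le_top)).eventually (by simp)] with y hy
    exact hy.differentiableAt (by simp)
  have hax : Tendsto (fun r : ℝ => ((r, 0) : ℝ × ℝ)) (𝓝 0) (𝓝 0) := by
    have : Continuous fun r : ℝ => ((r, 0) : ℝ × ℝ) := by fun_prop
    exact this.tendsto 0
  -- the first derivatives along the axis
  have e1 : ∀ᶠ r in 𝓝 (0 : ℝ), fderiv ℝ L (r, 0) (1, 0) = 0 := by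
    filter_upwards [hax.eventually hLd, h0.eventually_nhds] with r k1 k2
    have k3 : HasDerivAt (fun r : ℝ => ((r, 0) : ℝ × ℝ)) (1, 0) r :=
      (hasDerivAt_id r).prodMk (hasDerivAt_const r 0)
    have k4 := k1.hasFDerivAt.comp_hasDerivAt r k3
    have k5 : (fun r : ℝ => L (r, 0)) =ᶠ[𝓝 r] fun _ => c₀ := k2
    have k6 := k4.congr_of_eventuallyEq (f₁ := fun _ => c₀) k5.symm
    exact k6.unique (hasDerivAt_const r c₀)
  have e2 : ∀ᶠ r in 𝓝 (0 : ℝ), fderiv ℝ L (r, 0) (0, 1) = m r := by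
    filter_upwards [hax.eventually hLd, h1] with r k1 k2
    have k3 : HasDerivAt (fun k : ℝ => ((r, k) : ℝ × ℝ)) (0, 1) 0 :=
      (hasDerivAt_const (0 : ℝ) r).prodMk (hasDerivAt_id (0 : ℝ))
    have k4 := HasFDerivAt.comp_hasDerivAt (0 : ℝ) (f := fun k : ℝ => ((r, k) : ℝ × ℝ))
      k1.hasFDerivAt k3
    exact k4.unique k2
  have hc : fderiv ℝ L 0 = 0 := by
    have a1 : fderiv ℝ L 0 (1, 0) = 0 := e1.self_of_nhds
    have a2 : fderiv ℝ L 0 (0, 1) = 0 := by
      have := e2.self_of_nhds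
      rw [hm0] at this
      exact this
    ext
    · simpa using a1
    · simpa using a2
  -- the second derivatives
  set B := fderiv ℝ (fderiv ℝ L) 0 with hB
  have hd : HasDerivAt (fun r : ℝ => fderiv ℝ L (r, 0)) (B (1, 0)) 0 := by
    have k1 : DifferentiableAt ℝ (fderiv ℝ L) ((0, 0) : ℝ × ℝ) :=
      (hL.fderiv_right (m := ∞) (by simp)).differentiableAt (by simp)
    have k3 : HasDerivAt (fun r : ℝ => ((r, 0) : ℝ × ℝ)) (1, 0) 0 :=
      (hasDerivAt_id (0 : ℝ)).prodMk (hasDerivAt_const (0 : ℝ) 0)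
    exact HasFDerivAt.comp_hasDerivAt (0 : ℝ) (f := fun r : ℝ => ((r, 0) : ℝ × ℝ))
      k1.hasFDerivAt k3
  have b1 : B (1, 0) (1, 0) = 0 := by
    have k1 := hd.clm_apply (hasDerivAt_const (0 : ℝ) ((1, 0) : ℝ × ℝ))
    have k2 : (fun r : ℝ => fderiv ℝ L (r, 0) (1, 0)) =ᶠ[𝓝 0] fun _ => (0 : ℝ) := e1
    have k3 := (k1.congr_of_eventuallyEq (f₁ := fun _ => (0 : ℝ)) k2.symm).unique
      (hasDerivAt_const (0 : ℝ) (0 : ℝ))
    simpa using k3
  have b2 : B (1, 0) (0, 1) = -μ := by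
    have k1 := hd.clm_apply (hasDerivAt_const (0 : ℝ) ((0, 1) : ℝ × ℝ))
    have k2 : (fun r : ℝ => fderiv ℝ L (r, 0) (0, 1)) =ᶠ[𝓝 0] m := e2
    have k3 := (k1.congr_of_eventuallyEq (f₁ := m) k2.symm).unique hm
    simpa using k3
  have b3 : B (0, 1) (1, 0) = -μ := by
    have k1 : IsSymmSndFDerivAt ℝ L 0 := hL.isSymmSndFDerivAt (by simp; exact two_le_infty)
    rw [← b2]
    exact k1 (0, 1) (1, 0)
  set A := B (0, 1) (0, 1) with hA
  set θ : ℝ := μ / (|A| + 1) with hθ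
  have hA1 : 0 < |A| + 1 := by positivity
  have hθ0 : 0 < θ := by positivity
  have hℓ : ContDiffAt ℝ ∞ (fun r : ℝ => ((r, θ * r) : ℝ × ℝ)) 0 := by fun_prop
  have hℓ0 : (fun r : ℝ => ((r, θ * r) : ℝ × ℝ)) 0 = 0 := by simp
  have hℓd : deriv (fun r : ℝ => ((r, θ * r) : ℝ × ℝ)) 0 = (1, θ) := by
    have k := (hasDerivAt_id (0 : ℝ)).prodMk ((hasDerivAt_id (0 : ℝ)).const_mul θ)
    rw [mul_one] at k
    exact k.deriv
  obtain ⟨d1, d2⟩ := deriv_comp_crit hL hc hℓ hℓ0
  rw [hℓd, ← hB] at d2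
  have hdec : ((1, θ) : ℝ × ℝ) = (1, 0) + θ • ((0, 1) : ℝ × ℝ) := by
    ext <;> simp
  have d3 : B (1, θ) (1, θ) = -(2 * θ * μ) + θ ^ 2 * A := by
    rw [hdec, map_add, map_smul]
    simp only [add_apply, smul_apply, map_add, map_smul,
      smul_eq_mul, b1, b2, b3, ← hA]
    ring
  have d4 : B (1, θ) (1, θ) ≤ -(θ * μ) := by
    rw [d3]
    have k1 : θ * A ≤ μ := by
      rw [hθ, div_mul_eq_mul_div, div_le_iff₀ hA1]
      have := le_abs_self A
      nlinarith
    nlinarith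
  refine ⟨θ, hθ0, θ * μ / 4, by positivity, ?_⟩
  have hcf : ContDiffAt ℝ ∞ (fun r : ℝ => L (r, θ * r)) 0 :=
    ContDiffAt.comp (0 : ℝ) (f := fun r : ℝ => ((r, θ * r) : ℝ × ℝ)) (by
      have : ((0, θ * 0) : ℝ × ℝ) = 0 := by simp
      change ContDiffAt ℝ ∞ L (0, θ * 0)
      rwa [this]) hℓ
  have k := le_of_deriv2 hcf d1 (c := θ * μ / 4) (by
    rw [d2]
    have : 0 < θ * μ := by positivity
    linarith)
  have h00' : L (0, θ * 0) = c₀ := by rw [mul_zero, h00]
  rwa [h00'] at k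

/-! ### uniformity -/

/-- a critical point of a strictly concave function is a maximum, local version -/
theorem le_of_concave {f : ℝ → ℝ} {δ : ℝ} (hf : ∀ r, |r| < δ → ContDiffAt ℝ ∞ f r)
    (h0 : deriv f 0 = 0) (h2 : ∀ r, |r| < δ → deriv (deriv f) r < 0) {ε : ℝ} (hε' : |ε| < δ) :
    f ε ≤ f 0 := by
  have hd : ∀ r, |r| < δ → ContinuousAt (deriv f) r := fun r hr =>
    ((hf r hr).fderiv_right (m := ∞) (by simp)).continuousAt.clm_apply continuousAt_const
  have h3 : ∀ r, 0 < r → r < δ → deriv f r < 0 := by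
    intro r hr hrδ
    have h4 : StrictAntiOn (deriv f) (Icc 0 r) := by
      refine strictAntiOn_of_deriv_neg (convex_Icc 0 r) (fun s hs => ?_) fun s hs => ?_
      · exact (hd s (by rw [abs_of_nonneg hs.1]; linarith [hs.2])).continuousWithinAt
      · rw [interior_Icc] at hs
        exact h2 s (by rw [abs_of_pos hs.1]; linarith [hs.2])
    have := h4 ⟨le_rfl, hr.le⟩ ⟨hr.le, le_rfl⟩ hr
    rwa [h0] at this
  have h3' : ∀ r, r < 0 → -δ < r → 0 < deriv f r := by
    intro r hr hrδ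
    have h4 : StrictAntiOn (deriv f) (Icc r 0) := by
      refine strictAntiOn_of_deriv_neg (convex_Icc r 0) (fun s hs => ?_) fun s hs => ?_
      · exact (hd s (by rw [abs_of_nonpos hs.2]; linarith [hs.1])).continuousWithinAt
      · rw [interior_Icc] at hs
        exact h2 s (by rw [abs_of_neg hs.2]; linarith [hs.1])
    have := h4 ⟨le_rfl, hr.le⟩ ⟨hr.le, le_rfl⟩ hr
    rwa [h0] at this
  rcases lt_trichotomy ε 0 with h | h | h
  · have h5 : StrictMonoOn f (Icc ε 0) := by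
      rw [abs_of_neg h] at hε'
      refine strictMonoOn_of_deriv_pos (convex_Icc ε 0) (fun s hs => ?_) fun s hs => ?_
      · exact (hf s (by rw [abs_of_nonpos hs.2]; linarith [hs.1])).continuousAt.continuousWithinAt
      · rw [interior_Icc] at hs
        exact h3' s hs.2 (by linarith [hs.1])
    exact (h5 ⟨le_rfl, h.le⟩ ⟨h.le, le_rfl⟩ h).le
  · rw [h]
  · have h5 : StrictAntiOn f (Icc 0 ε) := by
      rw [abs_of_pos h] at hε'
      refine strictAntiOn_of_deriv_neg (convex_Icc 0 ε) (fun s hs => ?_) fun s hs => ?_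
      · exact (hf s (by rw [abs_of_nonneg hs.1]; linarith [hs.2])).continuousAt.continuousWithinAt
      · rw [interior_Icc] at hs
        exact h3 s hs.1 (by linarith [hs.2])
    exact (h5 ⟨le_rfl, h.le⟩ ⟨h.le, le_rfl⟩ h).le

/-- the time derivative of a smooth function -/
theorem sm_dt {P W : Type*} [NormedAddCommGroup P] [NormedSpace ℝ P] [NormedAddCommGroup W]
    [NormedSpace ℝ W] {F : P × ℝ → W} {p : P} {r : ℝ} (h : Sm F (p, r)) :
    Sm (fun q : P × ℝ => deriv (fun r => F (q.1, r)) q.2) (p, r) := by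
  have h1 : Sm (fun q : P × ℝ => fderiv ℝ F q ((0 : P), (1 : ℝ))) (p, r) :=
    Sm.comp (f := fun L : P × ℝ →L[ℝ] W => L ((0 : P), (1 : ℝ)))
      (Sm.of_contDiff (ContinuousLinearMap.apply ℝ W ((0 : P), (1 : ℝ))).contDiff _) h.fderiv
  refine h1.congr ?_
  filter_upwards [h.eventually] with q hq
  have h4 : HasFDerivAt (fun r : ℝ => ((q.1, r) : P × ℝ)) (ContinuousLinearMap.inr ℝ P ℝ) q.2 :=
    hasFDerivAt_prodMk_right q.1 q.2
  have h5 := HasFDerivAt.comp q.2 (g := F) hq.differentiableAt.hasFDerivAt h4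
  have h6 := h5.hasDerivAt.deriv
  exact Eq.symm (by simpa [Function.comp_def] using h6)

/-- the second time derivative of a smooth function -/
theorem sm_dtt {P W : Type*} [NormedAddCommGroup P] [NormedSpace ℝ P] [NormedAddCommGroup W]
    [NormedSpace ℝ W] {F : P × ℝ → W} {p : P} {r : ℝ} (h : Sm F (p, r)) :
    Sm (fun q : P × ℝ => deriv (deriv fun r => F (q.1, r)) q.2) (p, r) :=
  sm_dt (sm_dt h)

/-- **uniformity**: a family of functions which are critical and strictly concave at `0`,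
parametrised by a space covered by finitely many compact pieces and a compact set -/
theorem unif_le {X : Type*} {DX : Dif X} (hX : PC DX) {V : Type} [NormedAddCommGroup V]
    [NormedSpace ℝ V] [FiniteDimensional ℝ V] {K : Set V} (hK : IsCompact K) {f : X → V → ℝ → ℝ}
    (hf : ∀ (E : Type) [NormedAddCommGroup E] [NormedSpace ℝ E] [FiniteDimensional ℝ E]
      (c : E → X) (e₀ : E), DX.At c e₀ → ∀ z ∈ K,
        Sm (fun q : (E × V) × ℝ => f (c q.1.1) q.1.2 q.2) ((e₀, z), 0))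
    (h1 : ∀ x, ∀ z ∈ K, deriv (f x z) 0 = 0) (h2 : ∀ x, ∀ z ∈ K, deriv (deriv (f x z)) 0 < 0) :
    ∃ r₀ : ℝ, 0 < r₀ ∧ ∃ c : ℝ, 0 < c ∧ ∀ x, ∀ z ∈ K, ∀ r, |r| ≤ r₀ →
      f x z r ≤ f x z 0 - c * r ^ 2 := by
  have key : ∀ᶠ y in 𝓝 ((0, 0) : ℝ × ℝ), ∀ x : X, ∀ z ∈ K,
      ContDiffAt ℝ ∞ (f x z) y.1 ∧ deriv (deriv (f x z)) y.1 < -2 * y.2 := by
    refine hX.eventually (P := fun (y : ℝ × ℝ) x z =>
      ContDiffAt ℝ ∞ (f x z) y.1 ∧ deriv (deriv (f x z)) y.1 < -2 * y.2) hK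
      fun E _ _ _ c e₀ hc z hz => ?_
    have k1 := hf E c e₀ hc z hz
    have k2 := (sm_dtt k1).continuousAt
    have k3 : Continuous fun p : (ℝ × ℝ) × (E × V) => ((p.2, p.1.1) : (E × V) × ℝ) := by fun_prop
    have k4 : Tendsto (fun p : (ℝ × ℝ) × (E × V) => ((p.2, p.1.1) : (E × V) × ℝ))
        (𝓝 ((0, 0), (e₀, z))) (𝓝 ((e₀, z), 0)) := k3.tendsto _
    have k5 : ContinuousAt (fun p : (ℝ × ℝ) × (E × V) =>
        deriv (deriv fun r => f (c p.2.1) p.2.2 r) p.1.1) ((0, 0), (e₀, z)) :=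
      ContinuousAt.comp (f := fun p : (ℝ × ℝ) × (E × V) => ((p.2, p.1.1) : (E × V) × ℝ))
        (g := fun q : (E × V) × ℝ => deriv (deriv fun r => f (c q.1.1) q.1.2 r) q.2) k2
        k3.continuousAt
    have k6 : ∀ᶠ p : (ℝ × ℝ) × (E × V) in 𝓝 ((0, 0), (e₀, z)),
        deriv (deriv fun r => f (c p.2.1) p.2.2 r) p.1.1 < -2 * p.1.2 := by
      refine k5.eventually_lt (by fun_prop) ?_
      have := h2 (c e₀) z hz
      simpa using this
    filter_upwards [k6, k4.eventually k1] with p a1 a2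
    refine ⟨?_, a1⟩
    have a3 : ContDiffAt ℝ ∞ (fun r : ℝ => ((p.2, r) : (E × V) × ℝ)) p.1.1 := by fun_prop
    exact ContDiffAt.comp p.1.1 (g := fun q : (E × V) × ℝ => f (c q.1.1) q.1.2 q.2) a2 a3
  obtain ⟨δ, hδ, hδ'⟩ := Metric.eventually_nhds_iff.1 key
  refine ⟨δ / 2, by positivity, δ / 2, by positivity, fun x z hz r hr => ?_⟩
  have hh : ∀ r, |r| < δ → ContDiffAt ℝ ∞ (f x z) r ∧ deriv (deriv (f x z)) r < -2 * (δ / 2) := by
    intro r hr
    refine @hδ' (r, δ / 2) ?_ x z hz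
    rw [Prod.dist_eq, max_lt_iff]
    simp only [Real.dist_eq, sub_zero]
    exact ⟨hr, by rw [abs_of_pos (by positivity)]; linarith⟩
  have hder : ∀ r, |r| < δ → deriv (fun r => f x z r + δ / 2 * r ^ 2) =ᶠ[𝓝 r]
      fun r => deriv (f x z) r + δ / 2 * (2 * r) := by
    intro r hr
    have k1 : ∀ᶠ s in 𝓝 r, |s| < δ := continuous_abs.continuousAt.eventually_lt_const hr
    filter_upwards [k1] with s hs
    have k := ((hh s hs).1.differentiableAt (by simp)).hasDerivAt.add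
      (((hasDerivAt_id s).pow 2).const_mul (δ / 2))
    refine (HasDerivAt.deriv k).trans ?_
    simp
  have k := le_of_concave (f := fun r => f x z r + δ / 2 * r ^ 2) (δ := δ)
    (fun r hr => (hh r hr).1.add (by fun_prop)) (by
      have := (hder 0 (by simpa using hδ)).self_of_nhds
      rw [this]
      simp only [h1 x z hz]
      ring) (fun r hr => by
      rw [(hder r hr).deriv_eq]
      have k2 : HasDerivAt (deriv (f x z)) (deriv (deriv (f x z)) r) r := by
        have k1 : ContDiffAt ℝ ∞ (deriv (f x z)) r :=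
          ((hh r hr).1.fderiv_right (m := ∞) (by simp)).clm_apply contDiffAt_const
        exact (k1.differentiableAt (by simp)).hasDerivAt
      have k3 := k2.add (((hasDerivAt_id r).const_mul 2).const_mul (δ / 2))
      have k4 := (hh r hr).2
      have k5 : deriv (fun r => deriv (f x z) r + δ / 2 * (2 * r)) r =
          deriv (deriv (f x z)) r + δ / 2 * (2 * 1) := k3.deriv
      rw [k5]
      linarith) (ε := r) (lt_of_le_of_lt hr (by linarith))
  have k' : f x z r + δ / 2 * r ^ 2 ≤ f x z 0 + δ / 2 * 0 ^ 2 := k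
  linarith

end Vale.Agent.P231.S3B3
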