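import Vale.Agent.P231.S3B3.En8
import Vale.Agent.P231.H766.Apx1
import Vale.Agent.P231.WR.Th

/-!
# P231, stage 3, block S3-B3, part 3: cutting a corner gains at second order
-/

set_option maxSynthPendingDepth 3
set_option linter.unusedSectionVars false
set_option linter.unusedVariables false

open Bundle Manifold Set Filter Module
open scoped ContDiff Manifold Topology

namespace Vale.Agent.P231.S3B3

noncomputable section

open Vale.Agent.P234 Vale.Agent.P231 Vale.Agent.P231.H775 Vale.Agent.P231.Fm Vale.Agent.P231.W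
open Vale.Agent.P231.H766 Vale.Agent.P231.WD3 Vale.Agent.P231.WF Vale.Agent.P231.S3A
open Vale.Agent.P231.WR

variable {E : Type*} [NormedAddCommGroup E] [NormedSpace ℝ E] [FiniteDimensional ℝ E]
  {M : Type*} [MetricSpace M] [ChartedSpace E M] [IsManifold 𝓘(ℝ, E) ∞ M]
  [RiemannianBundle (fun x : M => TangentSpace 𝓘(ℝ, E) x)]
  [IsContMDiffRiemannianBundle 𝓘(ℝ, E) ∞ E (fun x : M => TangentSpace 𝓘(ℝ, E) x)]
  {e : ∀ x : M, TangentSpace 𝓘(ℝ, E) x → M}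
  [CompactSpace M] [ConnectedSpace M] [IsRiemannianManifold 𝓘(ℝ, E) M] {D : ℝ}

theorem dist_foot_gm' (hB : InjGE e D) (u : UT E M) {r : ℝ} (h0 : 0 ≤ r) (h1 : r ≤ D) :
    dist (foot u) (gm e (u, r)) = r := by
  have h2 := nm_smul (E := E) (foot u) (vec' u) r
  rw [nm_vec' u, mul_one, abs_of_nonneg h0] at h2
  exact (hB (foot u) (r • vec' u : E) (h2.le.trans h1)).trans h2

/-- first variation of the distance to a point of a geodesic starting at `p` -/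
theorem hasDerivAt_dist_exp (F : Facts e) (hB : InjGE e D) {u : UT E M} {ρ : ℝ} (hρ : 0 < ρ)
    (hρD : ρ < D) {p : M} (hu : foot u = p) (η : E) :
    HasDerivAt (fun k : ℝ => dist (e p (k • η : E)) (gm e (u, ρ))) (-ip p (vec' u) η) 0 := by
  subst hu
  have h1 : ContMDiffAt 𝓘(ℝ, ℝ) 𝓘(ℝ, E) ∞ (fun k : ℝ => e (foot u) (k • η : E)) 0 :=
    (S3U.smV_const (foot u) (ξ := fun k : ℝ => k • η) (s := 0)
      (by fun_prop : ContDiff ℝ ∞ fun k : ℝ => k • η).contDiffAt).exp F.isExp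
  refine H766.hasDerivAt_dist F hB h1 ?_ hρ hρD (nm_vec' u) rfl (F.isExp.velocity (foot u) η)
  rw [zero_smul]
  exact F.isExp.map_zero _

/-- **the corner**: `y r`, `z r` are unit vectors at `p`, opposite for `r = 0`; if the derivative
`η` of `y + z` is not zero, then cutting the corner gains `c r ^ 2` -/
theorem corner_dist (F : Facts e) (hD : 0 < D) (hB : InjGE e D) {p : M} {y z : ℝ → UT E M}
    (hy : (dUT E M).At y 0) (hz : (dUT E M).At z 0) (hyp : ∀ᶠ r in 𝓝 (0 : ℝ), foot (y r) = p)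
    (hzp : ∀ᶠ r in 𝓝 (0 : ℝ), foot (z r) = p) (h0 : (vec' (y 0) : E) = -vec' (z 0)) {η : E}
    (hd : HasDerivAt (fun r => ip p η (vec' (y r) + vec' (z r))) (ip p η η) 0)
    (hη : 0 < ip p η η) {ρ : ℝ} (hρ : 0 < ρ) (hρD : ρ < D) :
    ∃ c : ℝ, 0 < c ∧ ∀ᶠ r in 𝓝 (0 : ℝ),
      dist (gm e (y r, ρ)) (gm e (z r, ρ)) ≤ 2 * ρ - c * r ^ 2 := by
  -- the moved corner
  let cp : ℝ × ℝ → M := fun q => e p (q.2 • η : E)
  have hcp : ∀ s, ContMDiffAt 𝓘(ℝ, ℝ × ℝ) 𝓘(ℝ, E) ∞ cp s := fun s =>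
    (S3U.smV_const p (ξ := fun q : ℝ × ℝ => q.2 • η) (s := s)
      (by fun_prop : ContDiff ℝ ∞ fun q : ℝ × ℝ => q.2 • η).contDiffAt).exp F.isExp
  have hcp0 : ∀ r : ℝ, cp (r, 0) = p := fun r => by
    change e p ((0 : ℝ) • η : E) = p
    rw [zero_smul]
    exact F.isExp.map_zero p
  have hgm : ∀ {y : ℝ → UT E M}, (dUT E M).At y 0 →
      ContMDiffAt 𝓘(ℝ, ℝ × ℝ) 𝓘(ℝ, E) ∞ (fun q : ℝ × ℝ => gm e (y q.1, ρ)) (0, 0) := by
    intro y hy
    have h1 : (dUT E M).At (fun q : ℝ × ℝ => y q.1) (0, 0) :=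
      (dUT E M).comp (u := y) (g := Prod.fst) (x := ((0, 0) : ℝ × ℝ)) hy
        (Sm.of_contDiff contDiff_fst _)
    have h2 : (dM E M).At (fun q : ℝ × ℝ => gm e (y q.1, ρ)) (0, 0) :=
      map_gm F (u := fun q : ℝ × ℝ => (y q.1, ρ)) ⟨h1, Sm.of_contDiff contDiff_const _⟩
    exact Filter.Eventually.self_of_nhds h2
  let L1 : (ℝ → UT E M) → ℝ × ℝ → ℝ := fun y q => dist (cp q) (gm e (y q.1, ρ))
  have hL1 : ∀ {y : ℝ → UT E M}, (dUT E M).At y 0 → (∀ᶠ r in 𝓝 (0 : ℝ), foot (y r) = p) →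
      ContDiffAt ℝ ∞ (L1 y) 0 := by
    intro y hy hyp
    have h1 : dist (cp (0, 0)) (gm e (y 0, ρ)) = ρ := by
      rw [hcp0, ← hyp.self_of_nhds]
      exact dist_foot_gm' hB _ hρ.le hρD.le
    exact contDiffAt_dist F hB (s := ((0, 0) : ℝ × ℝ)) (hcp _) (hgm hy)
      (by rw [h1]; exact hρD) (by rw [h1]; exact hρ)
  have hax : ∀ {y : ℝ → UT E M}, (∀ᶠ r in 𝓝 (0 : ℝ), foot (y r) = p) →
      ∀ᶠ r in 𝓝 (0 : ℝ), L1 y (r, 0) = ρ := by
    intro y hyp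
    filter_upwards [hyp] with r hr
    change dist (cp (r, 0)) (gm e (y r, ρ)) = ρ
    rw [hcp0, ← hr]
    exact dist_foot_gm' hB _ hρ.le hρD.le
  have hder : ∀ {y : ℝ → UT E M}, (∀ᶠ r in 𝓝 (0 : ℝ), foot (y r) = p) →
      ∀ᶠ r in 𝓝 (0 : ℝ), HasDerivAt (fun k => L1 y (r, k)) (-ip p (vec' (y r)) η) 0 := by
    intro y hyp
    filter_upwards [hyp] with r hr
    exact hasDerivAt_dist_exp F hB hρ hρD hr η
  obtain ⟨θ, hθ, c, hc, h⟩ := corner_calc (L := fun q => L1 y q + L1 z q) (c₀ := 2 * ρ)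
    (μ := ip p η η) (m := fun r => -ip p η (vec' (y r) + vec' (z r)))
    ((hL1 hy hyp).add (hL1 hz hzp)) (by
      filter_upwards [hax hyp, hax hzp] with r h1 h2
      rw [h1, h2]
      ring) (by
      filter_upwards [hder hyp, hder hzp] with r h1 h2
      refine (h1.add h2).congr_deriv ?_
      rw [ip_add_right', ip_comm' p η, ip_comm' p η]
      ring) (by
      rw [h0, ← sub_eq_neg_add, sub_self]
      have : ip p η (0 : E) = 0 := inner_zero_right (𝕜 := ℝ) (E := TangentSpace 𝓘(ℝ, E) p) _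
      rw [this, neg_zero]) hd.neg hη
  refine ⟨c, hc, ?_⟩
  filter_upwards [h] with r hr
  have h1 := dist_triangle_left (gm e (y r, ρ)) (gm e (z r, ρ)) (cp (r, θ * r))
  exact h1.trans hr

/-- the square of the new edge -/
theorem corner_sq {d : ℝ → ℝ} (hd0 : ∀ r, 0 ≤ d r) {ρ c : ℝ} (hρ : 0 < ρ) (hc : 0 < c)
    (h : ∀ᶠ r in 𝓝 (0 : ℝ), d r ≤ 2 * ρ - c * r ^ 2) :
    ∀ᶠ r in 𝓝 (0 : ℝ), d r ^ 2 ≤ 4 * ρ ^ 2 - 2 * ρ * c * r ^ 2 := by
  have h1 : ∀ᶠ r in 𝓝 (0 : ℝ), c * r ^ 2 < 2 * ρ := by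
    have : Continuous fun r : ℝ => c * r ^ 2 := by fun_prop
    refine this.continuousAt.eventually_lt_const ?_
    simp only [ne_eq, OfNat.ofNat_ne_zero, not_false_eq_true, zero_pow, mul_zero]
    positivity
  filter_upwards [h, h1] with r k1 k2
  have k3 : 0 ≤ c * r ^ 2 := by positivity
  have k4 : d r ^ 2 ≤ (2 * ρ - c * r ^ 2) ^ 2 := pow_le_pow_left₀ (hd0 r) k1 2
  nlinarith

end

end Vale.Agent.P231.S3B3
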