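import Vale.Agent.P231.S3B3.Calc
import Vale.Agent.P231.S3U.Spd
import Vale.Agent.P231.S3A.Dich

/-!
# P231, stage 3, block S3-B3, part 2: the energy of 8-gons near the straight 8-gons
-/

set_option maxSynthPendingDepth 3
set_option linter.unusedSectionVars false
set_option linter.unusedVariables false

open Bundle Manifold Set Filter Module
open scoped ContDiff Manifold Topology

namespace Vale.Agent.P231.S3B3

noncomputable section

open Vale.Agent.P234 Vale.Agent.P231 Vale.Agent.P231.H775 Vale.Agent.P231.Fm Vale.Agent.P231.W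
open Vale.Agent.P231.H766 Vale.Agent.P231.WD3 Vale.Agent.P231.WF Vale.Agent.P231.S3A

variable {E : Type*} [NormedAddCommGroup E] [NormedSpace ℝ E] [FiniteDimensional ℝ E]
  {M : Type*} [MetricSpace M] [ChartedSpace E M] [IsManifold 𝓘(ℝ, E) ∞ M]
  [RiemannianBundle (fun x : M => TangentSpace 𝓘(ℝ, E) x)]
  [IsContMDiffRiemannianBundle 𝓘(ℝ, E) ∞ E (fun x : M => TangentSpace 𝓘(ℝ, E) x)]
  {e : ∀ x : M, TangentSpace 𝓘(ℝ, E) x → M}
  [CompactSpace M] [ConnectedSpace M] [IsRiemannianManifold 𝓘(ℝ, E) M] {D : ℝ}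

/-! ### smoothness -/

/-- the square of the distance is smooth below the injectivity radius -/
theorem contDiffAt_dsq (F : Facts e) (hB : InjGE e D) {V : Type*}
    [NormedAddCommGroup V] [NormedSpace ℝ V] {a b : V → M} {s : V}
    (ha : ContMDiffAt 𝓘(ℝ, V) 𝓘(ℝ, E) ∞ a s) (hb : ContMDiffAt 𝓘(ℝ, V) 𝓘(ℝ, E) ∞ b s)
    (h : dist (a s) (b s) < D) : ContDiffAt ℝ ∞ (fun t => dist (a t) (b t) ^ 2) s := by
  have h1 : ContMDiffAt (𝓘(ℝ, E).prod 𝓘(ℝ, E)) 𝓘(ℝ, ℝ) ∞ (fun p : M × M => cost p.1 p.2)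
      (a s, b s) := (WD3.smoothAt_of_dist_lt F hB h).contMDiffAt
  have h2 : ContDiffAt ℝ ∞ (fun t => cost (a t) (b t)) s :=
    (ContMDiffAt.comp s (f := fun t => (a t, b t)) h1 (ha.prodMk hb)).contDiffAt
  refine ((contDiffAt_const (c := (2 : ℝ))).mul h2).congr_of_eventuallyEq
    (Eventually.of_forall fun t => ?_)
  change dist (a t) (b t) ^ 2 = 2 * cost (a t) (b t)
  unfold cost
  ring

/-- the energy of a smooth family of polygons is smooth -/
theorem contDiffAt_En (F : Facts e) (hB : InjGE e D) {V : Type*}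
    [NormedAddCommGroup V] [NormedSpace ℝ V] {m : ℕ} [NeZero m] {ξ : V → ZMod m → M} {s : V}
    (hξ : ∀ i, ContMDiffAt 𝓘(ℝ, V) 𝓘(ℝ, E) ∞ (fun t => ξ t i) s) (h : ∀ i, sd (ξ s) i < D) :
    ContDiffAt ℝ ∞ (fun t => En (ξ t)) s := by
  unfold En sd
  exact ContDiffAt.sum fun i _ => contDiffAt_dsq F hB (hξ i) (hξ (i + 1)) (h i)

/-! ### the straight 8-gon -/

/-- the straight 8-gon of `v` -/
def x8 (e : ∀ x : M, TangentSpace 𝓘(ℝ, E) x → M) (D : ℝ) (v : UT E M) (i : ZMod 8) : M :=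
  gm e (v, (2 * i.val + 1) * (D / 4))

theorem gm_per_int (F : Facts e) (hD : 0 < D) (hB : InjGE e D) (hdiam : ∀ p q : M, dist p q ≤ D)
    (v : UT E M) (t : ℝ) (n : ℤ) : gm e (v, t + n * (2 * D)) = gm e (v, t) := by
  have h1 : ∀ (n : ℕ) (t : ℝ), gm e (v, t + n * (2 * D)) = gm e (v, t) := by
    intro n
    induction n with
    | zero => intro t; simp
    | succ n ih =>
      intro t
      have h2 : t + ((n + 1 : ℕ) : ℝ) * (2 * D) = (t + n * (2 * D)) + 2 * D := by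
        push_cast
        ring
      rw [h2, gm_per F hD hB hdiam, ih]
  rcases Int.eq_nat_or_neg n with ⟨k, rfl | rfl⟩
  · exact_mod_cast h1 k t
  · have h2 := h1 k (t + ((-(k : ℤ) : ℤ) : ℝ) * (2 * D))
    rw [← h2]
    congr 2
    push_cast
    ring

theorem x8_int (F : Facts e) (hD : 0 < D) (hB : InjGE e D) (hdiam : ∀ p q : M, dist p q ≤ D)
    (v : UT E M) (k : ℤ) : x8 e D v (k : ZMod 8) = gm e (v, (2 * k + 1) * (D / 4)) := by
  unfold x8
  have h1 : (((k : ZMod 8).val : ℤ)) = k % 8 := ZMod.val_intCast k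
  have h2 : (((k : ZMod 8).val : ℕ) : ℝ) = ((k % 8 : ℤ) : ℝ) := by
    rw [← h1]
    push_cast
    rfl
  rw [h2]
  have h3 : (k : ℝ) = ((k % 8 : ℤ) : ℝ) + 8 * ((k / 8 : ℤ) : ℝ) := by
    exact_mod_cast (Int.emod_add_mul_ediv k 8).symm
  have h4 : (2 * (k : ℝ) + 1) * (D / 4) = (2 * ((k % 8 : ℤ) : ℝ) + 1) * (D / 4) +
      ((2 * (k / 8) : ℤ) : ℝ) * (2 * D) := by
    rw [h3]
    push_cast
    ring
  rw [h4, gm_per_int F hD hB hdiam]

theorem dist_gm_add (F : Facts e) (hD : 0 < D) (hB : InjGE e D)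
    (hdiam : ∀ p q : M, dist p q ≤ D) (v : UT E M) (s : ℝ) {t : ℝ} (h0 : 0 ≤ t) (h1 : t ≤ D) :
    dist (gm e (v, s)) (gm e (v, s + t)) = t := by
  have h2 := dist_gm F hD hB hdiam (phi F (v, s)) h0 (by linarith)
  rw [min_eq_left (by linarith), gm_phi F] at h2
  exact h2

theorem dist_x8 (F : Facts e) (hD : 0 < D) (hB : InjGE e D) (hdiam : ∀ p q : M, dist p q ≤ D)
    (v : UT E M) (i : ZMod 8) : dist (x8 e D v i) (x8 e D v (i + 1)) = D / 2 := by
  have h1 : i = ((i.val : ℤ) : ZMod 8) := by simp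
  have h2 : i + 1 = (((i.val : ℤ) + 1 : ℤ) : ZMod 8) := by simp
  rw [h2, x8_int F hD hB hdiam]
  nth_rewrite 1 [h1]
  rw [x8_int F hD hB hdiam]
  have h3 : (2 * (((i.val : ℤ) + 1 : ℤ) : ℝ) + 1) * (D / 4) =
      (2 * ((i.val : ℤ) : ℝ) + 1) * (D / 4) + D / 2 := by
    push_cast
    ring
  rw [h3]
  exact dist_gm_add F hD hB hdiam v _ (by linarith) (by linarith)

theorem sd_x8 (F : Facts e) (hD : 0 < D) (hB : InjGE e D) (hdiam : ∀ p q : M, dist p q ≤ D)
    (v : UT E M) (i : ZMod 8) : sd (x8 e D v) i = D / 2 := dist_x8 F hD hB hdiam v i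

theorem dist_x8_two (F : Facts e) (hD : 0 < D) (hB : InjGE e D)
    (hdiam : ∀ p q : M, dist p q ≤ D) (v : UT E M) (i : ZMod 8) :
    dist (x8 e D v (i - 1)) (x8 e D v (i + 1)) = D := by
  have h1 : i - 1 = (((i.val : ℤ) - 1 : ℤ) : ZMod 8) := by simp
  have h2 : i + 1 = (((i.val : ℤ) + 1 : ℤ) : ZMod 8) := by simp
  rw [h1, h2, x8_int F hD hB hdiam, x8_int F hD hB hdiam]
  have h3 : (2 * (((i.val : ℤ) + 1 : ℤ) : ℝ) + 1) * (D / 4) =
      (2 * (((i.val : ℤ) - 1 : ℤ) : ℝ) + 1) * (D / 4) + D := by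
    push_cast
    ring
  rw [h3]
  exact dist_gm_add F hD hB hdiam v _ hD.le le_rfl

theorem En_x8 (F : Facts e) (hD : 0 < D) (hB : InjGE e D) (hdiam : ∀ p q : M, dist p q ≤ D)
    (v : UT E M) : En (x8 e D v) = 2 * D ^ 2 := by
  unfold En
  rw [Finset.sum_congr rfl fun i _ => congrArg (· ^ 2) (sd_x8 F hD hB hdiam v i),
    Finset.sum_const, Finset.card_univ, ZMod.card, nsmul_eq_mul]
  push_cast
  ring

/-- moving one vertex of an equally spaced straight polygon does not decrease the energy -/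
theorem En_update {X : Type*} [MetricSpace X] {x : ZMod 8 → X} {s : ℝ}
    (h1 : ∀ i, dist (x i) (x (i + 1)) = s) (h2 : ∀ i, dist (x (i - 1)) (x (i + 1)) = 2 * s)
    (i : ZMod 8) (q : X) : En x ≤ En (Function.update x i q) := by
  set y := Function.update x i q with hy
  have hs : 0 ≤ s := by rw [← h1 0]; exact dist_nonneg
  have hne1 : ∀ i : ZMod 8, i + 1 ≠ i := by decide
  have hne2 : ∀ i : ZMod 8, i - 1 ≠ i := by decide
  have hyi : y i = q := Function.update_self i q x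
  have hyj : ∀ j, j ≠ i → y j = x j := fun j hj => Function.update_of_ne hj q x
  have k1 : ∀ j, j ≠ i → j ≠ i - 1 → sd y j = s := by
    intro j hj1 hj2
    unfold sd
    rw [hyj j hj1, hyj (j + 1) (fun h => hj2 (by rw [← h]; ring)), h1]
  have k2 : sd y i = dist q (x (i + 1)) := by
    unfold sd
    rw [hyi, hyj _ (hne1 i)]
  have k3 : sd y (i - 1) = dist (x (i - 1)) q := by
    unfold sd
    rw [sub_add_cancel, hyi, hyj _ (hne2 i)]
  have k4 : ∑ j, (sd y j ^ 2 - s ^ 2) = (sd y i ^ 2 - s ^ 2) + (sd y (i - 1) ^ 2 - s ^ 2) := by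
    refine Finset.sum_eq_add i (i - 1) (hne2 i).symm (fun j _ hj => ?_)
      (fun h => absurd (Finset.mem_univ _) h) (fun h => absurd (Finset.mem_univ _) h)
    rw [k1 j hj.1 hj.2, sub_self]
  have k5 : ∑ j, (sd y j ^ 2 - s ^ 2) = En y - En x := by
    rw [Finset.sum_sub_distrib]
    unfold En
    congr 1
    refine Finset.sum_congr rfl fun j _ => ?_
    have : sd x j = s := h1 j
    rw [this]
  have k6 : 2 * s ≤ sd y (i - 1) + sd y i := by
    rw [k2, k3, ← h2 i]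
    exact dist_triangle _ _ _
  have k7 : 0 ≤ (sd y i ^ 2 - s ^ 2) + (sd y (i - 1) ^ 2 - s ^ 2) := by
    nlinarith [sq_nonneg (sd y (i - 1) - sd y i), sq_nonneg (sd y (i - 1) + sd y i - 2 * s)]
  linarith

/-! ### the energy near the straight 8-gon -/

/-- the energy in exponential coordinates -/
def Gx (e : ∀ x : M, TangentSpace 𝓘(ℝ, E) x → M) (D : ℝ) (v : UT E M) (Y : ZMod 8 → E) : ℝ :=
  En fun i => e (x8 e D v i) (Y i)

theorem contDiffAt_Gx (F : Facts e) (hD : 0 < D) (hB : InjGE e D)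
    (hdiam : ∀ p q : M, dist p q ≤ D) (v : UT E M) : ContDiffAt ℝ ∞ (Gx e D v) 0 := by
  refine contDiffAt_En F hB (fun i => ?_) fun i => ?_
  · exact (S3U.smV_const (x8 e D v i) (ξ := fun Y : ZMod 8 → E => Y i)
      (s := (0 : ZMod 8 → E)) (contDiff_apply ℝ E i).contDiffAt).exp F.isExp
  · have h1 : (fun i => e (x8 e D v i) ((0 : ZMod 8 → E) i)) = x8 e D v :=
      funext fun i => F.isExp.map_zero _
    rw [h1, sd_x8 F hD hB hdiam]
    linarith

/-- the straight 8-gon is critical -/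
theorem fderiv_Gx (F : Facts e) (hD : 0 < D) (hB : InjGE e D)
    (hdiam : ∀ p q : M, dist p q ≤ D) (v : UT E M) : fderiv ℝ (Gx e D v) 0 = 0 := by
  classical
  have hG := contDiffAt_Gx F hD hB hdiam v
  have hGd : DifferentiableAt ℝ (Gx e D v) 0 := hG.differentiableAt (by simp)
  have h1 : ∀ (i : ZMod 8) (y : E), fderiv ℝ (Gx e D v) 0 (Pi.single i y) = 0 := by
    intro i y
    have k1 : HasDerivAt (fun r : ℝ => r • (Pi.single i y : ZMod 8 → E)) (Pi.single i y) 0 := by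
      have := (hasDerivAt_id (0 : ℝ)).smul_const (Pi.single i y : ZMod 8 → E)
      rwa [one_smul] at this
    have k2 : HasDerivAt (fun r : ℝ => Gx e D v (r • (Pi.single i y : ZMod 8 → E)))
        (fderiv ℝ (Gx e D v) 0 (Pi.single i y)) 0 := by
      have h0 : (0 : ℝ) • (Pi.single i y : ZMod 8 → E) = 0 := zero_smul _ _
      have hG0 : HasFDerivAt (Gx e D v) (fderiv ℝ (Gx e D v) 0)
          ((0 : ℝ) • (Pi.single i y : ZMod 8 → E)) := by
        rw [h0]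
        exact hGd.hasFDerivAt
      exact hG0.comp_hasDerivAt (0 : ℝ) k1
    have k3 : ∀ r : ℝ, (fun j => e (x8 e D v j) ((r • (Pi.single i y : ZMod 8 → E)) j)) =
        Function.update (x8 e D v) i (e (x8 e D v i) (r • y : E)) := by
      intro r
      funext j
      rcases eq_or_ne j i with h | h
      · subst h
        rw [Function.update_self, Pi.smul_apply, Pi.single_eq_same]
      · rw [Function.update_of_ne h, Pi.smul_apply, Pi.single_eq_of_ne h, smul_zero]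
        exact F.isExp.map_zero _
    have k4 : IsLocalMin (fun r : ℝ => Gx e D v (r • (Pi.single i y : ZMod 8 → E))) 0 := by
      refine Eventually.of_forall fun r => ?_
      have a0 : Gx e D v ((0 : ℝ) • (Pi.single i y : ZMod 8 → E)) = En (x8 e D v) := by
        unfold Gx
        rw [zero_smul]
        congr 1
        exact funext fun i => F.isExp.map_zero _
      change Gx e D v ((0 : ℝ) • (Pi.single i y : ZMod 8 → E)) ≤
        Gx e D v (r • (Pi.single i y : ZMod 8 → E))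
      rw [a0]
      unfold Gx
      rw [k3 r]
      exact En_update (s := D / 2) (fun i => dist_x8 F hD hB hdiam v i)
        (fun i => (dist_x8_two F hD hB hdiam v i).trans (by ring)) i _
    rw [← k2.deriv]
    exact k4.deriv_eq_zero
  refine ContinuousLinearMap.ext fun Y => ?_
  have h2 : Y = ∑ i, Pi.single i (Y i) := (Finset.univ_sum_single Y).symm
  rw [h2, map_sum]
  exact Finset.sum_eq_zero fun i _ => h1 i (Y i)

variable {v : UT E M}

/-- the energy along a curve of polygons, in exponential coordinates -/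
theorem En_eq_Gx (F : Facts e) (hD : 0 < D) (hB : InjGE e D) {ξ : ℝ → ZMod 8 → M}
    (hξ : ∀ i, ContMDiffAt 𝓘(ℝ, ℝ) 𝓘(ℝ, E) ∞ (fun t => ξ t i) 0) (h0 : ξ 0 = x8 e D v) :
    (fun r => En (ξ r)) =ᶠ[𝓝 0] fun r => Gx e D v fun i => (lm e (x8 e D v i) (ξ r i) : E) := by
  have h1 : ∀ᶠ r in 𝓝 (0 : ℝ), ∀ i, dist (x8 e D v i) (ξ r i) < D := by
    refine eventually_all.2 fun i => ?_
    refine (continuousAt_const.dist (hξ i).continuousAt).eventually_lt_const ?_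
    change dist (x8 e D v i) (ξ 0 i) < D
    rw [h0, dist_self]
    exact hD
  filter_upwards [h1] with r hr
  unfold Gx
  congr 1
  exact funext fun i => (exp_lm F hB (hr i)).symm

theorem lm_curve (F : Facts e) (hD : 0 < D) (hB : InjGE e D) {ξ : ℝ → ZMod 8 → M}
    (hξ : ∀ i, ContMDiffAt 𝓘(ℝ, ℝ) 𝓘(ℝ, E) ∞ (fun t => ξ t i) 0) (h0 : ξ 0 = x8 e D v) :
    ContDiffAt ℝ ∞ (fun r : ℝ => fun i => (lm e (x8 e D v i) (ξ r i) : E)) 0 ∧
      (fun i => (lm e (x8 e D v i) (ξ 0 i) : E)) = 0 ∧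
      deriv (fun r : ℝ => fun i => (lm e (x8 e D v i) (ξ r i) : E)) 0 =
        fun i => (WC.vl (fun r => ξ r i) 0 : E) := by
  refine ⟨contDiffAt_pi.2 fun i => ?_, ?_, ?_⟩
  · refine S3U.contDiffAt_of_smV (x8 e D v i) ?_
    refine smV_lm F hB (a := fun _ : ℝ => x8 e D v i) (b := fun r => ξ r i) contMDiffAt_const
      (hξ i) ?_
    rw [h0, dist_self]
    exact hD
  · funext i
    rw [h0]
    exact lm_self F hD hB _
  · refine HasDerivAt.deriv (hasDerivAt_pi.2 fun i => ?_)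
    have h1 := S3U.hasDerivAt_lm F hD hB (hξ i)
    have h2 : ξ 0 i = x8 e D v i := congrFun h0 i
    rw [h2] at h1
    simpa only [zero_add] using h1

/-- the energy is critical at the straight 8-gon -/
theorem deriv_En (F : Facts e) (hD : 0 < D) (hB : InjGE e D)
    (hdiam : ∀ p q : M, dist p q ≤ D) {ξ : ℝ → ZMod 8 → M}
    (hξ : ∀ i, ContMDiffAt 𝓘(ℝ, ℝ) 𝓘(ℝ, E) ∞ (fun t => ξ t i) 0) (h0 : ξ 0 = x8 e D v) :
    deriv (fun r => En (ξ r)) 0 = 0 := by
  obtain ⟨k1, k2, k3⟩ := lm_curve F hD hB hξ h0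
  rw [(En_eq_Gx F hD hB hξ h0).deriv_eq]
  exact (deriv_comp_crit (contDiffAt_Gx F hD hB hdiam v) (fderiv_Gx F hD hB hdiam v) k1 k2).1

/-- **the second derivative of the energy depends on the velocities only** -/
theorem deriv2_En_congr (F : Facts e) (hD : 0 < D) (hB : InjGE e D)
    (hdiam : ∀ p q : M, dist p q ≤ D) {ξ η : ℝ → ZMod 8 → M}
    (hξ : ∀ i, ContMDiffAt 𝓘(ℝ, ℝ) 𝓘(ℝ, E) ∞ (fun t => ξ t i) 0) (h0 : ξ 0 = x8 e D v)
    (hη : ∀ i, ContMDiffAt 𝓘(ℝ, ℝ) 𝓘(ℝ, E) ∞ (fun t => η t i) 0) (h0' : η 0 = x8 e D v)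
    (hd : ∀ i, (WC.vl (fun r => ξ r i) 0 : E) = WC.vl (fun r => η r i) 0) :
    deriv (deriv fun r => En (ξ r)) 0 = deriv (deriv fun r => En (η r)) 0 := by
  obtain ⟨k1, k2, k3⟩ := lm_curve F hD hB hξ h0
  obtain ⟨l1, l2, l3⟩ := lm_curve F hD hB hη h0'
  rw [(En_eq_Gx F hD hB hξ h0).deriv.deriv_eq, (En_eq_Gx F hD hB hη h0').deriv.deriv_eq]
  refine deriv2_comp_congr (contDiffAt_Gx F hD hB hdiam v) (fderiv_Gx F hD hB hdiam v) k1 k2 l1 l2 ?_
  rw [k3, l3]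
  exact funext hd

theorem contDiffAt_En_curve (F : Facts e) (hD : 0 < D) (hB : InjGE e D)
    (hdiam : ∀ p q : M, dist p q ≤ D) {ξ : ℝ → ZMod 8 → M}
    (hξ : ∀ i, ContMDiffAt 𝓘(ℝ, ℝ) 𝓘(ℝ, E) ∞ (fun t => ξ t i) 0) (h0 : ξ 0 = x8 e D v) :
    ContDiffAt ℝ ∞ (fun r => En (ξ r)) 0 :=
  contDiffAt_En F hB hξ fun i => by
    rw [h0, sd_x8 F hD hB hdiam]
    linarith

/-- the energy is strictly concave along a curve of polygons -/
def Neg (D : ℝ) (ξ : ℝ → ZMod 8 → M) : Prop :=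
  ∃ c : ℝ, 0 < c ∧ ∀ᶠ r in 𝓝 (0 : ℝ), En (ξ r) ≤ 2 * D ^ 2 - c * r ^ 2

theorem neg_iff (F : Facts e) (hD : 0 < D) (hB : InjGE e D)
    (hdiam : ∀ p q : M, dist p q ≤ D) {ξ : ℝ → ZMod 8 → M}
    (hξ : ∀ i, ContMDiffAt 𝓘(ℝ, ℝ) 𝓘(ℝ, E) ∞ (fun t => ξ t i) 0) (h0 : ξ 0 = x8 e D v) :
    Neg D ξ ↔ deriv (deriv fun r => En (ξ r)) 0 < 0 := by
  have h1 := deriv2_neg_iff (contDiffAt_En_curve F hD hB hdiam hξ h0)
    (deriv_En F hD hB hdiam hξ h0)
  have h2 : En (ξ 0) = 2 * D ^ 2 := by rw [h0, En_x8 F hD hB hdiam]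
  rw [h2] at h1
  exact h1.symm

/-- **strict concavity depends on the velocities only** -/
theorem neg_congr (F : Facts e) (hD : 0 < D) (hB : InjGE e D)
    (hdiam : ∀ p q : M, dist p q ≤ D) {ξ η : ℝ → ZMod 8 → M}
    (hξ : ∀ i, ContMDiffAt 𝓘(ℝ, ℝ) 𝓘(ℝ, E) ∞ (fun t => ξ t i) 0) (h0 : ξ 0 = x8 e D v)
    (hη : ∀ i, ContMDiffAt 𝓘(ℝ, ℝ) 𝓘(ℝ, E) ∞ (fun t => η t i) 0) (h0' : η 0 = x8 e D v)
    (hd : ∀ i, (WC.vl (fun r => ξ r i) 0 : E) = WC.vl (fun r => η r i) 0) :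
    Neg D ξ ↔ Neg D η := by
  rw [neg_iff F hD hB hdiam hξ h0, neg_iff F hD hB hdiam hη h0',
    deriv2_En_congr F hD hB hdiam hξ h0 hη h0' hd]

end

end Vale.Agent.P231.S3B3
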