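import Vale.Agent.P231.S3B3.Src

/-!
# P231, stage 3, block S3-B3, part 8: the families of 8-gons of corner fields
-/

set_option maxSynthPendingDepth 3
set_option linter.unusedSectionVars false
set_option linter.unusedVariables false

open Bundle Manifold Set Filter Module
open scoped ContDiff Manifold Topology

namespace Vale.Agent.P231.S3B3

noncomputable section

open Vale.Agent.P234 Vale.Agent.P231 Vale.Agent.P231.H775 Vale.Agent.P231.Fm Vale.Agent.P231.W
open Vale.Agent.P231.H766 Vale.Agent.P231.WD3 Vale.Agent.P231.WF Vale.Agent.P231.S3A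
open Vale.Agent.P231.WR Vale.Agent.P231.S2N

variable {E : Type*} [NormedAddCommGroup E] [NormedSpace ℝ E] [FiniteDimensional ℝ E]
  {M : Type*} [MetricSpace M] [ChartedSpace E M] [IsManifold 𝓘(ℝ, E) ∞ M]
  [RiemannianBundle (fun x : M => TangentSpace 𝓘(ℝ, E) x)]
  [IsContMDiffRiemannianBundle 𝓘(ℝ, E) ∞ E (fun x : M => TangentSpace 𝓘(ℝ, E) x)]
  {e : ∀ x : M, TangentSpace 𝓘(ℝ, E) x → M}
  [CompactSpace M] [ConnectedSpace M] [IsRiemannianManifold 𝓘(ℝ, E) M] {D : ℝ}

/-! ### plots -/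

section Plots

variable {E' : Type} [NormedAddCommGroup E'] [NormedSpace ℝ E'] [FiniteDimensional ℝ E']

theorem at_exp (F : Facts e) {f : E' → M} {a : E' → E} {x : E'}
    (h : (dTM E M).At (fun s => tb (f s) (a s)) x) : (dM E M).At (fun s => e (f s) (a s)) x := by
  have h1 : ∀ᶠ s in 𝓝 x, SmV f (fun s => (a s : E)) s := at_tb.1 h
  have h2 : ∀ᶠ s in 𝓝 x, ContMDiffAt 𝓘(ℝ, E') 𝓘(ℝ, E) ∞ (fun s => e (f s) (a s)) s := by
    filter_upwards [h1] with s hs using SmV.exp F.isExp hs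
  exact h2

theorem at_Jc (F : Facts e) {u : E' → UT E M} {c : E' → E} {x : E'} (hu : (dUT E M).At u x)
    (hc : (dTM E M).At (fun s => tb (foot (u s)) (c s)) x) (ρ : ℝ) :
    (dTM E M).At (fun s => tb (gm e (u s, ρ)) (Jc e (u s) (c s) ρ)) x := by
  have h1 : ∀ᶠ s in 𝓝 x, SmV (fun s => foot (u s)) (fun s => tv (u s)) s := at_iff.1 hu
  have h2 : ∀ᶠ s in 𝓝 x, SmV (fun s => foot (u s)) (fun s => (c s : E)) s := at_tb.1 hc
  let u' : ∀ s, TangentSpace 𝓘(ℝ, E) (foot (u s)) := fun s => ρ • tv (u s)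
  let c' : ∀ s, TangentSpace 𝓘(ℝ, E) (foot (u s)) := fun s => c s
  have h3 : ∀ᶠ s in 𝓝 x, SmV (fun s => foot (u s)) u' s := by
    filter_upwards [h1] with s hs
    exact SmV.smul contDiffAt_const hs
  have h4 : ∀ᶠ s in 𝓝 x, SmV (fun s => foot (u s)) c' s := h2
  have h5 : (dTM E M).At (fun s => tb (gm e (u s, ρ))
      (dE e (foot (u s)) (ρ • vec' (u s)) (c s))) x := by
    have key : ∀ᶠ s in 𝓝 x, ContMDiffAt 𝓘(ℝ, E') 𝓘(ℝ, E).tangent ∞
        (fun s => tb (gm e (u s, ρ)) (dE e (foot (u s)) (ρ • vec' (u s)) (c s))) s := by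
      filter_upwards [eventually_eventually_nhds.2 h3, eventually_eventually_nhds.2 h4] with s h5 h6
      exact H583.smV_dE F.isExp h5 h6
    exact key
  have h6 := at_smul (f := fun s => gm e (u s, ρ)) (c := fun _ : E' => ρ)
    (Sm.of_contDiff contDiff_const _) h5
  have h7 : (fun s => tb (gm e (u s, ρ)) (Jc e (u s) (c s) ρ)) =
      fun s => tb (gm e (u s, ρ)) (ρ • dE e (foot (u s)) (ρ • vec' (u s)) (c s)) := by
    funext s
    exact tb_congr rfl (Jc_eq F _ _ _)
  rw [h7]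
  exact h6

theorem at_vj (F : Facts e) {u : E' → UT E M} {x : E'} (hu : (dUT E M).At u x) (j : Fin 4) :
    (dUT E M).At (fun s => vj F D (u s) j) x :=
  map_phi F (u := fun s => (u s, (j.val : ℝ) * D)) ⟨hu, Sm.of_contDiff contDiff_const _⟩

theorem at_x8 {F : Facts e} {u : E' → UT E M} {x : E'} (hu : (dUT E M).At u x) (i : ZMod 8) :
    (dM E M).At (fun s => x8 e D (u s) i) x :=
  map_gm F (u := fun s => (u s, (2 * (i.val : ℝ) + 1) * (D / 4))) ⟨hu,
    Sm.of_contDiff contDiff_const _⟩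

end Plots

/-! ### velocities -/

/-- the velocity of a curve through the origin of the tangent space -/
theorem vl_exp_curve (F : Facts e) (x : M) {ξ : ℝ → E} {Z : E} (h0 : ξ 0 = 0)
    (hξ : HasDerivAt ξ Z 0) : (WC.vl (fun r : ℝ => e x (ξ r : E)) 0 : E) = Z := by
  have key : ∀ {ξ : ℝ → E}, ξ 0 = 0 → HasDerivAt ξ Z 0 →
      (WC.vl (fun r : ℝ => e x (ξ r : E)) 0 : E) = dE e x (0 : E) Z := by
    intro ξ h0 hξ
    have h1 : HasDerivAt (fun r => (ξ r : TangentSpace 𝓘(ℝ, E) x)) (Z : E) 0 := hξ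
    have h2 := mfderiv_exp_curve F.isExp x h1
    have h3 : (WC.vl (fun r : ℝ => e x (ξ r : E)) 0 : E) = dE e x (ξ 0) Z := h2
    rw [h3, h0]
  have h1 := key h0 hξ
  have h2 := key (ξ := fun r : ℝ => r • Z) (zero_smul ℝ _) (by
    have k := (hasDerivAt_id (0 : ℝ)).smul_const Z
    rwa [one_smul] at k)
  rw [h1, ← h2]
  exact F.isExp.velocity x Z

theorem vl_exp_smul (F : Facts e) (x : M) (Z : E) :
    (WC.vl (fun r : ℝ => e x (r • Z : E)) 0 : E) = Z := F.isExp.velocity x Z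

variable {W : Type} [NormedAddCommGroup W] [NormedSpace ℝ W] [FiniteDimensional ℝ W]

/-- corner fields: initial derivatives `κ j ∈ L` at the corners, linear in `w`, such that for
`w ≠ 0` at least one corner opens -/
structure CF (F : Facts e) (hD : 0 < D) (hB : InjGE e D) (hdiam : ∀ p q : M, dist p q ≤ D)
    (P : UT E M → W →L[ℝ] W) (κ : (UT E M × W) × ℝ → Fin 4 → E) : Prop where
  mem : ∀ p j, (κ p j : TangentSpace 𝓘(ℝ, E) (foot (vj F D p.1.1 j))) ∈
    Lf e D (vj F D p.1.1 j)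
  smul : ∀ v w θ (r : ℝ) j, κ ((v, r • w), θ) j = r • κ ((v, w), θ) j
  smooth : ∀ j, ∀ {E' : Type} [NormedAddCommGroup E'] [NormedSpace ℝ E'] [FiniteDimensional ℝ E']
    {u : E' → (UT E M × W) × ℝ} {x : E'}, (((dUT E M).prod (Dif.lin W)).prod (Dif.lin ℝ)).At u x →
      (dTM E M).At (fun s => tb (foot (vj F D (u s).1.1 j)) (κ (u s) j)) x
  opn : ∀ v, ∀ θ ∈ Icc (0 : ℝ) 1, ∀ w, P v w = w → w ≠ 0 →
    ∃ j, κ ((v, w), θ) (j + 1) ≠ Tr F hD hB hdiam (vj F D v j) (κ ((v, w), θ) j)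

variable {F : Facts e} {hD : 0 < D} {hB : InjGE e D} {hdiam : ∀ p q : M, dist p q ≤ D}
  {P : UT E M → W →L[ℝ] W} {κ : (UT E M × W) × ℝ → Fin 4 → E}

theorem CF.zero (h : CF F hD hB hdiam P κ) (v : UT E M) (θ : ℝ) (j : Fin 4) :
    κ ((v, 0), θ) j = 0 := by
  have k := h.smul v 0 θ 0 j
  rwa [zero_smul, zero_smul] at k

/-- the unit vectors at the corners -/
def uk (F : Facts e) (D : ℝ) (κ : (UT E M × W) × ℝ → Fin 4 → E) (p : (UT E M × W) × ℝ)
    (j : Fin 4) : UT E M := nv (vj F D p.1.1 j) (κ p j)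

/-- the broken linear family -/
def YB (F : Facts e) (D : ℝ) (κ : (UT E M × W) × ℝ → Fin 4 → E) (p : (UT E M × W) × ℝ)
    (i : ZMod 8) : M := e (x8 e D p.1.1 i) (bZ e D (vj F D p.1.1) (κ p) i : E)

/-- the family of four unit vectors -/
def YU (F : Facts e) (D : ℝ) (κ : (UT E M × W) × ℝ → Fin 4 → E) (p : (UT E M × W) × ℝ) :
    ZMod 8 → M := y8 e D (uk F D κ p)

theorem CF.uk_zero (h : CF F hD hB hdiam P κ) (v : UT E M) (θ : ℝ) :
    uk F D κ ((v, 0), θ) = vj F D v := by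
  funext j
  unfold uk
  rw [h.zero, nv_zero]

theorem CF.uk_smul (h : CF F hD hB hdiam P κ) (v : UT E M) (w : W) (θ r : ℝ) (j : Fin 4) :
    uk F D κ ((v, r • w), θ) j = nv (vj F D v j) (r • κ ((v, w), θ) j) := by
  unfold uk
  rw [h.smul]

theorem CF.at_uk (h : CF F hD hB hdiam P κ) (j : Fin 4) {E' : Type} [NormedAddCommGroup E']
    [NormedSpace ℝ E'] [FiniteDimensional ℝ E'] {u : E' → (UT E M × W) × ℝ} {x : E'}
    (hu : (((dUT E M).prod (Dif.lin W)).prod (Dif.lin ℝ)).At u x) :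
    (dUT E M).At (fun s => uk F D κ (u s) j) x :=
  at_nv (at_vj F hu.1.1 j) (h.smooth j hu)

/-- **the family of four unit vectors** -/
theorem CF.lfm_YU (h : CF F hD hB hdiam P κ) : LFm e D P (YU F D κ) where
  smooth i E' _ _ _ u x hu := by
    have h1 := h.at_uk (cj i) hu
    have h2 : (dM E M).At (fun s => gm e (uk F D κ (u s) (cj i), tj D i)) x :=
      map_gm F (u := fun s => (uk F D κ (u s) (cj i), tj D i)) ⟨h1, Sm.of_contDiff contDiff_const _⟩
    refine (dM E M).congr h2 (Eventually.of_forall fun s => ?_)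
    exact (y8_apply _ _).symm
  zero v θ := by
    unfold YU
    rw [h.uk_zero, y8_vj F hD]
  neg v θ hθ w hw hw0 := by
    obtain ⟨j, hj⟩ := h.opn v θ hθ w hw hw0
    have hpl : (((dUT E M).prod (Dif.lin W)).prod (Dif.lin ℝ)).At
        (fun r : ℝ => ((v, r • w), θ)) 0 :=
      ⟨⟨H583.at_const v _, Sm.of_contDiff (contDiff_id.smul contDiff_const) _⟩,
        Sm.of_contDiff contDiff_const _⟩
    have h0 : ∀ j, uk F D κ ((v, (0 : ℝ) • w), θ) j = vj F D v j := fun j => by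
      rw [zero_smul, h.uk_zero]
    refine neg_y8 F hD hB hdiam (u := fun r => uk F D κ ((v, r • w), θ))
      (fun j => h.at_uk j hpl) (fun j => ?_) (Eventually.of_forall fun r j => ?_)
      (Eventually.of_forall fun r j => ?_) j (a := κ ((v, w), θ) (j + 1))
      (b := Tr F hD hB hdiam (vj F D v j) (κ ((v, w), θ) j)) ?_ ?_ hj
    · rw [h0, h0, vj_succ F hD hB hdiam]
    · change foot (vj F D v (j + 1)) = bar e D (nv (vj F D v j) (κ ((v, r • w), θ) j))
      rw [bar_nv F hD hB hdiam (h.mem ((v, r • w), θ) j), vj_succ F hD hB hdiam]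
      rfl
    · rfl
    · have k := hasDerivAt_vec_nv (h.mem ((v, w), θ) (j + 1))
      refine k.congr_of_eventuallyEq (Eventually.of_forall fun r => ?_)
      change vec' (uk F D κ ((v, r • w), θ) (j + 1)) = _
      rw [h.uk_smul]
    · have k := hasDerivAt_vec_phi_nv F hD hB hdiam (h.mem ((v, w), θ) j)
      refine k.congr_of_eventuallyEq (Eventually.of_forall fun r => ?_)
      change vec' (phi F (uk F D κ ((v, r • w), θ) j, D)) = _
      rw [h.uk_smul]

/-- the velocities of the family of four unit vectors -/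
theorem CF.vl_YU (h : CF F hD hB hdiam P κ) (v : UT E M) (w : W) (θ : ℝ) (i : ZMod 8) :
    (WC.vl (fun r : ℝ => YU F D κ ((v, r • w), θ) i) 0 : E) =
      bZ e D (vj F D v) (κ ((v, w), θ)) i := by
  have h1 : (fun r : ℝ => YU F D κ ((v, r • w), θ) i) = fun r : ℝ =>
      gm e (nv (vj F D v (cj i)) (r • κ ((v, w), θ) (cj i)), tj D i) := by
    funext r
    unfold YU
    rw [y8_apply, h.uk_smul]
  rw [h1, vl_gm_nv F (h.mem ((v, w), θ) (cj i)), bZ_apply]

/-- the values of the broken field are smooth -/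
theorem CF.at_bZ (h : CF F hD hB hdiam P κ) (i : ZMod 8) {E' : Type} [NormedAddCommGroup E']
    [NormedSpace ℝ E'] [FiniteDimensional ℝ E'] {u : E' → (UT E M × W) × ℝ} {x : E'}
    (hu : (((dUT E M).prod (Dif.lin W)).prod (Dif.lin ℝ)).At u x) :
    (dTM E M).At (fun s => tb (x8 e D (u s).1.1 i) (bZ e D (vj F D (u s).1.1) (κ (u s)) i)) x := by
  have h1 := at_Jc F (at_vj F hu.1.1 (cj i)) (h.smooth (cj i) hu) (tj D i)
  refine (dTM E M).congr h1 (Eventually.of_forall fun s => ?_)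
  exact tb_congr (x8_eq F hD _ _).symm (bZ_apply _ _ _).symm

theorem Jc_zero_right (F : Facts e) (u : UT E M) (r : ℝ) : Jc e u (0 : E) r = 0 := by
  have k := Jc_smul (e := e) u 0 (0 : E) r
  rwa [zero_smul, zero_smul] at k

theorem CF.bZ_smul' (h : CF F hD hB hdiam P κ) (v : UT E M) (w : W) (θ r : ℝ) (i : ZMod 8) :
    bZ e D (vj F D v) (κ ((v, r • w), θ)) i = r • bZ e D (vj F D v) (κ ((v, w), θ)) i := by
  rw [bZ_apply, bZ_apply, h.smul, Jc_smul]

theorem CF.bZ_zero (h : CF F hD hB hdiam P κ) (v : UT E M) (θ : ℝ) (i : ZMod 8) :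
    bZ e D (vj F D v) (κ ((v, 0), θ)) i = 0 := by
  rw [bZ_apply, h.zero, Jc_zero_right F]

/-- **the broken linear family** -/
theorem CF.lfm_YB (h : CF F hD hB hdiam P κ) : LFm e D P (YB F D κ) where
  smooth i E' _ _ _ u x hu := at_exp F (h.at_bZ i hu)
  zero v θ := by
    funext i
    unfold YB
    rw [h.bZ_zero]
    exact F.isExp.map_zero _
  neg v θ hθ w hw hw0 := by
    have hYU := h.lfm_YU
    have hc : ∀ i, (fun r : ℝ => YB F D κ ((v, r • w), θ) i) = fun r : ℝ =>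
        e (x8 e D v i) (r • bZ e D (vj F D v) (κ ((v, w), θ)) i : E) := by
      intro i
      funext r
      unfold YB
      rw [h.bZ_smul']
    refine (neg_congr F hD hB hdiam (v := v) (fun i => ?_) ?_ (fun i => hYU.at_curve v w θ 0 i)
      (hYU.zero' v w θ) fun i => ?_).2 (hYU.neg v θ hθ w hw hw0)
    · rw [hc i]
      exact SmV.exp F.isExp (S3U.smV_const (x8 e D v i)
        (ξ := fun r : ℝ => r • bZ e D (vj F D v) (κ ((v, w), θ)) i) (s := 0)
        (contDiff_id.smul contDiff_const).contDiffAt)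
    · funext i
      have k : YB F D κ ((v, (0 : ℝ) • w), θ) i =
        e (x8 e D v i) ((0 : ℝ) • bZ e D (vj F D v) (κ ((v, w), θ)) i : E) := congrFun (hc i) 0
      rw [k, zero_smul]
      exact F.isExp.map_zero _
    · rw [hc i, vl_exp_smul F, h.vl_YU]

/-! ### from the broken fields to the unit vectors -/

theorem dist_YU (h : CF F hD hB hdiam P κ) (p : (UT E M × W) × ℝ) (i : ZMod 8) :
    dist (x8 e D p.1.1 i) (YU F D κ p i) < D := by
  have h1 : YU F D κ p i = gm e (uk F D κ p (cj i), tj D i) := y8_apply _ _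
  rw [h1, x8_eq F hD]
  set v' := vj F D p.1.1 (cj i) with hv'
  set u' := uk F D κ p (cj i) with hu'
  have hfoot : foot u' = foot v' := rfl
  have hbar : bar e D u' = bar e D v' := bar_nv F hD hB hdiam (h.mem p (cj i))
  obtain ⟨ht1, ht2⟩ := tj_mem (D := D) hD i
  have key : ∀ i : Fin 8, tj D i = D / 4 ∨ tj D i = 3 * D / 4 := by
    intro i
    fin_cases i
    · exact Or.inl rfl
    · exact Or.inr rfl
    · exact Or.inl rfl
    · exact Or.inr rfl
    · exact Or.inl rfl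
    · exact Or.inr rfl
    · exact Or.inl rfl
    · exact Or.inr rfl
  rcases key i with hi | hi
  · rw [hi]
    have k1 : dist (foot v') (gm e (v', D / 4)) = D / 4 :=
      dist_foot_gm' hB v' (by linarith) (by linarith)
    have k2 : dist (foot u') (gm e (u', D / 4)) = D / 4 :=
      dist_foot_gm' hB u' (by linarith) (by linarith)
    rw [hfoot] at k2
    have k3 := dist_triangle_left (gm e (v', D / 4)) (gm e (u', D / 4)) (foot v')
    rw [k1, k2] at k3
    linarith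
  · rw [hi]
    have k1 : dist (gm e (v', 3 * D / 4)) (bar e D v') = D - 3 * D / 4 :=
      dist_gm_gm F hB v' (by linarith) (by linarith)
    have k2 : dist (gm e (u', 3 * D / 4)) (bar e D u') = D - 3 * D / 4 :=
      dist_gm_gm F hB u' (by linarith) (by linarith)
    rw [hbar] at k2
    have k3 := dist_triangle_right (gm e (v', 3 * D / 4)) (gm e (u', 3 * D / 4)) (bar e D v')
    rw [k1, k2] at k3
    linarith

/-- the vector of the interpolation -/
def zI (F : Facts e) (D : ℝ) (κ : (UT E M × W) × ℝ → Fin 4 → E) (θ₀ : ℝ) (p : (UT E M × W) × ℝ)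
    (i : ZMod 8) : E :=
  (1 - p.2) • bZ e D (vj F D p.1.1) (κ (p.1, θ₀)) i +
    p.2 • (lm e (x8 e D p.1.1 i) (YU F D κ (p.1, θ₀) i) : E)

/-- the interpolation between the broken linear family and the family of four unit vectors -/
def YI (F : Facts e) (D : ℝ) (κ : (UT E M × W) × ℝ → Fin 4 → E) (θ₀ : ℝ) (p : (UT E M × W) × ℝ)
    (i : ZMod 8) : M := e (x8 e D p.1.1 i) (zI F D κ θ₀ p i : E)

theorem YI_zero (F : Facts e) (θ₀ : ℝ) (q : UT E M × W) : YI F D κ θ₀ (q, 0) = YB F D κ (q, θ₀) := by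
  funext i
  have k : zI F D κ θ₀ (q, 0) i = bZ e D (vj F D q.1) (κ (q, θ₀)) i := by
    unfold zI
    simp only [sub_zero, one_smul, zero_smul, add_zero]
  unfold YI YB
  rw [k]

theorem YI_one (h : CF F hD hB hdiam P κ) (θ₀ : ℝ) (q : UT E M × W) :
    YI F D κ θ₀ (q, 1) = YU F D κ (q, θ₀) := by
  funext i
  have k : zI F D κ θ₀ (q, 1) i = lm e (x8 e D q.1 i) (YU F D κ (q, θ₀) i) := by
    unfold zI
    simp only [sub_self, zero_smul, one_smul, zero_add]
  unfold YI
  rw [k]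
  exact exp_lm F hB (dist_YU h (q, θ₀) i)

theorem at_lm (F : Facts e) (hB : InjGE e D) {E' : Type} [NormedAddCommGroup E']
    [NormedSpace ℝ E'] [FiniteDimensional ℝ E'] {a b : E' → M} {x : E'} (ha : (dM E M).At a x)
    (hb : (dM E M).At b x) (h : ∀ s, dist (a s) (b s) < D) :
    (dTM E M).At (fun s => tb (a s) (lm e (a s) (b s))) x := by
  rw [at_tb]
  have h1 : ∀ᶠ s in 𝓝 x, ContMDiffAt 𝓘(ℝ, E') 𝓘(ℝ, E) ∞ a s := ha
  have h2 : ∀ᶠ s in 𝓝 x, ContMDiffAt 𝓘(ℝ, E') 𝓘(ℝ, E) ∞ b s := hb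
  filter_upwards [h1, h2] with s k1 k2
  exact smV_lm F hB k1 k2 (h s)

/-- **the interpolation** -/
theorem CF.lfm_YI (h : CF F hD hB hdiam P κ) {θ₀ : ℝ} (hθ₀ : θ₀ ∈ Icc (0 : ℝ) 1) :
    LFm e D P (YI F D κ θ₀) where
  smooth i E' _ _ _ u x hu := by
    have hu' : (((dUT E M).prod (Dif.lin W)).prod (Dif.lin ℝ)).At
        (fun s => ((u s).1, θ₀)) x := ⟨hu.1, Sm.of_contDiff contDiff_const _⟩
    have h1 := h.at_bZ i hu'
    have h2 : (dM E M).At (fun s => YU F D κ ((u s).1, θ₀) i) x := h.lfm_YU.smooth i hu'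
    have h3 := at_lm F hB (at_x8 (F := F) (D := D) hu.1.1 i) h2 fun s => dist_YU h ((u s).1, θ₀) i
    have h4 : Sm (fun s => (u s).2) x := hu.2
    have h5 : Sm (fun s => 1 - (u s).2) x := by
      filter_upwards [h4] with s hs using contDiffAt_const.sub hs
    exact at_exp F (at_add (at_smul h5 h1) (at_smul h4 h3))
  zero v θ := by
    funext i
    have k : zI F D κ θ₀ ((v, 0), θ) i = 0 := by
      change (1 - θ) • bZ e D (vj F D v) (κ ((v, 0), θ₀)) i +
        θ • (lm e (x8 e D v i) (YU F D κ ((v, 0), θ₀) i) : E) = 0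
      rw [h.bZ_zero, h.lfm_YU.zero, lm_self F hD hB, smul_zero, smul_zero, add_zero]
    unfold YI
    rw [k]
    exact F.isExp.map_zero _
  neg v θ hθ w hw hw0 := by
    have hYU := h.lfm_YU
    have hcv := hYU.at_curve v w θ₀ 0
    have hz := hYU.zero' v w θ₀
    set Z : ZMod 8 → E := bZ e D (vj F D v) (κ ((v, w), θ₀)) with hZ
    have hz1 : ∀ i, (fun r : ℝ => zI F D κ θ₀ ((v, r • w), θ) i) = fun r : ℝ =>
        (1 - θ) • (r • Z i) + θ • (lm e (x8 e D v i) (YU F D κ ((v, r • w), θ₀) i) : E) := by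
      intro i
      funext r
      change (1 - θ) • bZ e D (vj F D v) (κ ((v, r • w), θ₀)) i +
        θ • (lm e (x8 e D v i) (YU F D κ ((v, r • w), θ₀) i) : E) = _
      rw [h.bZ_smul']
    have hc : ∀ i, (fun r : ℝ => YI F D κ θ₀ ((v, r • w), θ) i) = fun r : ℝ =>
        e (x8 e D v i) (zI F D κ θ₀ ((v, r • w), θ) i : E) := fun i => rfl
    have hlm : ∀ i, ContDiffAt ℝ ∞ (fun r : ℝ =>
        (lm e (x8 e D v i) (YU F D κ ((v, r • w), θ₀) i) : E)) 0 ∧
        (lm e (x8 e D v i) (YU F D κ ((v, (0 : ℝ) • w), θ₀) i) : E) = 0 ∧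
        HasDerivAt (fun r : ℝ => (lm e (x8 e D v i) (YU F D κ ((v, r • w), θ₀) i) : E)) (Z i) 0 := by
      intro i
      have a1 : ContDiffAt ℝ ∞ (fun r : ℝ =>
          (lm e (x8 e D v i) (YU F D κ ((v, r • w), θ₀) i) : E)) 0 :=
        S3U.contDiffAt_of_smV (x8 e D v i) (smV_lm F hB (a := fun _ : ℝ => x8 e D v i)
          (b := fun r => YU F D κ ((v, r • w), θ₀) i) contMDiffAt_const (hcv i)
          (dist_YU h ((v, (0 : ℝ) • w), θ₀) i))
      refine ⟨a1, ?_, ?_⟩
      · rw [hz]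
        exact lm_self F hD hB _
      · have h1 := S3U.hasDerivAt_lm F hD hB (hcv i)
        have h2 : YU F D κ ((v, (0 : ℝ) • w), θ₀) i = x8 e D v i := congrFun hz i
        rw [h2, h.vl_YU] at h1
        simpa only [zero_add] using h1
    have hξd : ∀ i, HasDerivAt (fun r : ℝ => zI F D κ θ₀ ((v, r • w), θ) i) (Z i) 0 := by
      intro i
      rw [hz1 i]
      have a1 : HasDerivAt (fun r : ℝ => r • Z i) (Z i) 0 := by
        have k := (hasDerivAt_id (0 : ℝ)).smul_const (Z i)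
        rwa [one_smul] at k
      refine ((a1.const_smul (1 - θ)).add ((hlm i).2.2.const_smul θ)).congr_deriv ?_
      rw [← add_smul, sub_add_cancel, one_smul]
    have hξ0 : ∀ i, zI F D κ θ₀ ((v, (0 : ℝ) • w), θ) i = 0 := by
      intro i
      have k : zI F D κ θ₀ ((v, (0 : ℝ) • w), θ) i = (1 - θ) • ((0 : ℝ) • Z i) +
        θ • (lm e (x8 e D v i) (YU F D κ ((v, (0 : ℝ) • w), θ₀) i) : E) := congrFun (hz1 i) 0
      rw [k, (hlm i).2.1, zero_smul, smul_zero, smul_zero, add_zero]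
    refine (neg_congr F hD hB hdiam (v := v) (fun i => ?_) ?_ hcv hz fun i => ?_).2
      (hYU.neg v θ₀ hθ₀ w hw hw0)
    · rw [hc i]
      refine SmV.exp F.isExp (S3U.smV_const (x8 e D v i) (s := 0) ?_)
      rw [hz1 i]
      exact ((contDiff_id.smul contDiff_const).contDiffAt.const_smul (1 - θ)).add
        ((hlm i).1.const_smul θ)
    · funext i
      change e (x8 e D v i) (zI F D κ θ₀ ((v, (0 : ℝ) • w), θ) i : E) = x8 e D v i
      rw [hξ0 i]
      exact F.isExp.map_zero _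
    · rw [hc i, vl_exp_curve F (x8 e D v i) (hξ0 i) (hξd i), h.vl_YU]

end

end Vale.Agent.P231.S3B3
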