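import Vale.Agent.P231.S3B3.Mlh

/-!
# P231, stage 3, block S3-B3, (H3): the concentrated field is the superposition of the smooth
staircase
-/

set_option maxSynthPendingDepth 3
set_option linter.unusedSectionVars false
set_option linter.unusedVariables false

open Bundle Manifold Set Filter Module MeasureTheory
open scoped ContDiff Manifold Topology ENNReal

namespace Vale.Agent.P231.S3B3

noncomputable section

open Vale.Agent.P234 Vale.Agent.P231 Vale.Agent.P231.H775 Vale.Agent.P231.Fm Vale.Agent.P231.W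
open Vale.Agent.P231.H766 Vale.Agent.P231.WD3 Vale.Agent.P231.WF Vale.Agent.P231.S3A
open Vale.Agent.P231.WR Vale.Agent.P231.S2N Vale.Agent.P231.S3Y

variable {E : Type*} [NormedAddCommGroup E] [NormedSpace ℝ E] [FiniteDimensional ℝ E]
  {M : Type*} [MetricSpace M] [ChartedSpace E M] [IsManifold 𝓘(ℝ, E) ∞ M]
  [RiemannianBundle (fun x : M => TangentSpace 𝓘(ℝ, E) x)]
  [IsContMDiffRiemannianBundle 𝓘(ℝ, E) ∞ E (fun x : M => TangentSpace 𝓘(ℝ, E) x)]
  {e : ∀ x : M, TangentSpace 𝓘(ℝ, E) x → M}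
  [CompactSpace M] [ConnectedSpace M] [IsRiemannianManifold 𝓘(ℝ, E) M] {D : ℝ}
  {ι : Type} [Fintype ι] [DecidableEq ι] {ψ : ℝ → ℝ}

/-- the density of the weighted field -/
def Cm (D : ℝ) (μ : ℝ → ℝ) (w : Wp ι) (s : ℝ) : EuclideanSpace ℝ ι :=
  deriv μ s • (w.1 + (Real.cos (om D * μ s) • w.2.1 - Real.sin (om D * μ s) • w.2.2))

/-- the times of the vertices -/
def ti (D : ℝ) (i : ZMod 8) : ℝ := (2 * (i.val : ℝ) + 1) * (D / 4)

theorem ti_eq (D : ℝ) (i : ZMod 8) : ti D i = ((cj i).val : ℝ) * D + tj D i := by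
  have key : ∀ i : Fin 8, (2 * (((i : ZMod 8).val : ℕ) : ℝ) + 1) * (D / 4) =
      ((cj i).val : ℝ) * D + tj D i := by
    intro i
    fin_cases i
    · change (2 * ((0 : ℕ) : ℝ) + 1) * (D / 4) = ((0 : ℕ) : ℝ) * D + D / 4
      push_cast; ring
    · change (2 * ((1 : ℕ) : ℝ) + 1) * (D / 4) = ((0 : ℕ) : ℝ) * D + 3 * D / 4
      push_cast; ring
    · change (2 * ((2 : ℕ) : ℝ) + 1) * (D / 4) = ((1 : ℕ) : ℝ) * D + D / 4
      push_cast; ring
    · change (2 * ((3 : ℕ) : ℝ) + 1) * (D / 4) = ((1 : ℕ) : ℝ) * D + 3 * D / 4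
      push_cast; ring
    · change (2 * ((4 : ℕ) : ℝ) + 1) * (D / 4) = ((2 : ℕ) : ℝ) * D + D / 4
      push_cast; ring
    · change (2 * ((5 : ℕ) : ℝ) + 1) * (D / 4) = ((2 : ℕ) : ℝ) * D + 3 * D / 4
      push_cast; ring
    · change (2 * ((6 : ℕ) : ℝ) + 1) * (D / 4) = ((3 : ℕ) : ℝ) * D + D / 4
      push_cast; ring
    · change (2 * ((7 : ℕ) : ℝ) + 1) * (D / 4) = ((3 : ℕ) : ℝ) * D + 3 * D / 4
      push_cast; ring
  exact key i

/-- **(H3)** -/
theorem Xh_eq_Bh (F : Facts e) (hψ : Bmp ψ) (hD : 0 < D) {h : ℝ} (hh : 0 < h) (hh4 : h < D / 4)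
    {wm : UT E M → EuclideanSpace ℝ ι → E}
    (hsm : ∀ u (k : ℝ) c, wm u (k • c) = k • wm u c) (v : UT E M) (w : Wp ι) (i : ZMod 8) :
    ∫ r in (0 : ℝ)..D, Jc e (phi F (v, ti D i - r))
      (wm (phi F (v, ti D i - r)) (Cm D (Bh ψ D h) w (ti D i - r))) r =
      Xh F D ψ wm ((v, w), h) i := by
  set T := tj D i with hT
  obtain ⟨hT1, hT2⟩ := tj_mem hD i
  rw [← hT] at hT1 hT2
  have hti : ti D i = ((cj i).val : ℝ) * D + T := ti_eq D i
  have hhD : h < D / 2 := by linarith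
  set n : ℤ := ((cj i).val : ℤ) with hn
  have hnc : (n : ℝ) = ((cj i).val : ℝ) := by rw [hn]; push_cast; ring
  set f : ℝ → E := fun r => Jc e (phi F (v, ti D i - r))
      (wm (phi F (v, ti D i - r)) (Cm D (Bh ψ D h) w (ti D i - r))) r with hf
  -- the formulas near the corner
  have hloc : ∀ r : ℝ, r ∈ Ioc (0 : ℝ) D → |ti D i - r - n * D| < D - h := by
    intro r hr
    rw [hti, hnc, abs_lt]
    constructor <;> [linarith [hr.2]; linarith [hr.1]]
  have hzero : ∀ r ∈ Ioc (0 : ℝ) D \ Ioc (T - h) (T + h), f r = 0 := by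
    intro r hr
    have h1 : deriv (Bh ψ D h) (ti D i - r) = 0 := by
      rw [deriv_Bh hψ hD hh hhD (hloc r hr.1)]
      have h2 : 1 ≤ |(ti D i - r - n * D) / h| := by
        rw [abs_div, abs_of_pos hh, le_div_iff₀ hh, one_mul, hti, hnc]
        have e1 : ((cj i).val : ℝ) * D + T - r - ((cj i).val : ℝ) * D = T - r := by ring
        rw [e1]
        by_contra hcon
        push Not at hcon
        rw [abs_lt] at hcon
        exact hr.2 ⟨by linarith [hcon.2], by linarith [hcon.1]⟩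
      rw [hψ.supp _ h2, mul_zero]
    have h3 : Cm D (Bh ψ D h) w (ti D i - r) = (0 : ℝ) • (0 : EuclideanSpace ℝ ι) := by
      unfold Cm
      rw [h1, zero_smul, zero_smul]
    simp only [hf]
    rw [h3, hsm, zero_smul]
    have h4 := Jc_smul (e := e) (phi F (v, ti D i - r)) (0 : ℝ) (0 : E) r
    rw [zero_smul, zero_smul] at h4
    exact h4
  have hsub : Ioc (T - h) (T + h) ⊆ Ioc (0 : ℝ) D := fun r hr =>
    ⟨by linarith [hr.1], by linarith [hr.2]⟩
  have s1 : ∫ r in (0 : ℝ)..D, f r = ∫ r in (T - h)..(T + h), f r := by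
    rw [intervalIntegral.integral_of_le hD.le, intervalIntegral.integral_of_le (by linarith)]
    exact setIntegral_eq_of_subset_of_forall_sdiff_eq_zero measurableSet_Ioc hsub hzero
  -- the stretched time
  have s2 : ∫ r in (T - h)..(T + h), f r = h • ∫ t in (-1 : ℝ)..1, f (T - h * t) := by
    have k := intervalIntegral.integral_comp_sub_mul (a := -1) (b := 1) f hh.ne' T
    have e1 : T - h * 1 = T - h := by ring
    have e2 : T - h * (-1) = T + h := by ring
    rw [e1, e2] at k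
    rw [k, smul_smul, mul_inv_cancel₀ hh.ne', one_smul]
  have s3 : ∀ t ∈ uIcc (-1 : ℝ) 1, h • f (T - h * t) =
      ψ t • Jc e (phi F (v, ((cj i).val : ℝ) * D + h * t))
        (wm (phi F (v, ((cj i).val : ℝ) * D + h * t)) (Cd D ψ (cj i) t w)) (T - h * t) := by
    intro t ht
    rw [uIcc_of_le (by norm_num)] at ht
    have e1 : ti D i - (T - h * t) = ((cj i).val : ℝ) * D + h * t := by rw [hti]; ring
    have hb : |((cj i).val : ℝ) * D + h * t - n * D| < D - h := by
      have e2 : ((cj i).val : ℝ) * D + h * t - n * D = h * t := by rw [hnc]; ring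
      rw [e2, abs_mul, abs_of_pos hh]
      have : |t| ≤ 1 := abs_le.2 ht
      nlinarith
    have e3 : (((cj i).val : ℝ) * D + h * t - n * D) / h = t := by
      rw [hnc]
      field_simp
      ring
    have hC : Cm D (Bh ψ D h) w (((cj i).val : ℝ) * D + h * t) =
        (ψ t / h) • Cd D ψ (cj i) t w := by
      unfold Cm Cd
      rw [deriv_Bh hψ hD hh hhD hb, Bh_eq hψ hD hh hhD hb, e3, hnc, smul_smul]
      have e4 : D / h * ψ t = ψ t / h * D := by ring
      have e5 : D * ((cj i).val : ℝ) + D * (Psi ψ t - 1 / 2) =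
        ((cj i).val : ℝ) * D + D * (Psi ψ t - 1 / 2) := by ring
      rw [e4, e5]
    simp only [hf]
    rw [e1, hC, hsm, Jc_smul, smul_smul]
    congr 1
    field_simp
  rw [s1, s2, ← intervalIntegral.integral_smul]
  exact intervalIntegral.integral_congr s3

end

end Vale.Agent.P231.S3B3
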