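import Vale.Agent.P231.S3B3.HfDef
import Vale.Agent.P231.S3E2.Stat

/-!
# P231, stage 3, block S3-B3: the fields concentrated near the corners: smoothness up to `h = 0`
-/

set_option maxSynthPendingDepth 3
set_option linter.unusedSectionVars false
set_option linter.unusedVariables false

open Bundle Manifold Set Filter Module MeasureTheory
open scoped ContDiff Manifold Topology ENNReal

namespace Vale.Agent.P231.S3B3

noncomputable section

open Vale.Agent.P234 Vale.Agent.P231 Vale.Agent.P231.H775 Vale.Agent.P231.Fm Vale.Agent.P231.W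
open Vale.Agent.P231.H766 Vale.Agent.P231.WD3 Vale.Agent.P231.WF Vale.Agent.P231.S3A
open Vale.Agent.P231.WR Vale.Agent.P231.S2N Vale.Agent.P231.S3Y

variable {E : Type*} [NormedAddCommGroup E] [NormedSpace ℝ E] [FiniteDimensional ℝ E]
  {M : Type*} [MetricSpace M] [ChartedSpace E M] [IsManifold 𝓘(ℝ, E) ∞ M]
  [RiemannianBundle (fun x : M => TangentSpace 𝓘(ℝ, E) x)]
  [IsContMDiffRiemannianBundle 𝓘(ℝ, E) ∞ E (fun x : M => TangentSpace 𝓘(ℝ, E) x)]
  {e : ∀ x : M, TangentSpace 𝓘(ℝ, E) x → M}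
  [CompactSpace M] [ConnectedSpace M] [IsRiemannianManifold 𝓘(ℝ, E) M] {D : ℝ}

section Jg

variable {E' : Type} [NormedAddCommGroup E'] [NormedSpace ℝ E'] [FiniteDimensional ℝ E']

/-- values of Jacobi fields, with all data variable -/
theorem at_Jg (F : Facts e) {U : E' → UT E M} {w : E' → E} {ρ : E' → ℝ} {x : E'}
    (hU : (dUT E M).At U x) (hw : (dTM E M).At (fun s => tb (foot (U s)) (w s)) x)
    (hρ : Sm ρ x) :
    (dTM E M).At (fun s => tb (gm e (U s, ρ s)) (Jc e (U s) (w s) (ρ s))) x := by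
  have h1 : ∀ᶠ s in 𝓝 x, SmV (fun s => foot (U s)) (fun s => tv (U s)) s := hU
  let w' : ∀ s, TangentSpace 𝓘(ℝ, E) (foot (U s)) := fun s => w s
  have h2 : ∀ᶠ s in 𝓝 x, SmV (fun s => foot (U s)) w' s := hw
  let u' : ∀ s, TangentSpace 𝓘(ℝ, E) (foot (U s)) := fun s => ρ s • tv (U s)
  have h4 : ∀ᶠ s in 𝓝 x, SmV (fun s => foot (U s)) u' s := by
    filter_upwards [h1, hρ] with s h3 h5
    exact h3.smul h5
  have key : ∀ᶠ s in 𝓝 x, ContMDiffAt 𝓘(ℝ, E') 𝓘(ℝ, E).tangent ∞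
      (fun s => tb (gm e (U s, ρ s)) (dE e (foot (U s)) (ρ s • vec' (U s)) (w s))) s := by
    filter_upwards [eventually_eventually_nhds.2 h4, eventually_eventually_nhds.2 h2] with s h5 h6
    exact H583.smV_dE F.isExp h5 h6
  have h5 := at_smul (f := fun s => gm e (U s, ρ s)) hρ key
  have h6 : (fun s => tb (gm e (U s, ρ s)) (Jc e (U s) (w s) (ρ s))) =
      fun s => tb (gm e (U s, ρ s)) (ρ s • dE e (foot (U s)) (ρ s • vec' (U s)) (w s)) := by
    funext s
    exact tb_congr rfl (Jc_eq F _ _ _)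
  rw [h6]
  exact h5

end Jg

variable {ι : Type} [Fintype ι] [DecidableEq ι] {hD : 0 < D} {hB : InjGE e D}
  {hdiam : ∀ p q : M, dist p q ≤ D} {F : Facts e}
  {P : UT E M → EuclideanSpace ℝ ι →L[ℝ] EuclideanSpace ℝ ι}
  {wm : UT E M → EuclideanSpace ℝ ι → E} {ψ : ℝ → ℝ}

theorem vertex_shift (F : Facts e) (hD : 0 < D) (v : UT E M) (i : ZMod 8) (s : ℝ) :
    gm e (phi F (v, (cj i).val * D + s), tj D i - s) = x8 e D v i := by
  rw [x8_eq F hD, vj, gm_phi, gm_phi]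
  congr 2
  ring

theorem contDiff_cdc (hψ : Bmp ψ) (j : Fin 4) :
    ContDiff ℝ ∞ fun t : ℝ => om D * (j.val * D + D * (Psi ψ t - 1 / 2)) :=
  contDiff_const.mul (contDiff_const.add (contDiff_const.mul ((contDiff_Psi hψ).sub
    contDiff_const)))

section Plots

variable {E' : Type} [NormedAddCommGroup E'] [NormedSpace ℝ E'] [FiniteDimensional ℝ E']

theorem sm_Cd (hψ : Bmp ψ) (j : Fin 4) {t : E' → ℝ} {w : E' → Wp ι} {x : E'} (ht : Sm t x)
    (hw : Sm w x) : Sm (fun s => Cd D ψ j (t s) (w s)) x := by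
  unfold Cd
  filter_upwards [ht, hw] with s h1 h2
  have h3 : ContDiffAt ℝ ∞ (fun s => om D * (j.val * D + D * (Psi ψ (t s) - 1 / 2))) s :=
    (contDiff_cdc hψ j).contDiffAt.comp s h1
  have a1 : ContDiffAt ℝ ∞ (fun s => (w s).1) s := h2.fst
  have a2 : ContDiffAt ℝ ∞ (fun s => (w s).2.1) s := h2.snd.fst
  have a3 : ContDiffAt ℝ ∞ (fun s => (w s).2.2) s := h2.snd.snd
  exact (contDiffAt_const (c := D)).smul (a1.add ((h3.cos.smul a2).sub (h3.sin.smul a3)))

/-- the integrand, with the stretched time shifted to `[0, 2]` -/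
def Xi0 (F : Facts e) (D : ℝ) (ψ : ℝ → ℝ) (wm : UT E M → EuclideanSpace ℝ ι → E)
    (q : (UT E M × Wp ι) × ℝ) (i : ZMod 8) (t : ℝ) : E :=
  ψ t • Jc e (phi F (q.1.1, (cj i).val * D + q.2 * t))
    (wm (phi F (q.1.1, (cj i).val * D + q.2 * t)) (Cd D ψ (cj i) t q.1.2)) (tj D i - q.2 * t)

theorem at_Xi0 (hψ : Bmp ψ) (hS : Src F hD hB hdiam P wm) {u : E' → (UT E M × Wp ι) × ℝ}
    {t : E' → ℝ} {x : E'} (hu : (((dUT E M).prod (Dif.lin (Wp ι))).prod (Dif.lin ℝ)).At u x)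
    (ht : Sm t x) (i : ZMod 8) :
    (dTM E M).At (fun s => tb (x8 e D (u s).1.1 i) (Xi0 F D ψ wm (u s) i (t s))) x := by
  have h1 : (dUT E M).At (fun s => (u s).1.1) x := hu.1.1
  have h2 : Sm (fun s => (u s).1.2) x := hu.1.2
  have h3 : Sm (fun s => (u s).2) x := hu.2
  have h4 : Sm (fun s => (u s).2 * t s) x := by
    filter_upwards [h3, ht] with s a b using a.mul b
  have h5 : Sm (fun s => ((cj i).val : ℝ) * D + (u s).2 * t s) x := by
    filter_upwards [h4] with s a using contDiffAt_const.add a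
  have h6 : (dUT E M).At (fun s => phi F ((u s).1.1, (cj i).val * D + (u s).2 * t s)) x :=
    map_phi F (u := fun s => ((u s).1.1, ((cj i).val : ℝ) * D + (u s).2 * t s)) ⟨h1, h5⟩
  have h7 := hS.smooth h6 (sm_Cd (D := D) hψ (cj i) ht h2)
  have h8 : Sm (fun s => tj D i - (u s).2 * t s) x := by
    filter_upwards [h4] with s a using contDiffAt_const.sub a
  have h9 := at_Jg F h6 h7 h8
  have h10 : Sm (fun s => ψ (t s)) x := by
    filter_upwards [ht] with s a using hψ.smooth.contDiffAt.comp s a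
  have h11 := at_smul h10 h9
  have h12 : (fun s => tb (gm e (phi F ((u s).1.1, (cj i).val * D + (u s).2 * t s),
      tj D i - (u s).2 * t s)) (ψ (t s) • Jc e (phi F ((u s).1.1, (cj i).val * D + (u s).2 * t s))
        (wm (phi F ((u s).1.1, (cj i).val * D + (u s).2 * t s)) (Cd D ψ (cj i) (t s) (u s).1.2))
        (tj D i - (u s).2 * t s))) =
      fun s => tb (x8 e D (u s).1.1 i) (Xi0 F D ψ wm (u s) i (t s)) := by
    funext s
    exact tb_congr (vertex_shift F hD _ _ _) rfl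
  rw [← h12]
  exact h11

theorem Xh_eq (q : (UT E M × Wp ι) × ℝ) (i : ZMod 8) :
    Xh F D ψ wm q i = ∫ r in (0 : ℝ)..2, Xi0 F D ψ wm q i (r - 1) := by
  have h := intervalIntegral.integral_comp_sub_right (a := 0) (b := 2)
    (fun t => Xi0 F D ψ wm q i t) 1
  rw [h]
  norm_num
  rfl

/-- **(H1)** the fields are smooth, `h = 0` included -/
theorem at_Xh (hψ : Bmp ψ) (hS : Src F hD hB hdiam P wm) {u : E' → (UT E M × Wp ι) × ℝ} {x : E'}
    (hu : (((dUT E M).prod (Dif.lin (Wp ι))).prod (Dif.lin ℝ)).At u x) (i : ZMod 8) :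
    (dTM E M).At (fun s => tb (x8 e D (u s).1.1 i) (Xh F D ψ wm (u s) i)) x := by
  have h0 := (((dUT E M).prod (Dif.lin (Wp ι))).prod (Dif.lin ℝ)).open' hu
  have hf : (dM E M).At (fun s => x8 e D (u s).1.1 i) x :=
    map_gm F (u := fun s => ((u s).1.1, (2 * (i.val : ℝ) + 1) * (D / 4)))
      ⟨hu.1.1, Sm.of_contDiff contDiff_const _⟩
  have hf' : ∀ᶠ s in 𝓝 x, ContMDiffAt 𝓘(ℝ, E') 𝓘(ℝ, E) ∞ (fun s => x8 e D (u s).1.1 i) s := hf
  have key : ∀ᶠ s in 𝓝 x, ContMDiffAt 𝓘(ℝ, E') 𝓘(ℝ, E).tangent ∞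
      (fun s => tb (x8 e D (u s).1.1 i) (∫ r in (0 : ℝ)..2, Xi0 F D ψ wm (u s) i (r - 1))) s := by
    filter_upwards [eventually_eventually_nhds.2 hf', eventually_eventually_nhds.2 h0] with s h1 h2
    refine H583.smV_integral 2 h1 ?_
    filter_upwards [h2] with s' h3 r
    have h4 : (((dUT E M).prod (Dif.lin (Wp ι))).prod (Dif.lin ℝ)).At
        (fun p : E' × ℝ => u p.1) (s', r) :=
      Dif.comp _ (u := u) (g := Prod.fst) (x := (s', r)) h3 (Sm.of_contDiff contDiff_fst _)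
    have h5 : Sm (fun p : E' × ℝ => p.2 - 1) (s', r) :=
      Sm.of_contDiff (contDiff_snd.sub contDiff_const) _
    have h6 := at_Xi0 hψ hS h4 h5 i
    exact Filter.Eventually.self_of_nhds (show ∀ᶠ z in 𝓝 (s', r), ContMDiffAt 𝓘(ℝ, E' × ℝ)
      𝓘(ℝ, E).tangent ∞ (fun p : E' × ℝ => tb (x8 e D (u p.1).1.1 i)
        (Xi0 F D ψ wm (u p.1) i (p.2 - 1))) z from h6)
  simp only [Xh_eq]
  exact key

end Plots

end

end Vale.Agent.P231.S3B3
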