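import Vale.Agent.P231.S3B3.Hfam

/-!
# P231, stage 3, block S3-B3: the fields concentrated near the corners: linearity, the limit `h = 0`
-/

set_option maxSynthPendingDepth 3
set_option linter.unusedSectionVars false
set_option linter.unusedVariables false

open Bundle Manifold Set Filter Module MeasureTheory
open scoped ContDiff Manifold Topology ENNReal

namespace Vale.Agent.P231.S3B3

noncomputable section

open Vale.Agent.P234 Vale.Agent.P231 Vale.Agent.P231.H775 Vale.Agent.P231.Fm Vale.Agent.P231.W
open Vale.Agent.P231.H766 Vale.Agent.P231.WD3 Vale.Agent.P231.WF Vale.Agent.P231.S3A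
open Vale.Agent.P231.WR Vale.Agent.P231.S2N Vale.Agent.P231.S3Y

variable {D : ℝ} {ψ : ℝ → ℝ}

theorem om_D (hD : 0 < D) : om D * D = Real.pi / 2 := by
  unfold om
  field_simp

theorem kap'_pos (hD : 0 < D) : 0 < kap' D := by
  refine intervalIntegral.intervalIntegral_pos_of_pos_on ?_ ?_ (by linarith)
  · exact (Real.continuous_cos.comp (continuous_const.mul continuous_id)).intervalIntegrable _ _
  · intro s hs
    refine Real.cos_pos_of_mem_Ioo ?_
    have h1 := om_D hD
    have h2 : 0 < om D := by
      unfold om
      positivity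
    have h3 := mul_lt_mul_of_pos_left hs.1 h2
    have h4 := mul_lt_mul_of_pos_left hs.2 h2
    have hpi := Real.pi_pos
    constructor
    · have : om D * -(D / 2) = -(Real.pi / 4) := by
        rw [show om D * -(D / 2) = -(om D * D) / 2 by ring, h1]
        ring
      linarith
    · have : om D * (D / 2) = Real.pi / 4 := by
        rw [show om D * (D / 2) = (om D * D) / 2 by ring, h1]
        ring
      linarith

theorem int_sin_zero (D : ℝ) : ∫ s in (-(D / 2))..(D / 2), Real.sin (om D * s) = 0 := by
  have h := intervalIntegral.integral_comp_neg (a := -(D / 2)) (b := D / 2)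
    (fun s => Real.sin (om D * s))
  simp only [mul_neg, Real.sin_neg, neg_neg, intervalIntegral.integral_neg] at h
  linarith

/-- the change of variables `s = D (Psi t - 1/2)` -/
theorem int_subst (h : Bmp ψ) {g : ℝ → ℝ} (hg : Continuous g) :
    ∫ t in (-1 : ℝ)..1, g (D * (Psi ψ t - 1 / 2)) * (D * ψ t) =
      ∫ s in (-(D / 2))..(D / 2), g s := by
  have h1 := intervalIntegral.integral_comp_mul_deriv (a := -1) (b := 1)
    (f := fun t => D * (Psi ψ t - 1 / 2)) (f' := fun t => D * ψ t) (g := g)
    (fun t _ => ((hasDerivAt_Psi h t).sub_const _).const_mul D)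
    ((continuous_const.mul h.smooth.continuous).continuousOn) hg
  simp only [Function.comp_def] at h1
  rw [h1, Psi_of_le h le_rfl, Psi_of_ge h le_rfl]
  congr 1 <;> ring

theorem int_cos (hD : 0 < D) (h : Bmp ψ) (j : Fin 4) :
    ∫ t in (-1 : ℝ)..1, Real.cos (om D * (j.val * D + D * (Psi ψ t - 1 / 2))) * (D * ψ t) =
      Real.cos (j.val * (Real.pi / 2)) * kap' D := by
  rw [int_subst h (g := fun s => Real.cos (om D * (j.val * D + s)))
    (Real.continuous_cos.comp (continuous_const.mul (continuous_const.add continuous_id)))]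
  have h1 : ∀ s, Real.cos (om D * (j.val * D + s)) =
      Real.cos (j.val * (Real.pi / 2)) * Real.cos (om D * s) -
        Real.sin (j.val * (Real.pi / 2)) * Real.sin (om D * s) := by
    intro s
    rw [← Real.cos_add, ← om_D hD]
    congr 1
    ring
  simp only [h1]
  rw [intervalIntegral.integral_sub, intervalIntegral.integral_const_mul,
    intervalIntegral.integral_const_mul, int_sin_zero, mul_zero, sub_zero]
  · rfl
  · exact (continuous_const.mul (Real.continuous_cos.comp
      (continuous_const.mul continuous_id))).intervalIntegrable _ _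
  · exact (continuous_const.mul (Real.continuous_sin.comp
      (continuous_const.mul continuous_id))).intervalIntegrable _ _

theorem int_sin (hD : 0 < D) (h : Bmp ψ) (j : Fin 4) :
    ∫ t in (-1 : ℝ)..1, Real.sin (om D * (j.val * D + D * (Psi ψ t - 1 / 2))) * (D * ψ t) =
      Real.sin (j.val * (Real.pi / 2)) * kap' D := by
  rw [int_subst h (g := fun s => Real.sin (om D * (j.val * D + s)))
    (Real.continuous_sin.comp (continuous_const.mul (continuous_const.add continuous_id)))]
  have h1 : ∀ s, Real.sin (om D * (j.val * D + s)) =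
      Real.sin (j.val * (Real.pi / 2)) * Real.cos (om D * s) +
        Real.cos (j.val * (Real.pi / 2)) * Real.sin (om D * s) := by
    intro s
    rw [← Real.sin_add, ← om_D hD]
    congr 1
    ring
  simp only [h1]
  rw [intervalIntegral.integral_add, intervalIntegral.integral_const_mul,
    intervalIntegral.integral_const_mul, int_sin_zero, mul_zero, add_zero]
  · rfl
  · exact (continuous_const.mul (Real.continuous_cos.comp
      (continuous_const.mul continuous_id))).intervalIntegrable _ _
  · exact (continuous_const.mul (Real.continuous_sin.comp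
      (continuous_const.mul continuous_id))).intervalIntegrable _ _

variable {ι : Type} [Fintype ι] [DecidableEq ι]

theorem continuous_Cd (h : Bmp ψ) (j : Fin 4) (w : Wp ι) : Continuous fun t => Cd D ψ j t w := by
  have h1 := (contDiff_cdc (D := D) h j).continuous
  unfold Cd
  exact (continuous_const (y := D)).smul (continuous_const.add
    (((Real.continuous_cos.comp h1).smul continuous_const).sub
      ((Real.continuous_sin.comp h1).smul continuous_const)))

/-- the mean of the density -/
theorem int_Cd (hD : 0 < D) (h : Bmp ψ) (j : Fin 4) (w : Wp ι) :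
    ∫ t in (-1 : ℝ)..1, ψ t • Cd D ψ j t w = cc D j w := by
  have hc := (contDiff_cdc (D := D) h j).continuous
  have hψ := h.smooth.continuous
  have i1 : IntervalIntegrable (fun t => (D * ψ t) • w.1) volume (-1) 1 :=
    ((continuous_const.mul hψ).smul continuous_const).intervalIntegrable _ _
  have i2 : IntervalIntegrable (fun t =>
      (Real.cos (om D * (j.val * D + D * (Psi ψ t - 1 / 2))) * (D * ψ t)) • w.2.1) volume (-1) 1 :=
    (((Real.continuous_cos.comp hc).mul (continuous_const.mul hψ)).smul
      continuous_const).intervalIntegrable _ _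
  have i3 : IntervalIntegrable (fun t =>
      (Real.sin (om D * (j.val * D + D * (Psi ψ t - 1 / 2))) * (D * ψ t)) • w.2.2) volume (-1) 1 :=
    (((Real.continuous_sin.comp hc).mul (continuous_const.mul hψ)).smul
      continuous_const).intervalIntegrable _ _
  have e1 : ∀ t, ψ t • Cd D ψ j t w = (D * ψ t) • w.1 +
      ((Real.cos (om D * (j.val * D + D * (Psi ψ t - 1 / 2))) * (D * ψ t)) • w.2.1 -
        (Real.sin (om D * (j.val * D + D * (Psi ψ t - 1 / 2))) * (D * ψ t)) • w.2.2) := by
    intro t
    unfold Cd
    module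
  simp only [e1]
  rw [intervalIntegral.integral_add i1 (i2.sub i3), intervalIntegral.integral_sub i2 i3,
    intervalIntegral.integral_smul_const, intervalIntegral.integral_smul_const,
    intervalIntegral.integral_smul_const, int_cos hD h, int_sin hD h,
    intervalIntegral.integral_const_mul, h.int, mul_one]
  unfold cc
  module

variable {E : Type*} [NormedAddCommGroup E] [NormedSpace ℝ E] [FiniteDimensional ℝ E]
  {M : Type*} [MetricSpace M] [ChartedSpace E M] [IsManifold 𝓘(ℝ, E) ∞ M]
  [RiemannianBundle (fun x : M => TangentSpace 𝓘(ℝ, E) x)]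
  [IsContMDiffRiemannianBundle 𝓘(ℝ, E) ∞ E (fun x : M => TangentSpace 𝓘(ℝ, E) x)]
  {e : ∀ x : M, TangentSpace 𝓘(ℝ, E) x → M}
  [CompactSpace M] [ConnectedSpace M] [IsRiemannianManifold 𝓘(ℝ, E) M]

variable {hD : 0 < D} {hB : InjGE e D}
  {hdiam : ∀ p q : M, dist p q ≤ D} {F : Facts e}
  {P : UT E M → EuclideanSpace ℝ ι →L[ℝ] EuclideanSpace ℝ ι}
  {wm : UT E M → EuclideanSpace ℝ ι → E}

/-- the values of the Jacobi fields as a linear map of the coefficient -/
def Lw (hS : Src F hD hB hdiam P wm) (u : UT E M) (r : ℝ) : EuclideanSpace ℝ ι →ₗ[ℝ] E where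
  toFun c := Jc e u (wm u c) r
  map_add' c c' := by rw [hS.add, Jc_add]
  map_smul' k c := by rw [hS.smul, Jc_smul, RingHom.id_apply]

/-- **(H2)** the limit `h = 0` is the broken field -/
theorem Xh_zero (hψ : Bmp ψ) (hS : Src F hD hB hdiam P wm) (v : UT E M) (w : Wp ι) (i : ZMod 8) :
    Xh F D ψ wm ((v, w), 0) i =
      bZ e D (vj F D v) (fun j => wm (vj F D v j) (cc D j w)) i := by
  rw [bZ_apply]
  have h1 : Xh F D ψ wm ((v, w), 0) i = ∫ t in (-1 : ℝ)..1,
      (Lw hS (vj F D v (cj i)) (tj D i)).toContinuousLinearMap (ψ t • Cd D ψ (cj i) t w) := by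
    unfold Xh
    refine intervalIntegral.integral_congr fun t _ => ?_
    simp only [zero_mul, add_zero, sub_zero]
    rw [map_smul]
    rfl
  have hc : Continuous fun t => ψ t • Cd D ψ (cj i) t w :=
    hψ.smooth.continuous.smul (continuous_Cd hψ _ w)
  rw [h1, ContinuousLinearMap.intervalIntegral_comp_comm _ (hc.intervalIntegrable _ _),
    int_Cd hD hψ]
  rfl

theorem Cd_smul (j : Fin 4) (t r : ℝ) (w : Wp ι) : Cd D ψ j t (r • w) = r • Cd D ψ j t w := by
  unfold Cd
  simp only [Prod.smul_fst, Prod.smul_snd]
  module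

theorem cc_smul (j : Fin 4) (r : ℝ) (w : Wp ι) : cc D j (r • w) = r • cc D j w := by
  unfold cc
  simp only [Prod.smul_fst, Prod.smul_snd]
  module

/-- homogeneity in `w` -/
theorem Xh_smul (hS : Src F hD hB hdiam P wm) (v : UT E M) (w : Wp ι) (h r : ℝ) (i : ZMod 8) :
    Xh F D ψ wm ((v, r • w), h) i = r • Xh F D ψ wm ((v, w), h) i := by
  unfold Xh
  rw [← intervalIntegral.integral_smul]
  refine intervalIntegral.integral_congr fun t _ => ?_
  simp only
  rw [Cd_smul, hS.smul, Jc_smul, smul_comm]

end

end Vale.Agent.P231.S3B3
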