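import Vale.Agent.P231.S3B3.Tube
import Vale.Agent.P231.S3V.Neg3

/-!
# P231, stage 3, block S3-B3, [INSC]: polygons inscribed in the loops of a family of fields
-/

set_option maxSynthPendingDepth 3
set_option linter.unusedSectionVars false
set_option linter.unusedVariables false

open Bundle Manifold Set Filter Module MeasureTheory
open scoped ContDiff Manifold Topology

namespace Vale.Agent.P231.S3B3

noncomputable section

open Vale.Agent.P234 Vale.Agent.P231 Vale.Agent.P231.H775 Vale.Agent.P231.Fm Vale.Agent.P231.W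
open Vale.Agent.P231.H766 Vale.Agent.P231.WD3 Vale.Agent.P231.WF Vale.Agent.P231.S3A
open Vale.Agent.P231.WR Vale.Agent.P231.S2N Vale.Agent.P231.WC

/-! ### closed curves -/

section Closed

variable {E : Type*} [NormedAddCommGroup E] [NormedSpace ℝ E] [FiniteDimensional ℝ E]
  {M : Type*} [MetricSpace M] [ChartedSpace E M] [IsManifold 𝓘(ℝ, E) ∞ M]
  [RiemannianBundle (fun x : M => TangentSpace 𝓘(ℝ, E) x)]
  [IsContMDiffRiemannianBundle 𝓘(ℝ, E) ∞ E (fun x : M => TangentSpace 𝓘(ℝ, E) x)]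
  [CompactSpace M] [ConnectedSpace M] [IsRiemannianManifold 𝓘(ℝ, E) M] {D : ℝ}

/-- the time of the vertex `k` -/
def t8 (D : ℝ) (k : ℕ) : ℝ := (2 * (k : ℝ) + 1) * (D / 4)

theorem t8_succ (D : ℝ) (k : ℕ) : t8 D (k + 1) = t8 D k + D / 2 := by
  unfold t8
  push_cast
  ring

theorem t8_eight (D : ℝ) : t8 D 8 = t8 D 0 + 4 * D := by
  unfold t8
  push_cast
  ring

/-- the energy of the inscribed 8-gon of a closed curve of period `4 D` -/
theorem En_insc (hD : 0 < D) {c : ℝ → M} (hc : ContMDiff 𝓘(ℝ, ℝ) 𝓘(ℝ, E) ∞ c)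
    (hper : ∀ t, c (t + 4 * D) = c t) (hsp : ∀ t, S3U.sp E c (t + 4 * D) = S3U.sp E c t) :
    En (fun i : ZMod 8 => c (t8 D i.val)) ≤
      D / 2 * ∫ t in (0 : ℝ)..(4 * D), S3U.sp E c t ^ 2 := by
  have hcont := S3U.continuous_sp hc
  have hi : ∀ a b : ℝ, IntervalIntegrable (fun t => S3U.sp E c t ^ 2) volume a b := fun a b =>
    (hcont.pow 2).intervalIntegrable _ _
  have hsucc : ∀ i : ZMod 8, (i + 1).val = i.val + 1 ∨ ((i + 1).val = 0 ∧ i.val = 7) := by decide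
  have h1 : ∀ i : ZMod 8, sd (fun i : ZMod 8 => c (t8 D i.val)) i =
      dist (c (t8 D i.val)) (c (t8 D (i.val + 1))) := by
    intro i
    change dist (c (t8 D i.val)) (c (t8 D (i + 1).val)) = dist (c (t8 D i.val)) (c (t8 D (i.val + 1)))
    rcases hsucc i with h | ⟨h, h'⟩
    · rw [h]
    · rw [h, h']
      have e1 : c (t8 D (7 + 1)) = c (t8 D 0) := by
        have e2 : t8 D (7 + 1) = t8 D 0 + 4 * D := t8_eight D
        rw [e2, hper]
      rw [e1]
  have h2 : En (fun i : ZMod 8 => c (t8 D i.val)) =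
      ∑ k ∈ Finset.range 8, dist (c (t8 D k)) (c (t8 D (k + 1))) ^ 2 := by
    unfold En
    rw [Finset.sum_range]
    exact Finset.sum_congr rfl fun i _ => by rw [h1 i]; rfl
  have h3 : ∀ k : ℕ, dist (c (t8 D k)) (c (t8 D (k + 1))) ^ 2 ≤
      D / 2 * ∫ t in (t8 D k)..(t8 D (k + 1)), S3U.sp E c t ^ 2 := by
    intro k
    have h4 := S3U.dist_sq_le hc (s := t8 D k) (t := t8 D (k + 1))
      (by rw [t8_succ]; linarith)
    have h5 : t8 D (k + 1) - t8 D k = D / 2 := by rw [t8_succ]; ring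
    rwa [h5] at h4
  have h6 := intervalIntegral.sum_integral_adjacent_intervals (μ := volume)
    (f := fun t => S3U.sp E c t ^ 2) (a := t8 D) (n := 8) fun k _ => hi _ _
  have h7 : Function.Periodic (fun t => S3U.sp E c t ^ 2) (4 * D) := fun t => by
    simp only [hsp]
  have h8 := h7.intervalIntegral_add_eq (t8 D 0) 0
  rw [zero_add, ← t8_eight, ← h6] at h8
  rw [h2, ← h8, Finset.mul_sum]
  exact Finset.sum_le_sum fun k _ => h3 k

end Closed

variable {E : Type*} [NormedAddCommGroup E] [NormedSpace ℝ E] [FiniteDimensional ℝ E]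
  {M : Type*} [MetricSpace M] [ChartedSpace E M] [IsManifold 𝓘(ℝ, E) ∞ M]
  [RiemannianBundle (fun x : M => TangentSpace 𝓘(ℝ, E) x)]
  [IsContMDiffRiemannianBundle 𝓘(ℝ, E) ∞ E (fun x : M => TangentSpace 𝓘(ℝ, E) x)]
  {e : ∀ x : M, TangentSpace 𝓘(ℝ, E) x → M}
  [CompactSpace M] [ConnectedSpace M] [IsRiemannianManifold 𝓘(ℝ, E) M] {D : ℝ}

section One

variable {v : UT E M} {Z : ℝ → E}

theorem sp_po2 (e : ∀ x : M, TangentSpace 𝓘(ℝ, E) x → M) (v : UT E M) (Z : ℝ → E) (r t : ℝ) :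
    S3U.sp E (fun t => po2 e v Z (r, t)) t ^ 2 = sq2 (E := E) (po2 e v Z) (r, t) := rfl

/-- the inscribed 8-gon has small energy -/
theorem En_po2 (F : Facts e) (hD : 0 < D) (hB : InjGE e D) (hdiam : ∀ p q : M, dist p q ≤ D)
    (hZ : ∀ t, FA e v Z t) (hper : ∀ t, Z (t + 4 * D) = Z t) (r : ℝ) :
    En (fun i : ZMod 8 => e (x8 e D v i) (r • Z ((2 * i.val + 1) * (D / 4)) : E)) ≤
      D / 2 * S3E2.enT e (4 * D) v Z r := by
  have hT := S3E2.phi_per4 F hD hB hdiam v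
  have hp : ∀ t, po2 e v Z (r, t + 4 * D) = po2 e v Z (r, t) := S3E2.po2_perT F hT hper r
  have hc : ContMDiff 𝓘(ℝ, ℝ) 𝓘(ℝ, E) ∞ (fun t => po2 e v Z (r, t)) := fun t =>
    cm_line2 F hZ r t
  have hsp : ∀ t, S3U.sp E (fun t => po2 e v Z (r, t)) (t + 4 * D) =
      S3U.sp E (fun t => po2 e v Z (r, t)) t := by
    intro t
    have k := vl_shift' (g := fun t => po2 e v Z (r, t)) (fun s => cm_line2 F hZ r s) (4 * D) t
    have k2 : (fun s => po2 e v Z (r, 4 * D + s)) = fun s => po2 e v Z (r, s) := by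
      funext s
      rw [add_comm]
      exact hp s
    rw [k2] at k
    unfold S3U.sp
    rw [add_comm t (4 * D), ← k]
    have k3 : po2 e v Z (r, 4 * D + t) = po2 e v Z (r, t) := congrFun k2 t
    exact congrArg (fun q : M => nm q (WC.vl (fun s => po2 e v Z (r, s)) t : E)) k3
  have h := En_insc (E := E) (D := D) hD hc hp hsp
  exact h

/-- **inscription**: quadratic decrease of the energy of the loops implies strict concavity of the
energy of the inscribed 8-gons -/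
theorem neg_insc (F : Facts e) (hD : 0 < D) (hB : InjGE e D) (hdiam : ∀ p q : M, dist p q ≤ D)
    (hZ : ∀ t, FA e v Z t) (hper : ∀ t, Z (t + 4 * D) = Z t)
    (h : ∃ c : ℝ, 0 < c ∧ ∃ r₀ : ℝ, 0 < r₀ ∧ ∀ r, |r| ≤ r₀ →
      S3E2.enT e (4 * D) v Z r ≤ 4 * D - c * r ^ 2) :
    Neg D (fun r i => e (x8 e D v i) (r • Z ((2 * i.val + 1) * (D / 4)) : E)) := by
  obtain ⟨c, hc, r₀, hr₀, h⟩ := h
  refine ⟨D / 2 * c, by positivity, ?_⟩
  filter_upwards [Metric.closedBall_mem_nhds (0 : ℝ) hr₀] with r hr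
  have hr' : |r| ≤ r₀ := by
    rw [Metric.mem_closedBall, Real.dist_eq, sub_zero] at hr
    exact hr
  have k1 := En_po2 F hD hB hdiam hZ hper r
  have k2 := mul_le_mul_of_nonneg_left (h r hr') (by positivity : (0 : ℝ) ≤ D / 2)
  refine (k1.trans k2).trans (le_of_eq ?_)
  ring

end One

/-! ### families -/

variable {W : Type} [NormedAddCommGroup W] [NormedSpace ℝ W] [FiniteDimensional ℝ W]

/-- the 8-gons inscribed in the loops of a family of fields -/
def Yin (e : ∀ x : M, TangentSpace 𝓘(ℝ, E) x → M) (D : ℝ) (Z : (UT E M × W) × ℝ → ℝ → E)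
    (p : (UT E M × W) × ℝ) (i : ZMod 8) : M :=
  e (x8 e D p.1.1 i) (Z p ((2 * i.val + 1) * (D / 4)) : E)

/-- **the family of the inscribed 8-gons**, smoothness -/
theorem sfm_Yin (F : Facts e) {Z : (UT E M × W) × ℝ → ℝ → E}
    (hsmul : ∀ v w θ (r t : ℝ), Z ((v, r • w), θ) t = r • Z ((v, w), θ) t)
    (hsm : ∀ i : ZMod 8, ∀ {E' : Type} [NormedAddCommGroup E'] [NormedSpace ℝ E']
      [FiniteDimensional ℝ E'] {u : E' → (UT E M × W) × ℝ} {x : E'},
      (((dUT E M).prod (Dif.lin W)).prod (Dif.lin ℝ)).At u x →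
      (dTM E M).At (fun s => tb (x8 e D (u s).1.1 i) (Z (u s) ((2 * i.val + 1) * (D / 4)))) x) :
    SFm e D (Yin e D Z) where
  smooth i E' _ _ _ u x hu := at_exp F (hsm i hu)
  zero v θ := by
    funext i
    have k : Z ((v, (0 : W)), θ) ((2 * i.val + 1) * (D / 4)) = 0 := by
      have k1 := hsmul v 0 θ 0 ((2 * i.val + 1) * (D / 4))
      rwa [zero_smul, zero_smul] at k1
    change e (x8 e D v i) (Z ((v, (0 : W)), θ) ((2 * i.val + 1) * (D / 4)) : E) = x8 e D v i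
    rw [k]
    exact F.isExp.map_zero _

/-- **the family of the inscribed 8-gons**, negativity -/
theorem neg_Yin (F : Facts e) (hD : 0 < D) (hB : InjGE e D) (hdiam : ∀ p q : M, dist p q ≤ D)
    {Z : (UT E M × W) × ℝ → ℝ → E}
    (hsmul : ∀ v w θ (r t : ℝ), Z ((v, r • w), θ) t = r • Z ((v, w), θ) t) {v : UT E M} {w : W}
    {θ : ℝ} (hZ : ∀ t, FA e v (Z ((v, w), θ)) t)
    (hper : ∀ t, Z ((v, w), θ) (t + 4 * D) = Z ((v, w), θ) t)
    (h : ∃ c : ℝ, 0 < c ∧ ∃ r₀ : ℝ, 0 < r₀ ∧ ∀ r, |r| ≤ r₀ →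
      S3E2.enT e (4 * D) v (Z ((v, w), θ)) r ≤ 4 * D - c * r ^ 2) :
    Neg D (fun r => Yin e D Z ((v, r • w), θ)) := by
  have k : (fun r : ℝ => Yin e D Z ((v, r • w), θ)) = fun r i =>
      e (x8 e D v i) (r • Z ((v, w), θ) ((2 * i.val + 1) * (D / 4)) : E) := by
    funext r i
    unfold Yin
    rw [hsmul]
  rw [k]
  exact neg_insc F hD hB hdiam hZ hper h

end

end Vale.Agent.P231.S3B3
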