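import Vale.Agent.P231.S3B3.Corner
import Vale.Agent.P231.S2N.Main

/-!
# P231, stage 3, block S3-B3, part 5: the unit vectors in the directions `v + w`
-/

set_option maxSynthPendingDepth 3
set_option linter.unusedSectionVars false
set_option linter.unusedVariables false

open Bundle Manifold Set Filter Module
open scoped ContDiff Manifold Topology

namespace Vale.Agent.P231.S3B3

noncomputable section

open Vale.Agent.P234 Vale.Agent.P231 Vale.Agent.P231.H775 Vale.Agent.P231.Fm Vale.Agent.P231.W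
open Vale.Agent.P231.H766 Vale.Agent.P231.WD3 Vale.Agent.P231.WF Vale.Agent.P231.S3A
open Vale.Agent.P231.WR Vale.Agent.P231.S2N

variable {E : Type*} [NormedAddCommGroup E] [NormedSpace ℝ E] [FiniteDimensional ℝ E]
  {M : Type*} [MetricSpace M] [ChartedSpace E M] [IsManifold 𝓘(ℝ, E) ∞ M]
  [RiemannianBundle (fun x : M => TangentSpace 𝓘(ℝ, E) x)]
  [IsContMDiffRiemannianBundle 𝓘(ℝ, E) ∞ E (fun x : M => TangentSpace 𝓘(ℝ, E) x)]
  {e : ∀ x : M, TangentSpace 𝓘(ℝ, E) x → M}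
  [CompactSpace M] [ConnectedSpace M] [IsRiemannianManifold 𝓘(ℝ, E) M] {D : ℝ}

theorem ip_sub_right' (x : M) (a b c : E) : ip x a (b - c) = ip x a b - ip x a c :=
  inner_sub_right (𝕜 := ℝ) (E := TangentSpace 𝓘(ℝ, E) x) _ _ _

theorem ip_zero_right' (x : M) (a : E) : ip x a (0 : E) = 0 :=
  inner_zero_right (𝕜 := ℝ) (E := TangentSpace 𝓘(ℝ, E) x) _

theorem nv_ne (v : UT E M) (w : E) :
    vec' v + (w - ip (foot v) (vec' v) w • vec' v) ≠ 0 := by
  intro h
  have h1 := congrArg (fun a : E => ip (foot v) (vec' v) a) h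
  simp only [ip_add_right', ip_sub_right', ip_smul_right', ip_zero_right', ip_vec'] at h1
  linarith

/-- the unit vector in the direction `v + w` (`w` is made orthogonal to `v`) -/
def nv (v : UT E M) (w : E) : UT E M :=
  W.mk (foot v) (nrm (foot v) (vec' v + (w - ip (foot v) (vec' v) w • vec' v)))
    (nm_nrm (nv_ne v w))

@[simp] theorem foot_nv (v : UT E M) (w : E) : foot (nv v w) = foot v := rfl

theorem vec'_nv (v : UT E M) (w : E) : vec' (nv v w) =
    nrm (foot v) (vec' v + (w - ip (foot v) (vec' v) w • vec' v)) := rfl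

theorem vec'_nv' {v : UT E M} {w : E} (h : ip (foot v) (vec' v) w = 0) :
    vec' (nv v w) = nrm (foot v) (vec' v + w) := by
  rw [vec'_nv, h, zero_smul, sub_zero]

theorem nv_zero (v : UT E M) : nv v (0 : E) = v := by
  rw [← mk_eta v]
  refine mk_congr (mk_eta v ▸ rfl) ?_
  rw [ip_zero_right', zero_smul, sub_zero, add_zero]
  rw [mk_eta v]
  exact nrm_of_one (nm_vec' v)

section Plots

variable {E' : Type} [NormedAddCommGroup E'] [NormedSpace ℝ E'] [FiniteDimensional ℝ E']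

theorem at_nv {u : E' → UT E M} {a : E' → E} {x : E'} (hu : (dUT E M).At u x)
    (ha : (dTM E M).At (fun s => tb (foot (u s)) (a s)) x) :
    (dUT E M).At (fun s => nv (u s) (a s)) x := by
  have h1 : (dTM E M).At (fun s => tb (foot (u s)) (vec' (u s))) x := hu
  have h2 : Sm (fun s => -ip (foot (u s)) (vec' (u s)) (a s)) x := by
    filter_upwards [sm_ip_tb h1 ha] with s hs using hs.neg
  have h3 := at_add h1 (at_add ha (at_smul h2 h1))
  have h4 : (fun s => tb (foot (u s)) (vec' (u s) + (a s + -ip (foot (u s)) (vec' (u s)) (a s) •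
      vec' (u s)))) = fun s => tb (foot (u s)) (vec' (u s) + (a s - ip (foot (u s))
        (vec' (u s)) (a s) • vec' (u s))) := by
    funext s
    refine tb_congr rfl ?_
    rw [neg_smul, ← sub_eq_add_neg]
  rw [h4] at h3
  exact at_nrm h3 fun s => nv_ne (u s) (a s)

end Plots

/-! ### the direction `v + w`, `w ∈ L_v` -/

theorem ip_self_eq (x : M) (a : E) : ip x a a = nm x a ^ 2 :=
  real_inner_self_eq_norm_sq (F := TangentSpace 𝓘(ℝ, E) x) _

theorem nm_add_sq {v : UT E M} {w : E} (h : ip (foot v) (vec' v) w = 0) :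
    nm (foot v) (vec' v + w) ^ 2 = 1 + nm (foot v) w ^ 2 := by
  rw [← ip_self_eq, ip_add_right', ip_add_left', ip_add_left', ip_comm' _ w (vec' v), h, ip_vec',
    ip_self_eq]
  ring

theorem nm_add_eq {v : UT E M} {w : E} (h : ip (foot v) (vec' v) w = 0) :
    nm (foot v) (vec' v + w) = Real.sqrt (1 + nm (foot v) w ^ 2) := by
  rw [← nm_add_sq h, Real.sqrt_sq (nm_nonneg _ _)]

/-- the pair of a nonzero vector of `L_v` -/
theorem exists_pair (F : Facts e) (hD : 0 < D) (hB : InjGE e D)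
    (hdiam : ∀ p q : M, dist p q ≤ D) {v : UT E M} {w : E}
    (hw : (w : TangentSpace 𝓘(ℝ, E) (foot v)) ∈ Lf e D v) (h0 : w ≠ 0) :
    ∃ p : Pr e D, p.v = v ∧ foot p.w = foot v ∧ w = nm (foot v) w • vec' p.w ∧
      nv v w = rv p (Real.arctan (nm (foot v) w)) := by
  have hn : 0 < nm (foot v) w := nm_pos' h0
  have h1 : nm (foot v) (nrm (foot v) w) = 1 := nm_nrm h0
  have h2 : ((nrm (foot v) w : E) : TangentSpace 𝓘(ℝ, E) (foot v)) ∈ Lf e D v :=
    Submodule.smul_mem _ _ hw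
  have h3 := (isL_iff F hD hB hdiam h1).1 h2
  have ho : ip (foot v) (vec' v) w = 0 := (mem_Lf.1 hw).2
  have hw' : w = nm (foot v) w • nrm (foot v) w := by
    unfold nrm
    rw [smul_smul, mul_inv_cancel₀ hn.ne', one_smul]
  refine ⟨⟨(v, W.mk (foot v) (nrm (foot v) w) h1), h3⟩, rfl, rfl, hw', ?_⟩
  refine mk_congr rfl ?_
  change nrm (foot v) (vec' v + (w - ip (foot v) (vec' v) w • vec' v)) =
    Real.cos (Real.arctan (nm (foot v) w)) • vec' v +
      Real.sin (Real.arctan (nm (foot v) w)) • nrm (foot v) w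
  rw [ho, zero_smul, sub_zero, Real.cos_arctan, Real.sin_arctan]
  have h4 : nrm (foot v) (vec' v + w) =
      (nm (foot v) (vec' v + w))⁻¹ • (vec' v + w) := rfl
  rw [h4, nm_add_eq ho]
  conv_lhs => rw [hw']
  have h5 : nm (foot v) (nm (foot v) w • nrm (foot v) w) = nm (foot v) w := by rw [← hw']
  rw [h5, smul_add, smul_smul, one_div]
  congr 2
  rw [div_eq_mul_inv, mul_comm]

/-- the end of the geodesic does not change -/
theorem bar_nv (F : Facts e) (hD : 0 < D) (hB : InjGE e D)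
    (hdiam : ∀ p q : M, dist p q ≤ D) {v : UT E M} {w : E}
    (hw : (w : TangentSpace 𝓘(ℝ, E) (foot v)) ∈ Lf e D v) : bar e D (nv v w) = bar e D v := by
  rcases eq_or_ne w 0 with h0 | h0
  · rw [h0, nv_zero]
  · obtain ⟨p, h1, h2, h3, h4⟩ := exists_pair F hD hB hdiam hw h0
    rw [h4, bar_rv F hD hB hdiam, h1]

/-- the arrival velocity -/
theorem vec'_phi_nv (F : Facts e) (hD : 0 < D) (hB : InjGE e D)
    (hdiam : ∀ p q : M, dist p q ≤ D) {v : UT E M} {w : E}
    (hw : (w : TangentSpace 𝓘(ℝ, E) (foot v)) ∈ Lf e D v) :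
    vec' (phi F (nv v w, D)) = (Real.sqrt (1 + nm (foot v) w ^ 2))⁻¹ •
      (vec' (phi F (v, D)) + Tr F hD hB hdiam v w) := by
  rcases eq_or_ne w 0 with h0 | h0
  · have h1 : nm (foot v) (0 : E) = 0 := norm_zero (E := TangentSpace 𝓘(ℝ, E) (foot v))
    have h2 : Tr F hD hB hdiam v (0 : E) = 0 := by
      have k := Tr_smul F hD hB hdiam v 0 (0 : E)
      rwa [zero_smul, zero_smul] at k
    rw [h0, nv_zero, h1, h2]
    simp
  · obtain ⟨p, h1, h2, h3, h4⟩ := exists_pair F hD hB hdiam hw h0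
    have h5 : IsL e D v p.w := h1 ▸ p.isL
    rw [h4, phi_rv F hD hB hdiam, vec'_rv, Th_v, Th_w, h1, Real.cos_arctan, Real.sin_arctan]
    have h6 : Tr F hD hB hdiam v w = nm (foot v) w • vec' (phi F (p.w, D)) := by
      conv_lhs => rw [h3]
      rw [Tr_smul, h5.Tr_eq F hD hB hdiam]
    rw [h6, smul_add, smul_smul, one_div]
    congr 2
    rw [div_eq_mul_inv, mul_comm]

theorem vec'_nv_of_mem {v : UT E M} {w : E}
    (hw : (w : TangentSpace 𝓘(ℝ, E) (foot v)) ∈ Lf e D v) :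
    vec' (nv v w) = (Real.sqrt (1 + nm (foot v) w ^ 2))⁻¹ • (vec' v + w) := by
  have ho : ip (foot v) (vec' v) w = 0 := (mem_Lf.1 hw).2
  rw [vec'_nv' ho]
  unfold nrm
  rw [nm_add_eq ho]

/-- the derivative of the normalising factor -/
theorem hasDerivAt_nf (a : ℝ) : HasDerivAt (fun r : ℝ => (Real.sqrt (1 + (r * a) ^ 2))⁻¹) 0 0 := by
  have h1 : HasDerivAt (fun r : ℝ => 1 + (r * a) ^ 2) 0 0 := by
    have k := ((((hasDerivAt_id (0 : ℝ)).mul_const a).pow 2).const_add 1)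
    refine k.congr_deriv ?_
    simp
  have h2 := h1.sqrt (by simp)
  have h3 := h2.inv (by simp)
  refine h3.congr_deriv ?_
  simp

theorem nm_smul_sq (x : M) (r : ℝ) (w : E) : nm x (r • w) ^ 2 = (r * nm x w) ^ 2 := by
  rw [nm_smul, mul_pow, mul_pow, sq_abs]

variable {v : UT E M} {w : E}

theorem hasDerivAt_vec_nv (hw : (w : TangentSpace 𝓘(ℝ, E) (foot v)) ∈ Lf e D v) :
    HasDerivAt (fun r : ℝ => (vec' (nv v (r • w)) : E)) w 0 := by
  have h1 : (fun r : ℝ => (vec' (nv v (r • w)) : E)) = fun r : ℝ =>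
      (Real.sqrt (1 + (r * nm (foot v) w) ^ 2))⁻¹ • (vec' v + r • w) := by
    funext r
    have hr : ((r • w : E) : TangentSpace 𝓘(ℝ, E) (foot v)) ∈ Lf e D v :=
      Submodule.smul_mem _ _ hw
    rw [vec'_nv_of_mem hr, nm_smul_sq]
  rw [h1]
  have h2 : HasDerivAt (fun r : ℝ => vec' v + r • w) w 0 := by
    have k := ((hasDerivAt_id (0 : ℝ)).smul_const w).const_add (vec' v)
    rwa [one_smul] at k
  refine ((hasDerivAt_nf (nm (foot v) w)).smul h2).congr_deriv ?_
  simp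

theorem hasDerivAt_vec_phi_nv (F : Facts e) (hD : 0 < D) (hB : InjGE e D)
    (hdiam : ∀ p q : M, dist p q ≤ D) (hw : (w : TangentSpace 𝓘(ℝ, E) (foot v)) ∈ Lf e D v) :
    HasDerivAt (fun r : ℝ => (vec' (phi F (nv v (r • w), D)) : E)) (Tr F hD hB hdiam v w) 0 := by
  have h1 : (fun r : ℝ => (vec' (phi F (nv v (r • w), D)) : E)) = fun r : ℝ =>
      (Real.sqrt (1 + (r * nm (foot v) w) ^ 2))⁻¹ • (vec' (phi F (v, D)) +
        r • Tr F hD hB hdiam v w) := by
    funext r
    have hr : ((r • w : E) : TangentSpace 𝓘(ℝ, E) (foot v)) ∈ Lf e D v :=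
      Submodule.smul_mem _ _ hw
    rw [vec'_phi_nv F hD hB hdiam hr, nm_smul_sq, Tr_smul]
  rw [h1]
  have h2 : HasDerivAt (fun r : ℝ => vec' (phi F (v, D)) + r • Tr F hD hB hdiam v w)
      (Tr F hD hB hdiam v w) 0 := by
    have k := ((hasDerivAt_id (0 : ℝ)).smul_const (Tr F hD hB hdiam v w)).const_add
      (vec' (phi F (v, D)))
    rwa [one_smul] at k
  refine ((hasDerivAt_nf (nm (foot v) w)).smul h2).congr_deriv ?_
  simp

/-- the velocity of the points of the geodesics -/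
theorem vl_gm_nv (F : Facts e) (hw : (w : TangentSpace 𝓘(ℝ, E) (foot v)) ∈ Lf e D v) (ρ : ℝ) :
    (WC.vl (fun r : ℝ => gm e (nv v (r • w), ρ)) 0 : E) = Jc e v w ρ := by
  have h1 : HasDerivAt (fun r : ℝ => (ρ • vec' (nv v (r • w)) : TangentSpace 𝓘(ℝ, E) (foot v)))
      (ρ • w : E) 0 := (hasDerivAt_vec_nv hw).const_smul ρ
  have h2 := mfderiv_exp_curve F.isExp (foot v) h1
  have h3 : (WC.vl (fun r : ℝ => gm e (nv v (r • w), ρ)) 0 : E) =
      dE e (foot v) (ρ • vec' (nv v ((0 : ℝ) • w))) (ρ • w) := h2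
  rw [h3, zero_smul, nv_zero, dE_smul, Jc_eq F]

end

end Vale.Agent.P231.S3B3
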