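import Vale.Agent.P231.S3B3.Fam
import Vale.Agent.P231.S3B3.Hzero
import Vale.Agent.P231.S3E2.Inv

/-!
# P231, stage 3, block S3-B3: corner fields from families of coefficients; slices
-/

set_option maxSynthPendingDepth 3
set_option linter.unusedSectionVars false
set_option linter.unusedVariables false

open Bundle Manifold Set Filter Module MeasureTheory
open scoped ContDiff Manifold Topology ENNReal

namespace Vale.Agent.P231.S3B3

noncomputable section

open Vale.Agent.P234 Vale.Agent.P231 Vale.Agent.P231.H775 Vale.Agent.P231.Fm Vale.Agent.P231.W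
open Vale.Agent.P231.H766 Vale.Agent.P231.WD3 Vale.Agent.P231.WF Vale.Agent.P231.S3A
open Vale.Agent.P231.WR Vale.Agent.P231.S2N Vale.Agent.P231.S3Y

variable {E : Type*} [NormedAddCommGroup E] [NormedSpace ℝ E] [FiniteDimensional ℝ E]
  {M : Type*} [MetricSpace M] [ChartedSpace E M] [IsManifold 𝓘(ℝ, E) ∞ M]
  [RiemannianBundle (fun x : M => TangentSpace 𝓘(ℝ, E) x)]
  [IsContMDiffRiemannianBundle 𝓘(ℝ, E) ∞ E (fun x : M => TangentSpace 𝓘(ℝ, E) x)]
  {e : ∀ x : M, TangentSpace 𝓘(ℝ, E) x → M}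
  [CompactSpace M] [ConnectedSpace M] [IsRiemannianManifold 𝓘(ℝ, E) M] {D : ℝ}
  {ι : Type} [Fintype ι] [DecidableEq ι]

/-! ### the projections of the triples -/

/-- the projection of the triples `(a, x, y)` -/
def P3 (P : UT E M → EuclideanSpace ℝ ι →L[ℝ] EuclideanSpace ℝ ι) (v : UT E M) :
    Wp ι →L[ℝ] Wp ι := (P v).prodMap ((P v).prodMap (P v))

variable {P : UT E M → EuclideanSpace ℝ ι →L[ℝ] EuclideanSpace ℝ ι}

theorem P3_apply (v : UT E M) (w : Wp ι) : P3 P v w = (P v w.1, (P v w.2.1, P v w.2.2)) := rfl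

theorem P3_iff (v : UT E M) (w : Wp ι) :
    P3 P v w = w ↔ P v w.1 = w.1 ∧ P v w.2.1 = w.2.1 ∧ P v w.2.2 = w.2.2 := by
  rw [P3_apply, Prod.ext_iff, Prod.ext_iff]

theorem prjF_P3 (hm : ∀ {V : Type} [NormedAddCommGroup V] [NormedSpace ℝ V]
    [FiniteDimensional ℝ V] {u : V → UT E M} {x : V}, (dUT E M).At u x →
      Sm (fun s => P (u s)) x) (hid : ∀ v c, P v (P v c) = P v c) : PrjF (P3 P) where
  map := by
    intro V _ _ _ u w x hu hw
    filter_upwards [hm hu, hw] with s h1 h2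
    exact (h1.clm_apply h2.fst).prodMk ((h1.clm_apply h2.snd.fst).prodMk (h1.clm_apply h2.snd.snd))
  idem v w := by
    rw [P3_apply, P3_apply]
    simp only [hid]

/-! ### coefficient families -/

/-- families of coefficients at the corners -/
structure Cof (P : UT E M → EuclideanSpace ℝ ι →L[ℝ] EuclideanSpace ℝ ι)
    (C : (UT E M × Wp ι) × ℝ → Fin 4 → EuclideanSpace ℝ ι) : Prop where
  smul : ∀ v w θ (r : ℝ) j, C ((v, r • w), θ) j = r • C ((v, w), θ) j
  smooth : ∀ j, ∀ {E' : Type} [NormedAddCommGroup E'] [NormedSpace ℝ E'] [FiniteDimensional ℝ E']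
    {u : E' → (UT E M × Wp ι) × ℝ} {x : E'},
      (((dUT E M).prod (Dif.lin (Wp ι))).prod (Dif.lin ℝ)).At u x → Sm (fun s => C (u s) j) x
  fix : ∀ v w θ j, P3 P v w = w → P v (C ((v, w), θ) j) = C ((v, w), θ) j
  opn : ∀ v, ∀ θ ∈ Icc (0 : ℝ) 1, ∀ w, P3 P v w = w → w ≠ 0 →
    ∃ j : Fin 4, C ((v, w), θ) (j + 1) + C ((v, w), θ) j ≠ 0

variable {F : Facts e} {hD : 0 < D} {hB : InjGE e D} {hdiam : ∀ p q : M, dist p q ≤ D}
  {wm : UT E M → EuclideanSpace ℝ ι → E}
  {C : (UT E M × Wp ι) × ℝ → Fin 4 → EuclideanSpace ℝ ι}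

/-- **(C1)** corner fields from coefficients -/
theorem Cof.cf (hS : Src F hD hB hdiam P wm) (h : Cof P C) :
    CF F hD hB hdiam (P3 P) (fun p j => wm (vj F D p.1.1 j) (C p j)) where
  mem p j := hS.mem _ _
  smul v w θ r j := by
    simp only
    rw [h.smul, hS.smul]
  smooth j E' _ _ _ u x hu := hS.smooth (at_vj F hu.1.1 j) (h.smooth j hu)
  opn v θ hθ w hw hw0 := by
    obtain ⟨j, hj⟩ := h.opn v θ hθ w hw hw0
    refine ⟨j, fun h0 => hj ?_⟩
    simp only at h0
    have hPj : P (vj F D v j) = P v := hS.P_phi _ _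
    have h1 := hS.half (vj F D v j) (C ((v, w), θ) j) (by rw [hPj]; exact h.fix v w θ j hw)
    rw [vj_succ F hD hB hdiam, ← neg_eq_iff_eq_neg.2 h1, eq_neg_iff_add_eq_zero, ← hS.add] at h0
    refine hS.inj _ _ ?_ h0
    rw [hS.P_phi, hPj, map_add, h.fix v w θ j hw, h.fix v w θ (j + 1) hw]

/-! ### (C2) slices -/

theorem cc_zero_eq (w : Wp ι) : cc D 0 w = D • w.1 + kap' D • w.2.1 := by
  unfold cc
  simp

theorem cc_one_eq (w : Wp ι) : cc D 1 w = D • w.1 - kap' D • w.2.2 := by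
  unfold cc
  simp [sub_eq_add_neg]

theorem cc_two_eq (w : Wp ι) : cc D 2 w = D • w.1 - kap' D • w.2.1 := by
  unfold cc
  have h1 : (((2 : Fin 4).val : ℝ)) * (Real.pi / 2) = Real.pi := by
    have : ((2 : Fin 4).val : ℝ) = 2 := by norm_cast
    rw [this]
    ring
  rw [h1, Real.cos_pi, Real.sin_pi]
  module

theorem cc_three_eq (w : Wp ι) : cc D 3 w = D • w.1 + kap' D • w.2.2 := by
  unfold cc
  have h1 : (((3 : Fin 4).val : ℝ)) * (Real.pi / 2) = Real.pi + Real.pi / 2 := by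
    have : ((3 : Fin 4).val : ℝ) = 3 := by norm_cast
    rw [this]
    ring
  rw [h1, Real.cos_add, Real.sin_add, Real.cos_pi, Real.sin_pi, Real.cos_pi_div_two,
    Real.sin_pi_div_two]
  module

/-- if all four corners close, the parameters vanish -/
theorem corners_zero (hD : 0 < D) {w : Wp ι} (h : ∀ j : Fin 4, cc D (j + 1) w + cc D j w = 0) :
    w = 0 := by
  have h0 : cc D 1 w + cc D 0 w = 0 := h 0
  have h1 : cc D 2 w + cc D 1 w = 0 := h 1
  have h2 : cc D 3 w + cc D 2 w = 0 := h 2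
  have h3 : cc D 0 w + cc D 3 w = 0 := h 3
  rw [cc_one_eq, cc_zero_eq] at h0
  rw [cc_two_eq, cc_one_eq] at h1
  rw [cc_three_eq, cc_two_eq] at h2
  rw [cc_zero_eq, cc_three_eq] at h3
  have hk := kap'_pos hD
  have k1 : w.1 = 0 := by
    have : (4 * D) • w.1 = 0 := by
      calc (4 * D) • w.1 = (D • w.1 - kap' D • w.2.2 + (D • w.1 + kap' D • w.2.1)) +
            (D • w.1 + kap' D • w.2.2 + (D • w.1 - kap' D • w.2.1)) := by module
        _ = 0 := by rw [h0, h2, add_zero]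
    exact (smul_eq_zero.1 this).resolve_left (by positivity)
  rw [k1, smul_zero] at h0 h3
  have k2 : w.2.1 = 0 := by
    have : (2 * kap' D) • w.2.1 = 0 := by
      calc (2 * kap' D) • w.2.1 = ((0 : EuclideanSpace ℝ ι) - kap' D • w.2.2 +
            (0 + kap' D • w.2.1)) + (0 + kap' D • w.2.1 + (0 + kap' D • w.2.2)) := by module
        _ = 0 := by rw [h0, h3, add_zero]
    exact (smul_eq_zero.1 this).resolve_left (by positivity)
  rw [k2, smul_zero] at h3
  have k3 : w.2.2 = 0 := by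
    have : kap' D • w.2.2 = 0 := by simpa using h3
    exact (smul_eq_zero.1 this).resolve_left hk.ne'
  exact Prod.ext k1 (Prod.ext k2 k3)

/-- the slices `c_j - θ (-1)^j c_0` -/
def Csl (D : ℝ) (p : (UT E M × Wp ι) × ℝ) (j : Fin 4) : EuclideanSpace ℝ ι :=
  cc D j p.1.2 - (p.2 * (-1) ^ j.val) • cc D 0 p.1.2

theorem Csl_add (v : UT E M) (w : Wp ι) (θ : ℝ) (j : Fin 4) :
    Csl D ((v, w), θ) (j + 1) + Csl D ((v, w), θ) j = cc D (j + 1) w + cc D j w := by
  unfold Csl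
  fin_cases j
  · change cc D 1 w - (θ * (-1) ^ 1) • cc D 0 w + (cc D 0 w - (θ * (-1) ^ 0) • cc D 0 w) =
      cc D 1 w + cc D 0 w
    module
  · change cc D 2 w - (θ * (-1) ^ 2) • cc D 0 w + (cc D 1 w - (θ * (-1) ^ 1) • cc D 0 w) =
      cc D 2 w + cc D 1 w
    module
  · change cc D 3 w - (θ * (-1) ^ 3) • cc D 0 w + (cc D 2 w - (θ * (-1) ^ 2) • cc D 0 w) =
      cc D 3 w + cc D 2 w
    module
  · change cc D 0 w - (θ * (-1) ^ 0) • cc D 0 w + (cc D 3 w - (θ * (-1) ^ 3) • cc D 0 w) =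
      cc D 0 w + cc D 3 w
    module

theorem Csl_zero (q : UT E M × Wp ι) (j : Fin 4) : Csl D (q, 0) j = cc D j q.2 := by
  unfold Csl
  simp

theorem contDiff_cc (D : ℝ) (j : Fin 4) : ContDiff ℝ ∞ (cc (ι := ι) D j) := by
  unfold cc
  have a1 : ContDiff ℝ ∞ (fun w : Wp ι => w.1) := contDiff_fst
  have a2 : ContDiff ℝ ∞ (fun w : Wp ι => w.2.1) := contDiff_fst.comp contDiff_snd
  have a3 : ContDiff ℝ ∞ (fun w : Wp ι => w.2.2) := contDiff_snd.comp contDiff_snd
  exact ((contDiff_const (c := D)).smul a1).add ((contDiff_const (c := kap' D)).smul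
    (((contDiff_const (c := Real.cos (j.val * (Real.pi / 2)))).smul a2).sub
      ((contDiff_const (c := Real.sin (j.val * (Real.pi / 2)))).smul a3)))

theorem fix_cc {v : UT E M} {w : Wp ι} (h : P3 P v w = w) (j : Fin 4) :
    P v (cc D j w) = cc D j w := by
  obtain ⟨h1, h2, h3⟩ := (P3_iff v w).1 h
  unfold cc
  rw [map_add, map_smul, map_smul, map_sub, map_smul, map_smul, h1, h2, h3]

/-- **(C2)** the slices -/
theorem cof_Csl (hD : 0 < D) : Cof P (Csl (E := E) (M := M) (ι := ι) D) where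
  smul v w θ r j := by
    unfold Csl
    simp only [cc_smul, smul_sub, smul_comm r]
  smooth j E' _ _ _ u x hu := by
    have h2 : Sm (fun s => (u s).1.2) x := hu.1.2
    have h3 : Sm (fun s => (u s).2) x := hu.2
    filter_upwards [h2, h3] with s k2 k3
    have a1 : ContDiffAt ℝ ∞ (fun s => cc D j (u s).1.2) s := (contDiff_cc D j).contDiffAt.comp s k2
    have a2 : ContDiffAt ℝ ∞ (fun s => cc D 0 (u s).1.2) s := (contDiff_cc D 0).contDiffAt.comp s k2
    exact a1.sub ((k3.mul contDiffAt_const).smul a2)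
  fix v w θ j hw := by
    unfold Csl
    simp only
    rw [map_sub, map_smul, fix_cc hw, fix_cc hw]
  opn v θ hθ w hw hw0 := by
    by_contra h
    push Not at h
    exact hw0 (corners_zero hD fun j => by rw [← Csl_add v w θ j, h j])

/-- the corner coefficients of the last slice -/
def lam (D : ℝ) (w : Wp ι) : Fin 4 → EuclideanSpace ℝ ι :=
  ![0, (2 * D) • w.1 + kap' D • (w.2.1 - w.2.2), -((2 * kap' D) • w.2.1),
    (2 * D) • w.1 + kap' D • (w.2.1 + w.2.2)]

theorem Csl_one (q : UT E M × Wp ι) (j : Fin 4) : Csl D (q, 1) j = lam D q.2 j := by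
  unfold Csl lam
  fin_cases j
  · change cc D 0 q.2 - ((1 : ℝ) * (-1) ^ 0) • cc D 0 q.2 = 0
    module
  · change cc D 1 q.2 - ((1 : ℝ) * (-1) ^ 1) • cc D 0 q.2 =
      (2 * D) • q.2.1 + kap' D • (q.2.2.1 - q.2.2.2)
    rw [cc_one_eq, cc_zero_eq]
    module
  · change cc D 2 q.2 - ((1 : ℝ) * (-1) ^ 2) • cc D 0 q.2 = -((2 * kap' D) • q.2.2.1)
    rw [cc_two_eq, cc_zero_eq]
    module
  · change cc D 3 q.2 - ((1 : ℝ) * (-1) ^ 3) • cc D 0 q.2 =
      (2 * D) • q.2.1 + kap' D • (q.2.2.1 + q.2.2.2)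
    rw [cc_three_eq, cc_zero_eq]
    module

end

end Vale.Agent.P231.S3B3
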