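import Vale.Agent.P231.S3V.MapZ

/-!
# P231, stage 3, block S3-B3: the boundary operator as a linear field of kernel vectors
-/

set_option maxSynthPendingDepth 3
set_option linter.unusedSectionVars false
set_option linter.unusedVariables false

open Bundle Manifold Set Filter Module
open scoped ContDiff Manifold Topology

namespace Vale.Agent.P231.S3B3

noncomputable section

open Vale.Agent.P234 Vale.Agent.P231 Vale.Agent.P231.H775 Vale.Agent.P231.Fm Vale.Agent.P231.W
open Vale.Agent.P231.H766 Vale.Agent.P231.WD3 Vale.Agent.P231.WF Vale.Agent.P231.S3A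
open Vale.Agent.P231.WR Vale.Agent.P231.S2N

variable {E : Type*} [NormedAddCommGroup E] [NormedSpace ℝ E] [FiniteDimensional ℝ E]
  {M : Type*} [MetricSpace M] [ChartedSpace E M] [IsManifold 𝓘(ℝ, E) ∞ M]
  [RiemannianBundle (fun x : M => TangentSpace 𝓘(ℝ, E) x)]
  [IsContMDiffRiemannianBundle 𝓘(ℝ, E) ∞ E (fun x : M => TangentSpace 𝓘(ℝ, E) x)]
  {e : ∀ x : M, TangentSpace 𝓘(ℝ, E) x → M}
  [CompactSpace M] [ConnectedSpace M] [IsRiemannianManifold 𝓘(ℝ, E) M] {D : ℝ}

variable {ι : Type} [Fintype ι] [DecidableEq ι]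
  {l : ℕ} {X δ : ι → UT E M → E} {ε : ℝ}

/-- **the boundary operator of a family is a linear field of kernel vectors** -/
theorem src_Th (F : Facts e) (hD : 0 < D) (hB : InjGE e D) (hdiam : ∀ p q : M, dist p q ≤ D)
    (hP : ∀ x y : M, dist x y = D → finrank ℝ (H775.Pl e D x y) = l + 1)
    (h : S2N.Fam F hD hB hdiam l X δ ε) :
    Src F hD hB hdiam (Pm F D X δ ε) (fun u c => Th0 F hD hB hdiam (XX X c) u) where
  add u c c' := by
    simp only [Th0_XX, ← Finset.sum_add_distrib]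
    refine Finset.sum_congr rfl fun i _ => ?_
    rw [PiLp.add_apply, add_smul]
  smul u k c := by
    simp only [Th0_XX, Finset.smul_sum]
    refine Finset.sum_congr rfl fun i _ => ?_
    rw [PiLp.smul_apply, smul_eq_mul, mul_smul]
  mem u c := Th0_mem F hD hB hdiam _ u
  smooth {E'} _ _ _ {u c x} hu hc := by
    have hTh : ∀ i, Fld (Th0 F hD hB hdiam (X i)) := fun i =>
      fld_Th0 F hD hB hdiam hP (h.df i).fld
    have h1 := at_XX hTh hu hc
    have h2 : (fun s => tb (foot (u s)) (Th0 F hD hB hdiam (XX X (c s)) (u s))) = fun s =>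
        tb (foot (u s)) (XX (fun i => Th0 F hD hB hdiam (X i)) (c s) (u s)) := by
      funext s
      refine tb_congr rfl ?_
      rw [Th0_XX]
      rfl
    rw [h2]
    exact h1
  half u c _ := Th0_half F hD hB hdiam _ u
  inj u c hc h0 := h.inj hP u hc h0
  P_phi u t := Fam.Pm_phi F hD hB hdiam X δ ε u t

/-- **the pairing of the two fields of kernel vectors** -/
theorem ip_wv_Th (F : Facts e) (hD : 0 < D) (hB : InjGE e D) (hdiam : ∀ p q : M, dist p q ≤ D)
    (hP : ∀ x y : M, dist x y = D → finrank ℝ (H775.Pl e D x y) = l + 1)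
    (h : S2N.Fam F hD hB hdiam l X δ ε) (u : UT E M) {c : EuclideanSpace ℝ ι}
    (hc : Pm F D X δ ε u c = c) :
    ip (foot u) (S3V.wv (S3E2.Wi F hD hB hdiam X δ ε) u c)
      (Th0 F hD hB hdiam (XX X c) u) = ‖c‖ ^ 2 := by
  unfold S3V.wv
  rw [ip_sum_left, EuclideanSpace.norm_sq_eq]
  refine Finset.sum_congr rfl fun i _ => ?_
  rw [ip_smul_left', S3E2.ip_Wi hP h i u hc, Real.norm_eq_abs, sq_abs, sq]

/-- polarised form -/
theorem ip_wv_Th' (F : Facts e) (hD : 0 < D) (hB : InjGE e D) (hdiam : ∀ p q : M, dist p q ≤ D)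
    (hP : ∀ x y : M, dist x y = D → finrank ℝ (H775.Pl e D x y) = l + 1)
    (h : S2N.Fam F hD hB hdiam l X δ ε) (u : UT E M) (b : EuclideanSpace ℝ ι)
    {c : EuclideanSpace ℝ ι} (hc : Pm F D X δ ε u c = c) :
    ip (foot u) (S3V.wv (S3E2.Wi F hD hB hdiam X δ ε) u b)
      (Th0 F hD hB hdiam (XX X c) u) = inner ℝ b c := by
  unfold S3V.wv
  rw [ip_sum_left, PiLp.inner_apply]
  refine Finset.sum_congr rfl fun i _ => ?_
  rw [ip_smul_left', S3E2.ip_Wi hP h i u hc]
  simp [mul_comm]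

end

end Vale.Agent.P231.S3B3
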