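import Vale.Agent.P231.S3B3.Fam

/-!
# P231, stage 3, block S3-B3, part 9: negativity is an open condition on the parameter
-/

set_option maxSynthPendingDepth 3
set_option linter.unusedSectionVars false
set_option linter.unusedVariables false

open Bundle Manifold Set Filter Module
open scoped ContDiff Manifold Topology

namespace Vale.Agent.P231.S3B3

noncomputable section

open Vale.Agent.P234 Vale.Agent.P231 Vale.Agent.P231.H775 Vale.Agent.P231.Fm Vale.Agent.P231.W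
open Vale.Agent.P231.H766 Vale.Agent.P231.WD3 Vale.Agent.P231.WF Vale.Agent.P231.S3A

variable {E : Type*} [NormedAddCommGroup E] [NormedSpace ℝ E] [FiniteDimensional ℝ E]
  {M : Type*} [MetricSpace M] [ChartedSpace E M] [IsManifold 𝓘(ℝ, E) ∞ M]
  [RiemannianBundle (fun x : M => TangentSpace 𝓘(ℝ, E) x)]
  [IsContMDiffRiemannianBundle 𝓘(ℝ, E) ∞ E (fun x : M => TangentSpace 𝓘(ℝ, E) x)]
  {e : ∀ x : M, TangentSpace 𝓘(ℝ, E) x → M}
  [CompactSpace M] [ConnectedSpace M] [IsRiemannianManifold 𝓘(ℝ, E) M] {D : ℝ}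

variable {W : Type} [NormedAddCommGroup W] [NormedSpace ℝ W] [FiniteDimensional ℝ W]

/-- smooth families of 8-gons near the straight ones -/
structure SFm (e : ∀ x : M, TangentSpace 𝓘(ℝ, E) x → M) (D : ℝ)
    (Y : (UT E M × W) × ℝ → ZMod 8 → M) : Prop where
  smooth : ∀ i, (((dUT E M).prod (Dif.lin W)).prod (Dif.lin ℝ)).Map (dM E M) (fun p => Y p i)
  zero : ∀ v θ, Y ((v, 0), θ) = x8 e D v

variable {P : UT E M → W →L[ℝ] W} {Y Y' : (UT E M × W) × ℝ → ZMod 8 → M}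

theorem LFm.sfm (h : LFm e D P Y) : SFm e D Y := ⟨h.smooth, h.zero⟩

theorem SFm.lfm (h : SFm e D Y) (hn : ∀ v, ∀ θ ∈ Icc (0 : ℝ) 1, ∀ w, P v w = w → w ≠ 0 →
    Neg D (fun r => Y ((v, r • w), θ))) : LFm e D P Y := ⟨h.smooth, h.zero, hn⟩

theorem SFm.at_curve (h : SFm e D Y) (v : UT E M) (w : W) (θ : ℝ) (r : ℝ) (i : ZMod 8) :
    ContMDiffAt 𝓘(ℝ, ℝ) 𝓘(ℝ, E) ∞ (fun r : ℝ => Y ((v, r • w), θ) i) r := by
  have h1 : (dM E M).At (fun r : ℝ => Y ((v, r • w), θ) i) r :=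
    h.smooth i (u := fun r : ℝ => ((v, r • w), θ)) ⟨⟨H583.at_const v _,
      Sm.of_contDiff (contDiff_id.smul contDiff_const) _⟩, Sm.of_contDiff contDiff_const _⟩
  exact Filter.Eventually.self_of_nhds h1

theorem SFm.zero' (h : SFm e D Y) (v : UT E M) (w : W) (θ : ℝ) :
    Y ((v, (0 : ℝ) • w), θ) = x8 e D v := by
  rw [zero_smul, h.zero]

/-- reparametrisation of the homotopy parameter -/
theorem SFm.comp (h : SFm e D Y) {g : ℝ → ℝ} (hg : ContDiff ℝ ∞ g) :
    SFm e D (fun p : (UT E M × W) × ℝ => Y (p.1, g p.2)) where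
  smooth i E' _ _ _ u x hu := by
    refine h.smooth i (u := fun s => ((u s).1, g (u s).2)) ⟨hu.1, ?_⟩
    have h1 : Sm (fun s => (u s).2) x := hu.2
    exact Sm.comp (f := g) (Sm.of_contDiff hg _) h1
  zero v θ := h.zero v (g θ)

/-- negativity does not depend on the length of the direction -/
theorem SFm.neg_scale (F : Facts e) (hD : 0 < D) (hB : InjGE e D) (hdiam : ∀ p q : M, dist p q ≤ D)
    (h : SFm e D Y) {v : UT E M} {w : W} {θ a : ℝ} (ha : a ≠ 0)
    (hn : Neg D (fun r => Y ((v, r • w), θ))) : Neg D (fun r => Y ((v, r • (a • w)), θ)) := by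
  obtain ⟨c, hc, h1⟩ := hn
  refine ⟨c * a ^ 2, by positivity, ?_⟩
  have h2 : Tendsto (fun r : ℝ => r * a) (𝓝 0) (𝓝 0) := by
    have k : Continuous fun r : ℝ => r * a := by fun_prop
    have := k.tendsto 0
    rwa [zero_mul] at this
  filter_upwards [h2.eventually h1] with r hr
  rw [smul_smul]
  refine hr.trans (le_of_eq ?_)
  ring

/-- **negativity at `θ = 0` persists for small `θ`, uniformly** -/
theorem SFm.tube (F : Facts e) (hD : 0 < D) (hB : InjGE e D) (hdiam : ∀ p q : M, dist p q ≤ D)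
    (hP : PrjF P) (h : SFm e D Y)
    (hn : ∀ v w, P v w = w → w ≠ 0 → Neg D (fun r => Y ((v, r • w), 0))) :
    ∃ θ₀ : ℝ, 0 < θ₀ ∧ ∀ θ, |θ| ≤ θ₀ → ∀ v w, P v w = w → w ≠ 0 →
      Neg D (fun r => Y ((v, r • w), θ)) := by
  classical
  obtain ⟨φ⟩ : Nonempty (W ≃L[ℝ] EuclideanSpace ℝ (Fin (finrank ℝ W))) :=
    ⟨ContinuousLinearEquiv.ofFinrankEq (by rw [finrank_euclideanSpace, Fintype.card_fin])⟩
  let q : W → ℝ := fun w => ‖φ w‖ ^ 2
  have hq : ContDiff ℝ ∞ q := (contDiff_norm_sq ℝ).comp φ.contDiff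
  have hq0 : ∀ w, 0 ≤ q w := fun w => sq_nonneg _
  have hqs : ∀ w, q w = 0 → w = 0 := fun w hw => by
    have h1 : ‖φ w‖ = 0 := pow_eq_zero_iff (two_ne_zero) |>.1 hw
    exact (map_eq_zero_iff φ φ.injective).1 (norm_eq_zero.1 h1)
  let f : UT E M → W × ℝ → ℝ → ℝ := fun v z r =>
    En (Y ((v, r • P v z.1), z.2)) - r ^ 2 * q (z.1 - P v z.1)
  have hprop : ProperSpace W := FiniteDimensional.proper ℝ W
  set K : Set W := Metric.sphere (0 : W) 1 with hK
  have hKc : IsCompact K := isCompact_sphere _ _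
  have hplot : ∀ (E' : Type) [NormedAddCommGroup E'] [NormedSpace ℝ E'] [FiniteDimensional ℝ E']
      (c : E' → UT E M) (e₀ : E'), (dUT E M).At c e₀ → ∀ (z : W × ℝ) (r₀ : ℝ) (i : ZMod 8),
      (dM E M).At (fun q : (E' × (W × ℝ)) × ℝ =>
        Y ((c q.1.1, q.2 • P (c q.1.1) q.1.2.1), q.1.2.2) i) ((e₀, z), r₀) := by
    intro E' _ _ _ c e₀ hc z r₀ i
    have k1 : (dUT E M).At (fun q : (E' × (W × ℝ)) × ℝ => c q.1.1) ((e₀, z), r₀) :=
      (dUT E M).comp (u := c) (g := fun q : (E' × (W × ℝ)) × ℝ => q.1.1) (x := ((e₀, z), r₀)) hc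
        (Sm.of_contDiff (contDiff_fst.comp contDiff_fst) _)
    have k2 : Sm (fun q : (E' × (W × ℝ)) × ℝ => P (c q.1.1) q.1.2.1) ((e₀, z), r₀) :=
      hP.map k1 (Sm.of_contDiff (by fun_prop) _)
    have k3 : Sm (fun q : (E' × (W × ℝ)) × ℝ => q.2 • P (c q.1.1) q.1.2.1) ((e₀, z), r₀) := by
      filter_upwards [k2] with y hy
      exact contDiff_snd.contDiffAt.smul hy
    exact h.smooth i (u := fun q : (E' × (W × ℝ)) × ℝ =>
      ((c q.1.1, q.2 • P (c q.1.1) q.1.2.1), q.1.2.2)) ⟨⟨k1, k3⟩, Sm.of_contDiff (by fun_prop) _⟩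
  have hY0 : ∀ v (z : W × ℝ), Y ((v, (0 : ℝ) • P v z.1), z.2) = x8 e D v := fun v z =>
    h.zero' v _ _
  have hf : ∀ (E' : Type) [NormedAddCommGroup E'] [NormedSpace ℝ E'] [FiniteDimensional ℝ E']
      (c : E' → UT E M) (e₀ : E'), (dUT E M).At c e₀ → ∀ z : W × ℝ,
        Sm (fun q : (E' × (W × ℝ)) × ℝ => f (c q.1.1) q.1.2 q.2) ((e₀, z), 0) := by
    intro E' _ _ _ c e₀ hc z
    have k1 := hplot E' c e₀ hc z 0
    have k2 : ∀ᶠ q : (E' × (W × ℝ)) × ℝ in 𝓝 ((e₀, z), 0), ∀ i,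
        ContMDiffAt 𝓘(ℝ, (E' × (W × ℝ)) × ℝ) 𝓘(ℝ, E) ∞ (fun q : (E' × (W × ℝ)) × ℝ =>
          Y ((c q.1.1, q.2 • P (c q.1.1) q.1.2.1), q.1.2.2) i) q :=
      eventually_all.2 fun i => k1 i
    have k3 : ∀ᶠ q : (E' × (W × ℝ)) × ℝ in 𝓝 ((e₀, z), 0), ∀ i,
        sd (Y ((c q.1.1, q.2 • P (c q.1.1) q.1.2.1), q.1.2.2)) i < D := by
      refine eventually_all.2 fun i => ?_
      have a1 := (k2.self_of_nhds i).continuousAt.dist (k2.self_of_nhds (i + 1)).continuousAt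
      refine a1.eventually_lt_const ?_
      change dist (Y ((c e₀, (0 : ℝ) • P (c e₀) z.1), z.2) i)
        (Y ((c e₀, (0 : ℝ) • P (c e₀) z.1), z.2) (i + 1)) < D
      rw [hY0, dist_x8 F hD hB hdiam]
      linarith
    have k4 : Sm (fun q : (E' × (W × ℝ)) × ℝ =>
        En (Y ((c q.1.1, q.2 • P (c q.1.1) q.1.2.1), q.1.2.2))) ((e₀, z), 0) := by
      filter_upwards [k2, k3] with y a1 a2
      exact contDiffAt_En F hB a1 a2
    have k5 : (dUT E M).At (fun q : (E' × (W × ℝ)) × ℝ => c q.1.1) ((e₀, z), 0) :=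
      (dUT E M).comp (u := c) (g := fun q : (E' × (W × ℝ)) × ℝ => q.1.1) (x := ((e₀, z), 0)) hc
        (Sm.of_contDiff (contDiff_fst.comp contDiff_fst) _)
    have k6 : Sm (fun q : (E' × (W × ℝ)) × ℝ => P (c q.1.1) q.1.2.1) ((e₀, z), 0) :=
      hP.map k5 (Sm.of_contDiff (by fun_prop) _)
    filter_upwards [k4, k6] with y a1 a2
    refine a1.sub ((contDiff_snd.pow 2).contDiffAt.mul ?_)
    refine ContDiffAt.comp y (g := q) hq.contDiffAt ?_
    exact (contDiff_fst.comp (contDiff_snd.comp contDiff_fst)).contDiffAt.sub a2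
  have hcur : ∀ v (z : W × ℝ), ContDiffAt ℝ ∞ (fun r : ℝ => En (Y ((v, r • P v z.1), z.2))) 0 :=
    fun v z => contDiffAt_En_curve F hD hB hdiam (h.at_curve v _ _ 0) (h.zero' v _ _)
  have hev : ∀ v (z : W × ℝ), (deriv fun r => f v z r) =ᶠ[𝓝 0]
      fun r => deriv (fun r : ℝ => En (Y ((v, r • P v z.1), z.2))) r -
        2 * r * q (z.1 - P v z.1) := by
    intro v z
    have k1 : ∀ᶠ r in 𝓝 (0 : ℝ), DifferentiableAt ℝ
        (fun r : ℝ => En (Y ((v, r • P v z.1), z.2))) r := by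
      filter_upwards [((hcur v z).of_le (m := 1) (by exact_mod_cast le_top)).eventually
        (by simp)] with y hy
      exact hy.differentiableAt (by simp)
    filter_upwards [k1] with r hr
    have k2 := hr.hasDerivAt.sub (((hasDerivAt_id r).pow 2).mul_const (q (z.1 - P v z.1)))
    refine (HasDerivAt.deriv k2).trans ?_
    simp
  have hdd : ∀ v (z : W × ℝ), deriv (deriv (f v z)) 0 = deriv (deriv fun r : ℝ =>
      En (Y ((v, r • P v z.1), z.2))) 0 - 2 * q (z.1 - P v z.1) := by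
    intro v z
    have a1 : HasDerivAt (deriv fun r : ℝ => En (Y ((v, r • P v z.1), z.2)))
        (deriv (deriv fun r : ℝ => En (Y ((v, r • P v z.1), z.2))) 0) 0 := by
      have k1 : ContDiffAt ℝ ∞ (deriv fun r : ℝ => En (Y ((v, r • P v z.1), z.2))) 0 :=
        ((hcur v z).fderiv_right (m := ∞) (by simp)).clm_apply contDiffAt_const
      exact (k1.differentiableAt (by simp)).hasDerivAt
    have a2 := a1.sub (((hasDerivAt_id (0 : ℝ)).const_mul 2).mul_const (q (z.1 - P v z.1)))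
    rw [mul_one] at a2
    exact (hev v z).deriv_eq.trans a2.deriv
  have h2 : ∀ v, ∀ z ∈ K, deriv (deriv (f v (z, 0))) 0 < 0 := by
    intro v z hz
    rw [hdd]
    rcases eq_or_ne (P v z) 0 with h0 | h0
    · have k2 : (fun r : ℝ => En (Y ((v, r • P v z), 0))) = fun _ => En (x8 e D v) := by
        funext r
        rw [h0, smul_zero, h.zero]
      have k3 : deriv (deriv fun r : ℝ => En (Y ((v, r • P v z), 0))) 0 = 0 := by
        rw [k2]
        simp
      change deriv (deriv fun r : ℝ => En (Y ((v, r • P v z), 0))) 0 - 2 * q (z - P v z) < 0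
      rw [k3, h0, sub_zero]
      have hz1 : z ≠ 0 := by
        intro hz0
        have := mem_sphere_zero_iff_norm.1 hz
        rw [hz0, norm_zero] at this
        exact zero_ne_one this
      have k4 : 0 < q z := lt_of_le_of_ne (hq0 _) fun hc => hz1 (hqs _ hc.symm)
      linarith
    · have k2 := (neg_iff F hD hB hdiam (h.at_curve v (P v z) 0 0) (h.zero' v _ _)).1
        (hn v (P v z) (hP.idem v z) h0)
      have := hq0 (z - P v z)
      change deriv (deriv fun r : ℝ => En (Y ((v, r • P v z), 0))) 0 - 2 * q (z - P v z) < 0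
      linarith
  have key : ∀ᶠ θ in 𝓝 (0 : ℝ), ∀ v : UT E M, ∀ z ∈ K, deriv (deriv (f v (z, θ))) 0 < 0 := by
    refine (pc_UT (E := E) (M := M)).eventually (P := fun (θ : ℝ) v (z : W) =>
      deriv (deriv (f v (z, θ))) 0 < 0) hKc fun E' _ _ _ c e₀ hc z hz => ?_
    have k2 := (sm_dtt (hf E' c e₀ hc (z, 0))).continuousAt
    have k3 : Continuous fun p : ℝ × (E' × W) =>
      (((p.2.1, (p.2.2, p.1)), (0 : ℝ)) : (E' × (W × ℝ)) × ℝ) := by fun_prop
    have k5 : ContinuousAt (fun p : ℝ × (E' × W) =>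
        deriv (deriv fun r => f (c p.2.1) (p.2.2, p.1) r) 0) (0, (e₀, z)) :=
      ContinuousAt.comp (f := fun p : ℝ × (E' × W) =>
          (((p.2.1, (p.2.2, p.1)), (0 : ℝ)) : (E' × (W × ℝ)) × ℝ))
        (g := fun q : (E' × (W × ℝ)) × ℝ => deriv (deriv fun r => f (c q.1.1) q.1.2 r) q.2) k2
        k3.continuousAt
    exact k5.eventually_lt_const (h2 (c e₀) z hz)
  obtain ⟨r₂, hr₂, hr₂'⟩ := Metric.eventually_nhds_iff.1 key
  refine ⟨r₂ / 2, by positivity, fun θ hθ v w hw hw0 => ?_⟩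
  have hn : 0 < ‖w‖ := norm_pos_iff.2 hw0
  set z : W := ‖w‖⁻¹ • w with hz
  have hz1 : ‖z‖ = 1 := by
    rw [hz, norm_smul, norm_inv, norm_norm, inv_mul_cancel₀ hn.ne']
  have hzK : z ∈ K := mem_sphere_zero_iff_norm.2 hz1
  have hPz : P v z = z := by rw [hz, map_smul, hw]
  have hwz : w = ‖w‖ • z := by
    rw [hz, smul_smul, mul_inv_cancel₀ hn.ne', one_smul]
  have k1 : deriv (deriv (f v (z, θ))) 0 < 0 :=
    hr₂' (y := θ) (by rw [Real.dist_eq, sub_zero]; linarith) v z hzK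
  have k2 : f v (z, θ) = fun r : ℝ => En (Y ((v, r • z), θ)) := by
    funext r
    change En (Y ((v, r • P v z), θ)) - r ^ 2 * q (z - P v z) = _
    have : q 0 = 0 := by simp [q]
    rw [hPz, sub_self, this, mul_zero, sub_zero]
  rw [k2] at k1
  have k3 := (neg_iff F hD hB hdiam (h.at_curve v z θ 0) (h.zero' v _ _)).2 k1
  rw [hwz]
  exact h.neg_scale F hD hB hdiam hn.ne' k3

end

end Vale.Agent.P231.S3B3
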